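import Crest.Agent.R101.Defs

/-! Row 101, combination step: `Setting φ U μ` is impossible, given `energy_le`, `parseval`,
`n0_neg` and `growth` (statements as in `Iface.lean`, as explicit hypotheses here). -/

set_option autoImplicit false

open MeasureTheory Metric Set Complex ComplexConjugate Filter Topology

namespace Crest.Agent.R101

/-- statement of `growth`. -/
def GrowthStmt : Prop := ∀ {φ : ℂ → ℂ} {U : ℂ → ℝ} {μ : ℝ}, Setting φ U μ →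
    ∃ C r : ℝ, 0 < r ∧ r < 1 ∧ ∀ z ∈ ball (0 : ℂ) r,
      |U z - U 0| ≤ C * ‖z‖ ^ 2 ∧ |dx U z| ≤ C * ‖z‖ ∧ |dy U z| ≤ C * ‖z‖

/-- statement of `energy_le`. -/
def EnergyStmt : Prop := ∀ {φ : ℂ → ℂ} {U W : ℂ → ℝ} {μ c0 : ℝ}, Setting φ U μ →
    WSet φ W μ c0 → ∀ {β : ℂ}, ‖β‖ = 1 →
    IntegrableOn (fun ζ => c0 ^ 2 * (RR β ζ ^ 2 * ‖φ ζ‖ ^ 2 * rho φ ζ)
      + 2 * (W ζ ^ 2 * ‖MM' β ζ‖ ^ 2) - 2 * c0 * (RR β ζ * kap φ β ζ * W ζ)) (ball 0 1) ∧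
    μ * ∫ ζ in ball (0 : ℂ) 1, (c0 ^ 2 * (RR β ζ ^ 2 * ‖φ ζ‖ ^ 2 * rho φ ζ)
      + 2 * (W ζ ^ 2 * ‖MM' β ζ‖ ^ 2) - 2 * c0 * (RR β ζ * kap φ β ζ * W ζ)) ≤
    c0 ^ 2 * (∫ ζ in ball (0 : ℂ) 1, ‖hp φ β ζ‖ ^ 2) +
      c0 * μ * ∫ ζ in ball (0 : ℂ) 1, rho φ ζ * W ζ * (MM β ζ ^ 2).re

/-- statement of `parseval`. -/
def ParsevalStmt : Prop := ∀ {φ : ℂ → ℂ}, Conf φ →
    IntegrableOn (fun ζ => ‖hp φ 1 ζ‖ ^ 2) (ball 0 1) ∧
    IntegrableOn (fun ζ => ‖hp φ I ζ‖ ^ 2) (ball 0 1) ∧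
    (∫ ζ in ball (0 : ℂ) 1, ‖hp φ 1 ζ‖ ^ 2) + (∫ ζ in ball (0 : ℂ) 1, ‖hp φ I ζ‖ ^ 2) =
      4 * ∫ ζ in ball (0 : ℂ) 1, rho φ ζ

/-- statement of `n0_neg`. -/
def N0Stmt : Prop := ∀ {φ : ℂ → ℂ}, Conf φ → ∀ {β : ℂ}, ‖β‖ = 1 →
    IntegrableOn (n0 φ β) (ball 0 1) ∧ ∫ ζ in ball (0 : ℂ) 1, n0 φ β ζ < 0

namespace Assemble

lemma MM'_ne {β ζ : ℂ} (hβ : ‖β‖ = 1) (hζ : ζ ∈ ball (0 : ℂ) 1) : MM' β ζ ≠ 0 := by
  intro h
  unfold MM' at h
  rw [mem_ball_zero_iff] at hζ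
  rcases eq_or_ne ζ 0 with rfl | h0
  · simp at h
    rw [h] at hβ
    simp at hβ
  · have h1 : conj β = β / ζ ^ 2 := by
      have : conj β = β / ζ ^ 2 + (-β / ζ ^ 2 + conj β) := by ring
      rw [this, h, add_zero]
    have h2 : ‖conj β‖ = ‖β‖ / ‖ζ‖ ^ 2 := by
      rw [h1, norm_div, norm_pow]
    rw [RCLike.norm_conj, hβ] at h2
    have h3 : 0 < ‖ζ‖ := norm_pos_iff.mpr h0
    have h4 : ‖ζ‖ ^ 2 = 1 := by
      field_simp at h2
      exact h2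
    nlinarith

lemma norm_MM_le {β ζ : ℂ} (hβ : ‖β‖ = 1) (h0 : ζ ≠ 0) (hζ : ‖ζ‖ ≤ 1) :
    ‖MM β ζ‖ ≤ 2 / ‖ζ‖ := by
  have h3 : 0 < ‖ζ‖ := norm_pos_iff.mpr h0
  unfold MM
  calc ‖β / ζ + conj β * ζ‖ ≤ ‖β / ζ‖ + ‖conj β * ζ‖ := norm_add_le _ _
    _ = 1 / ‖ζ‖ + ‖ζ‖ := by rw [norm_div, norm_mul, RCLike.norm_conj, hβ, one_mul]
    _ ≤ 1 / ‖ζ‖ + 1 / ‖ζ‖ := by
        have : ‖ζ‖ ≤ 1 / ‖ζ‖ := by
          rw [le_div_iff₀ h3]; nlinarith
        linarith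
    _ = 2 / ‖ζ‖ := by ring

lemma re_sq_sum {ζ : ℂ} (h0 : ζ ≠ 0) : (MM 1 ζ ^ 2).re + (MM I ζ ^ 2).re = 4 := by
  rw [← Complex.add_re]
  have : MM 1 ζ ^ 2 + MM I ζ ^ 2 = 4 := by
    unfold MM
    simp only [map_one, Complex.conj_I]
    field_simp
    ring_nf
    simp only [Complex.I_sq]
    ring
  rw [this]; norm_num

lemma ae_restrict_of_ae_ne {s : Set ℂ} (hs : MeasurableSet s) {P : ℂ → Prop}
    (h : ∀ z ∈ s, z ≠ 0 → P z) : ∀ᵐ z ∂(volume.restrict s), P z := by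
  rw [ae_restrict_iff' hs]
  have : ∀ᵐ z : ℂ ∂volume, z ≠ 0 := by
    rw [ae_iff]
    simp
  filter_upwards [this] with z hz hzs using h z hzs hz

/-- `ρ v` is integrable if `ρ v²` is. -/
lemma rho_mul_integrable {φ : ℂ → ℂ} {v : ℂ → ℝ} (hφ : Conf φ) (hv : Adm φ v) :
    IntegrableOn (fun z => rho φ z * v z) (ball 0 1) := by
  have hd : ContinuousOn (deriv φ) (ball 0 1) :=
    (hφ.holo.deriv isOpen_ball).continuousOn
  have hρc : ContinuousOn (rho φ) (ball 0 1) := by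
    unfold rho; exact hd.norm.pow 2
  have hmeas : AEStronglyMeasurable (fun z => rho φ z * v z) (volume.restrict (ball 0 1)) :=
    (hρc.mul hv.c1.continuousOn).aestronglyMeasurable measurableSet_ball
  have hint : IntegrableOn (fun z => rho φ z + rho φ z * v z ^ 2) (ball 0 1) :=
    hφ.rho_int.add hv.l2
  refine Integrable.mono' hint hmeas (Eventually.of_forall fun z => ?_)
  have hρ : 0 ≤ rho φ z := by unfold rho; positivity
  rw [Real.norm_eq_abs, abs_mul, abs_of_nonneg hρ]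
  have : |v z| ≤ 1 + v z ^ 2 := by
    rw [← sq_abs]; nlinarith [sq_nonneg (|v z| - 1), abs_nonneg (v z)]
  nlinarith

/-- integrability of `ρ W Re M²`. -/
lemma rho_W_MM_integrable {φ : ℂ → ℂ} {W : ℂ → ℝ} {μ c0 : ℝ} (hφ : Conf φ) (hW : WSet φ W μ c0)
    {β : ℂ} (hβ : ‖β‖ = 1) :
    IntegrableOn (fun ζ => rho φ ζ * W ζ * (MM β ζ ^ 2).re) (ball 0 1) := by
  obtain ⟨C, r, hr0, hr1, hg⟩ := hW.growth
  have hρW := rho_mul_integrable hφ hW.adm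
  have hint : IntegrableOn (fun z => 4 * |C| * rho φ z + (4 / r ^ 2) * |rho φ z * W z|)
      (ball 0 1) :=
    (hφ.rho_int.const_mul _).add (hρW.norm.const_mul _)
  have hmeas : AEStronglyMeasurable (fun ζ => rho φ ζ * W ζ * (MM β ζ ^ 2).re)
      (volume.restrict (ball 0 1)) := by
    refine hρW.aestronglyMeasurable.mul ?_
    have : Measurable (fun ζ : ℂ => (MM β ζ ^ 2).re) := by
      unfold MM
      fun_prop
    exact this.aestronglyMeasurable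
  refine Integrable.mono' hint hmeas (ae_restrict_of_ae_ne measurableSet_ball fun z hz h0 => ?_)
  have hz1 : ‖z‖ < 1 := by rwa [mem_ball_zero_iff] at hz
  have hz0 : 0 < ‖z‖ := norm_pos_iff.mpr h0
  have hρ : 0 ≤ rho φ z := by unfold rho; positivity
  have hM : |(MM β z ^ 2).re| ≤ 4 / ‖z‖ ^ 2 := by
    calc |(MM β z ^ 2).re| ≤ ‖MM β z ^ 2‖ := Complex.abs_re_le_norm _
      _ = ‖MM β z‖ ^ 2 := norm_pow _ _
      _ ≤ (2 / ‖z‖) ^ 2 := pow_le_pow_left₀ (norm_nonneg _) (norm_MM_le hβ h0 hz1.le) 2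
      _ = 4 / ‖z‖ ^ 2 := by rw [div_pow]; norm_num
  rw [Real.norm_eq_abs, abs_mul, abs_mul, abs_of_nonneg hρ]
  by_cases hzr : ‖z‖ < r
  · have hWz : |W z| ≤ C * ‖z‖ ^ 2 := (hg z (by rwa [mem_ball_zero_iff])).1
    have h1 : |W z| * |(MM β z ^ 2).re| ≤ 4 * |C| := by
      calc |W z| * |(MM β z ^ 2).re| ≤ (|C| * ‖z‖ ^ 2) * (4 / ‖z‖ ^ 2) := by
            apply mul_le_mul _ hM (abs_nonneg _) (by positivity)
            exact hWz.trans (mul_le_mul_of_nonneg_right (le_abs_self C) (by positivity))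
        _ = 4 * |C| := by field_simp
    have h2 : 0 ≤ 4 / r ^ 2 * (rho φ z * |W z|) := by positivity
    calc rho φ z * |W z| * |(MM β z ^ 2).re| = rho φ z * (|W z| * |(MM β z ^ 2).re|) := by ring
      _ ≤ rho φ z * (4 * |C|) := mul_le_mul_of_nonneg_left h1 hρ
      _ ≤ 4 * |C| * rho φ z + 4 / r ^ 2 * (rho φ z * |W z|) := by linarith
  · have hrz : r ≤ ‖z‖ := not_lt.mp hzr
    have h1 : |(MM β z ^ 2).re| ≤ 4 / r ^ 2 := by
      refine hM.trans ?_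
      apply div_le_div_of_nonneg_left (by norm_num) (by positivity)
      exact pow_le_pow_left₀ hr0.le hrz 2
    have h2 : 0 ≤ 4 * |C| * rho φ z := by positivity
    calc rho φ z * |W z| * |(MM β z ^ 2).re| ≤ rho φ z * |W z| * (4 / r ^ 2) :=
          mul_le_mul_of_nonneg_left h1 (by positivity)
      _ ≤ 4 * |C| * rho φ z + 4 / r ^ 2 * (rho φ z * |W z|) := by linarith

/-- constants are admissible. -/
lemma adm_const {φ : ℂ → ℂ} (hφ : Conf φ) (c : ℝ) : Adm φ (fun _ => c) := by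
  refine ⟨contDiffOn_const, hφ.rho_int.mul_const _, ?_⟩
  have : g2 (fun _ : ℂ => c) = fun _ => 0 := by
    funext z; simp [g2, dx, dy]
  rw [this]
  exact integrableOn_zero

/-- pointwise inequality. -/
lemma pointwise {φ : ℂ → ℂ} {W : ℂ → ℝ} {β ζ : ℂ} (hβ : ‖β‖ = 1) (hζ : ζ ∈ ball (0 : ℂ) 1) :
    - n0 φ β ζ ≤ (1 : ℝ) ^ 2 * (RR β ζ ^ 2 * ‖φ ζ‖ ^ 2 * rho φ ζ)
      + 2 * (W ζ ^ 2 * ‖MM' β ζ‖ ^ 2) - 2 * 1 * (RR β ζ * kap φ β ζ * W ζ) := by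
  have hm : 0 < ‖MM' β ζ‖ := norm_pos_iff.mpr (MM'_ne hβ hζ)
  unfold n0
  set m := ‖MM' β ζ‖
  set R := RR β ζ
  set κ := kap φ β ζ
  set w := W ζ
  have h1 : R ^ 2 * κ ^ 2 / (2 * m ^ 2) + 2 * (w ^ 2 * m ^ 2) - 2 * (R * κ * w) =
      (1 / 2) * (2 * w * m - R * κ / m) ^ 2 := by
    field_simp
    ring
  have h2 : 0 ≤ (1 / 2) * (2 * w * m - R * κ / m) ^ 2 := by positivity
  linarith

/-- the case `U 0 = 0`. -/
lemma case_zero (hG : GrowthStmt) (hE : EnergyStmt) {φ : ℂ → ℂ} {U : ℂ → ℝ} {μ : ℝ}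
    (h : Setting φ U μ) (hU0 : U 0 = 0) : False := by
  have hW : WSet φ U μ 0 := by
    refine ⟨h.adm, fun v hv => ?_, ?_⟩
    · rw [h.weak v hv, ← integral_const_mul]
      congr 1
      funext z
      ring
    · obtain ⟨C, r, hr0, hr1, hg⟩ := hG h
      refine ⟨C, r, hr0, hr1, fun z hz => ?_⟩
      have := hg z hz
      rw [hU0, sub_zero] at this
      exact this
  obtain ⟨hint, hle⟩ := hE h hW (β := 1) (by simp)
  have hμ := h.μpos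
  have hfun : (fun ζ => (0 : ℝ) ^ 2 * (RR 1 ζ ^ 2 * ‖φ ζ‖ ^ 2 * rho φ ζ)
      + 2 * (U ζ ^ 2 * ‖MM' 1 ζ‖ ^ 2) - 2 * 0 * (RR 1 ζ * kap φ 1 ζ * U ζ)) =
      fun ζ => 2 * (U ζ ^ 2 * ‖MM' 1 ζ‖ ^ 2) := by
    funext ζ; ring
  rw [hfun] at hint hle
  have hle' : ∫ ζ in ball (0 : ℂ) 1, 2 * (U ζ ^ 2 * ‖MM' 1 ζ‖ ^ 2) ≤ 0 := by
    by_contra hcon
    push Not at hcon
    have := mul_pos hμ hcon
    norm_num at hle
    linarith
  have hnn : ∀ ζ, 0 ≤ 2 * (U ζ ^ 2 * ‖MM' 1 ζ‖ ^ 2) := fun ζ => by positivity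
  have h0 : ∫ ζ in ball (0 : ℂ) 1, 2 * (U ζ ^ 2 * ‖MM' 1 ζ‖ ^ 2) = 0 :=
    le_antisymm hle' (integral_nonneg hnn)
  rw [integral_eq_zero_iff_of_nonneg hnn hint] at h0
  have hU : U =ᵐ[volume.restrict (ball (0 : ℂ) 1)] fun _ => (0 : ℝ) := by
    have hmem : ∀ᵐ z ∂(volume.restrict (ball (0 : ℂ) 1)), z ∈ ball (0 : ℂ) 1 :=
      ae_restrict_mem measurableSet_ball
    filter_upwards [h0, hmem] with z hz hzm
    have hm : ‖MM' 1 z‖ ≠ 0 := norm_ne_zero_iff.mpr (MM'_ne (by simp) hzm)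
    simp only [Pi.zero_apply, mul_eq_zero] at hz
    rcases hz with hz | hz | hz
    · norm_num at hz
    · exact pow_eq_zero_iff (two_ne_zero) |>.mp hz
    · exact absurd (pow_eq_zero_iff (two_ne_zero) |>.mp hz) hm
  have hEq : EqOn U (fun _ => (0 : ℝ)) (ball (0 : ℂ) 1) :=
    Measure.eqOn_open_of_ae_eq hU isOpen_ball h.adm.c1.continuousOn continuousOn_const
  obtain ⟨z, hz, hne⟩ := h.nz
  exact hne (hEq hz)

/-- the normalised function in case `U 0 ≠ 0`. -/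
lemma wset_of_ne (hG : GrowthStmt) {φ : ℂ → ℂ} {U : ℂ → ℝ} {μ : ℝ}
    (h : Setting φ U μ) (hU0 : U 0 ≠ 0) :
    WSet φ (fun z => (U z - U 0) / (μ * U 0)) μ 1 := by
  have hμ : μ ≠ 0 := h.μpos.ne'
  set c := μ * U 0 with hc
  have hc0 : c ≠ 0 := mul_ne_zero hμ hU0
  have hdiff : ∀ z ∈ ball (0 : ℂ) 1, fderiv ℝ (fun z => (U z - U 0) / c) z =
      (1 / c) • fderiv ℝ U z := by
    intro z hz
    have hd : DifferentiableAt ℝ U z :=
      (h.adm.c1.differentiableOn one_ne_zero).differentiableAt (isOpen_ball.mem_nhds hz)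
    have h1 : (fun z => (U z - U 0) / c) = fun z => (1 / c) * (U z - U 0) := by
      funext z; ring
    rw [h1, fderiv_const_mul (hd.sub_const _), fderiv_sub_const]
  have hdx : ∀ z ∈ ball (0 : ℂ) 1, dx (fun z => (U z - U 0) / c) z = (1 / c) * dx U z := by
    intro z hz
    unfold dx
    rw [hdiff z hz]; simp
  have hdy : ∀ z ∈ ball (0 : ℂ) 1, dy (fun z => (U z - U 0) / c) z = (1 / c) * dy U z := by
    intro z hz
    unfold dy
    rw [hdiff z hz]; simp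
  refine ⟨⟨?_, ?_, ?_⟩, ?_, ?_⟩
  · exact (h.adm.c1.sub contDiffOn_const).div_const _
  · have hρU := rho_mul_integrable h.conf h.adm
    have : (fun z => rho φ z * ((U z - U 0) / c) ^ 2) = fun z =>
        (1 / c ^ 2) * (rho φ z * U z ^ 2 - (2 * U 0) * (rho φ z * U z) + U 0 ^ 2 * rho φ z) := by
      funext z
      field_simp
      ring
    rw [this]
    exact ((h.adm.l2.sub (hρU.const_mul _)).add (h.conf.rho_int.const_mul _)).const_mul _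
  · have h1 : IntegrableOn (fun z => (1 / c) ^ 2 * g2 U z) (ball 0 1) := h.adm.en.const_mul _
    refine h1.congr_fun (fun z hz => ?_) measurableSet_ball
    simp only [g2]
    rw [hdx z hz, hdy z hz]
    ring
  · intro v hv
    have h1 : ∫ z in ball (0 : ℂ) 1, ip (fun z => (U z - U 0) / c) v z =
        ∫ z in ball (0 : ℂ) 1, (1 / c) * ip U v z := by
      refine setIntegral_congr_fun measurableSet_ball (fun z hz => ?_)
      simp only [ip]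
      rw [hdx z hz, hdy z hz]
      ring
    rw [h1, integral_const_mul, h.weak v hv, ← mul_assoc, ← integral_const_mul]
    congr 1
    funext z
    rw [hc]
    field_simp
    ring
  · obtain ⟨C, r, hr0, hr1, hg⟩ := hG h
    refine ⟨C / |c|, r, hr0, hr1, fun z hz => ?_⟩
    have hz1 : z ∈ ball (0 : ℂ) 1 := ball_subset_ball hr1.le hz
    obtain ⟨g1, g2', g3⟩ := hg z hz
    have hcp : 0 < |c| := abs_pos.mpr hc0
    rw [hdx z hz1, hdy z hz1]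
    refine ⟨?_, ?_, ?_⟩
    · rw [abs_div, div_mul_eq_mul_div]
      exact div_le_div_of_nonneg_right g1 hcp.le
    · rw [abs_mul, abs_div, abs_one, div_mul_eq_mul_div, div_mul_eq_mul_div, one_mul]
      exact div_le_div_of_nonneg_right g2' hcp.le
    · rw [abs_mul, abs_div, abs_one, div_mul_eq_mul_div, div_mul_eq_mul_div, one_mul]
      exact div_le_div_of_nonneg_right g3 hcp.le

/-- `q(1) + q(I) = 0`. -/
lemma qq_sum (hP : ParsevalStmt) {φ : ℂ → ℂ} {W : ℂ → ℝ} {μ : ℝ} (hφ : Conf φ)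
    (hW : WSet φ W μ 1) : qq φ W μ 1 + qq φ W μ I = 0 := by
  obtain ⟨_, _, hpars⟩ := hP hφ
  have hone := hW.weak _ (adm_const hφ 1)
  have hlhs : ∫ z in ball (0 : ℂ) 1, ip W (fun _ => (1 : ℝ)) z = 0 := by
    have : ∀ z, ip W (fun _ => (1 : ℝ)) z = 0 := fun z => by simp [ip, dx, dy]
    simp [this]
  rw [hlhs] at hone
  have hρW := rho_mul_integrable hφ hW.adm
  have h1 : ∫ z in ball (0 : ℂ) 1, rho φ z * (1 + μ * W z) * 1 =
      (∫ z in ball (0 : ℂ) 1, rho φ z) + μ * ∫ z in ball (0 : ℂ) 1, rho φ z * W z := by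
    rw [← integral_const_mul, ← integral_add hφ.rho_int (hρW.const_mul _)]
    congr 1
    funext z; ring
  rw [h1] at hone
  have hi1 := rho_W_MM_integrable hφ hW (β := 1) (by simp)
  have hiI := rho_W_MM_integrable hφ hW (β := I) (by simp)
  have h2 : (∫ ζ in ball (0 : ℂ) 1, rho φ ζ * W ζ * (MM 1 ζ ^ 2).re) +
      (∫ ζ in ball (0 : ℂ) 1, rho φ ζ * W ζ * (MM I ζ ^ 2).re) =
      4 * ∫ z in ball (0 : ℂ) 1, rho φ z * W z := by
    rw [← integral_add hi1 hiI, ← integral_const_mul]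
    refine integral_congr_ae (ae_restrict_of_ae_ne measurableSet_ball fun z hz h0 => ?_)
    have := re_sq_sum h0
    simp only
    rw [← mul_add, this]
    ring
  unfold qq
  linear_combination hpars + μ * h2 - 4 * hone

end Assemble

open Assemble in
/-- the combination step. -/
theorem no_setting_of (hG : GrowthStmt) (hE : EnergyStmt) (hP : ParsevalStmt) (hN : N0Stmt)
    {φ : ℂ → ℂ} {U : ℂ → ℝ} {μ : ℝ} (h : Setting φ U μ) : False := by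
  by_cases hU0 : U 0 = 0
  · exact case_zero hG hE h hU0
  · set W : ℂ → ℝ := fun z => (U z - U 0) / (μ * U 0) with hWdef
    have hW : WSet φ W μ 1 := wset_of_ne hG h hU0
    have hsum := qq_sum hP h.conf hW
    have hex : ∃ β : ℂ, ‖β‖ = 1 ∧ qq φ W μ β ≤ 0 := by
      by_cases h1 : qq φ W μ 1 ≤ 0
      · exact ⟨1, by simp, h1⟩
      · exact ⟨I, by simp, by linarith⟩
    obtain ⟨β, hβ, hq⟩ := hex
    obtain ⟨hint, hle⟩ := hE h hW hβ
    obtain ⟨nint, nneg⟩ := hN h.conf hβ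
    have hμ := h.μpos
    have hlow : - ∫ ζ in ball (0 : ℂ) 1, n0 φ β ζ ≤
        ∫ ζ in ball (0 : ℂ) 1, ((1 : ℝ) ^ 2 * (RR β ζ ^ 2 * ‖φ ζ‖ ^ 2 * rho φ ζ)
      + 2 * (W ζ ^ 2 * ‖MM' β ζ‖ ^ 2) - 2 * 1 * (RR β ζ * kap φ β ζ * W ζ)) := by
      rw [← integral_neg]
      exact setIntegral_mono_on nint.neg hint measurableSet_ball
        (fun ζ hζ => pointwise hβ hζ)
    have hpos : 0 < ∫ ζ in ball (0 : ℂ) 1, ((1 : ℝ) ^ 2 * (RR β ζ ^ 2 * ‖φ ζ‖ ^ 2 * rho φ ζ)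
      + 2 * (W ζ ^ 2 * ‖MM' β ζ‖ ^ 2) - 2 * 1 * (RR β ζ * kap φ β ζ * W ζ)) := by linarith
    have := mul_pos hμ hpos
    unfold qq at hq
    have hle2 : (1 : ℝ) ^ 2 * (∫ ζ in ball (0 : ℂ) 1, ‖hp φ β ζ‖ ^ 2) +
      1 * μ * ∫ ζ in ball (0 : ℂ) 1, rho φ ζ * W ζ * (MM β ζ ^ 2).re ≤ 0 := by
      rw [one_pow, one_mul, one_mul]
      exact hq
    linarith

end Crest.Agent.R101
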