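import Crest.Agent.R101.NullZ

/-!
# The pointwise certificate (E) for row 101

Only the constraint `‖e - I‖ ≤ 2` is used.
-/

set_option autoImplicit false

open Complex
open scoped ComplexConjugate

namespace Crest.Agent.R101

/-- support of the certificate -/
def certS : Finset (ℕ × ℕ × ℕ) :=
  {(0, 0, 0), (1, 0, 0), (2, 0, 0), (1, 1, 0), (2, 1, 0), (1, 2, 0), (3, 0, 0), (0, 0, 1)}

/-- coefficients of the certificate -/
noncomputable def certF (m : ℕ × ℕ × ℕ) : ℂ :=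
  if m = (0, 0, 0) then 1 / 20 * I
  else if m = (1, 0, 0) then -(9 / 200)
  else if m = (2, 0, 0) then -(133 / 200) * I
  else if m = (1, 1, 0) then 9 / 50 * I
  else if m = (2, 1, 0) then -(8 / 25)
  else if m = (1, 2, 0) then 9 / 200
  else if m = (3, 0, 0) then -(1 / 50)
  else if m = (0, 0, 1) then 3 / 200
  else 0

/-- the sum of squares identity in real variables -/
theorem cert_real (p q x y : ℝ) (h : x ^ 2 + y ^ 2 ≤ 4) :
    1 / 5 ≤ 200 * (p ^ 2 - q ^ 2 - (p ^ 2 + q ^ 2) ^ 2)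
      + 10 * (1 - 4 * p)
      - 9 * (2 * p - 4 * (p ^ 2 + q ^ 2))
      - 67 * (3 * (p ^ 2 - q ^ 2) - 4 * p * (p ^ 2 + q ^ 2))
      + 36 * (3 * (p ^ 2 + q ^ 2) - 6 * p * (p ^ 2 + q ^ 2) - 2 * (1 + x) * (p ^ 2 + q ^ 2))
      - 64 * (4 * p * (p ^ 2 + q ^ 2) - 6 * (p ^ 2 + q ^ 2) ^ 2
          - 2 * (p ^ 2 + q ^ 2) * ((1 + x) * p + y * q))
      - 9 * (4 * p * (p ^ 2 + q ^ 2) - 8 * (p ^ 2 + q ^ 2) * (p ^ 2 - q ^ 2)
          - 4 * (p ^ 2 + q ^ 2) * ((1 + x) * p - y * q))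
      + 4 * (4 * (p ^ 3 - 3 * p * q ^ 2) - 4 * (p ^ 2 + q ^ 2) * (p ^ 2 - q ^ 2))
      + 3 * (2 * (1 + x) - 4 * ((1 + x) * p + y * q)) := by
  have hs : 0 ≤ (62 / 5 - 378 / 5 * p + 593 / 5 * p ^ 2 + 391 / 5 * q ^ 2)
      * (1 - (x ^ 2 + y ^ 2) / 4) := by
    apply mul_nonneg
    · nlinarith [sq_nonneg (p - 189 / 593), sq_nonneg q]
    · linarith
  have key : 200 * (p ^ 2 - q ^ 2 - (p ^ 2 + q ^ 2) ^ 2)
      + 10 * (1 - 4 * p)
      - 9 * (2 * p - 4 * (p ^ 2 + q ^ 2))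
      - 67 * (3 * (p ^ 2 - q ^ 2) - 4 * p * (p ^ 2 + q ^ 2))
      + 36 * (3 * (p ^ 2 + q ^ 2) - 6 * p * (p ^ 2 + q ^ 2) - 2 * (1 + x) * (p ^ 2 + q ^ 2))
      - 64 * (4 * p * (p ^ 2 + q ^ 2) - 6 * (p ^ 2 + q ^ 2) ^ 2
          - 2 * (p ^ 2 + q ^ 2) * ((1 + x) * p + y * q))
      - 9 * (4 * p * (p ^ 2 + q ^ 2) - 8 * (p ^ 2 + q ^ 2) * (p ^ 2 - q ^ 2)
          - 4 * (p ^ 2 + q ^ 2) * ((1 + x) * p - y * q))
      + 4 * (4 * (p ^ 3 - 3 * p * q ^ 2) - 4 * (p ^ 2 + q ^ 2) * (p ^ 2 - q ^ 2))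
      + 3 * (2 * (1 + x) - 4 * ((1 + x) * p + y * q)) - 1 / 5
      - (62 / 5 - 378 / 5 * p + 593 / 5 * p ^ 2 + 391 / 5 * q ^ 2) * (1 - (x ^ 2 + y ^ 2) / 4)
      = (17/5)*(1 + (14/17)*p + (-133/17)*p^2 + (-78/17)*q^2 + (15/17)*x + (-47/17)*(p*x)
          + (-22/17)*(q*y))^2
    + (56/17)*(p + (-86/35)*p^2 + (-8/35)*q^2 + (79/280)*x + (-209/280)*(p*x) + (19/280)*(q*y))^2
    + (2101/175)*(p^2 + (998/2101)*q^2 + (-8/2101)*x + (423/2101)*(p*x) + (967/2101)*(q*y))^2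
    + (562464/10505)*(q^2 + (-23123/562464)*x + (52109/562464)*(p*x) + (6781/15624)*(q*y))^2
    + (56275/562464)*(x + (-700313/281375)*(p*x) + (550224/281375)*(q*y))^2
    + (1465691/5627500)*(p*x + (-992068/1465691)*(q*y))^2
    + (8324625/11725528)*(q*y)^2
    + 26*(q + (-121/65)*(p*q) + (-99/130)*(q*x) + (-4/65)*y + (29/130)*(p*y))^2
    + (6078/325)*(p*q + (-757/3039)*(q*x) + (-874/3039)*y + (2827/3039)*(p*y))^2
    + (201251/60780)*(q*x + (124100/201251)*y + (-355538/201251)*(p*y))^2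
    + (393781/2012510)*(y + (-1942911/787562)*(p*y))^2
    + (10204947/15751240)*(p*y)^2 := by
    ring
  have hpos : 0 ≤ (17/5)*(1 + (14/17)*p + (-133/17)*p^2 + (-78/17)*q^2 + (15/17)*x + (-47/17)*(p*x)
          + (-22/17)*(q*y))^2
    + (56/17)*(p + (-86/35)*p^2 + (-8/35)*q^2 + (79/280)*x + (-209/280)*(p*x) + (19/280)*(q*y))^2
    + (2101/175)*(p^2 + (998/2101)*q^2 + (-8/2101)*x + (423/2101)*(p*x) + (967/2101)*(q*y))^2
    + (562464/10505)*(q^2 + (-23123/562464)*x + (52109/562464)*(p*x) + (6781/15624)*(q*y))^2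
    + (56275/562464)*(x + (-700313/281375)*(p*x) + (550224/281375)*(q*y))^2
    + (1465691/5627500)*(p*x + (-992068/1465691)*(q*y))^2
    + (8324625/11725528)*(q*y)^2
    + 26*(q + (-121/65)*(p*q) + (-99/130)*(q*x) + (-4/65)*y + (29/130)*(p*y))^2
    + (6078/325)*(p*q + (-757/3039)*(q*x) + (-874/3039)*y + (2827/3039)*(p*y))^2
    + (201251/60780)*(q*x + (124100/201251)*y + (-355538/201251)*(p*y))^2
    + (393781/2012510)*(y + (-1942911/787562)*(p*y))^2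
    + (10204947/15751240)*(p*y)^2 := by
    positivity
  linarith

theorem certSum (l e : ℂ) : nullP certS certF l e =
    1 / 20 * I * nullD 0 0 0 l e + (-(9 / 200)) * nullD 1 0 0 l e
    + (-(133 / 200) * I) * nullD 2 0 0 l e + 9 / 50 * I * nullD 1 1 0 l e
    + (-(8 / 25)) * nullD 2 1 0 l e + 9 / 200 * nullD 1 2 0 l e
    + (-(1 / 50)) * nullD 3 0 0 l e + 3 / 200 * nullD 0 0 1 l e := by
  simp [nullP, certS, certF]
  ring

/-- The certificate: only `‖e - I‖ ≤ 2` is used. -/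
theorem cert' (l e : ℂ) (h : ‖e - I‖ ≤ 2) : nDens l + (nullP certS certF l e).re ≤ -(1 / 2000) := by
  have h1 : (e.im - 1) ^ 2 + (-e.re) ^ 2 ≤ 4 := by
    have h2 : ‖e - I‖ ^ 2 ≤ 2 ^ 2 := by gcongr
    rw [← Complex.normSq_eq_norm_sq, Complex.normSq_apply] at h2
    simp only [sub_re, I_re, sub_zero, sub_im, I_im] at h2
    nlinarith
  have h3 := cert_real l.im (-l.re) (e.im - 1) (-e.re) h1
  have h4 : nDens l + (nullP certS certF l e).re = -(1 / 400) * (200 * (l.im ^ 2 - (-l.re) ^ 2 - (l.im ^ 2 + (-l.re) ^ 2) ^ 2)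
      + 10 * (1 - 4 * l.im)
      - 9 * (2 * l.im - 4 * (l.im ^ 2 + (-l.re) ^ 2))
      - 67 * (3 * (l.im ^ 2 - (-l.re) ^ 2) - 4 * l.im * (l.im ^ 2 + (-l.re) ^ 2))
      + 36 * (3 * (l.im ^ 2 + (-l.re) ^ 2) - 6 * l.im * (l.im ^ 2 + (-l.re) ^ 2) - 2 * (1 + (e.im - 1)) * (l.im ^ 2 + (-l.re) ^ 2))
      - 64 * (4 * l.im * (l.im ^ 2 + (-l.re) ^ 2) - 6 * (l.im ^ 2 + (-l.re) ^ 2) ^ 2
          - 2 * (l.im ^ 2 + (-l.re) ^ 2) * ((1 + (e.im - 1)) * l.im + (-e.re) * (-l.re)))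
      - 9 * (4 * l.im * (l.im ^ 2 + (-l.re) ^ 2) - 8 * (l.im ^ 2 + (-l.re) ^ 2) * (l.im ^ 2 - (-l.re) ^ 2)
          - 4 * (l.im ^ 2 + (-l.re) ^ 2) * ((1 + (e.im - 1)) * l.im - (-e.re) * (-l.re)))
      + 4 * (4 * (l.im ^ 3 - 3 * l.im * (-l.re) ^ 2) - 4 * (l.im ^ 2 + (-l.re) ^ 2) * (l.im ^ 2 - (-l.re) ^ 2))
      + 3 * (2 * (1 + (e.im - 1)) - 4 * ((1 + (e.im - 1)) * l.im + (-e.re) * (-l.re)))) := by
    rw [certSum]
    obtain ⟨a, b⟩ := l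
    obtain ⟨c, d⟩ := e
    simp only [nDens, nullD, pow_succ, pow_zero, one_mul, mul_one, Nat.cast_zero, Nat.cast_one,
      Nat.cast_ofNat, add_zero, zero_mul, mul_zero, zero_add, add_re, add_im, mul_re, mul_im,
      conj_re, conj_im, I_re, I_im, neg_re, neg_im, div_ofNat_re, div_ofNat_im, re_ofNat, im_ofNat,
      one_re, one_im]
    ring
  rw [h4]
  linarith

/-- The certificate in the form used by `ZData.N0_neg`. -/
theorem cert (l e : ℂ) (h : ‖e - I‖ ≤ 2) (_h' : ‖e + 2 * l - I‖ ≤ 2) :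
    nDens l + (nullP certS certF l e).re < 0 := by
  have := cert' l e h
  linarith

end Crest.Agent.R101
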