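import Crest.Agent.R101.Defs

/-! Row 101: cutoffs, integration by parts, and the part `A = M (W_x - i W_y)` of the trial field:
weak divergence, weak curl and energy identity (general `c0`). -/

set_option autoImplicit false

open MeasureTheory Metric Set Complex ComplexConjugate Filter Topology
open scoped ContDiff

namespace Crest.Agent.R101

/-! ### calculus for `dx`, `dy` -/

theorem dx_mul {v w : ℂ → ℝ} {z : ℂ} (hv : DifferentiableAt ℝ v z) (hw : DifferentiableAt ℝ w z) :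
    dx (fun z => v z * w z) z = dx v z * w z + v z * dx w z := by
  unfold dx
  rw [fderiv_fun_mul hv hw]
  simp only [_root_.add_apply, _root_.smul_apply, smul_eq_mul]
  ring

theorem dy_mul {v w : ℂ → ℝ} {z : ℂ} (hv : DifferentiableAt ℝ v z) (hw : DifferentiableAt ℝ w z) :
    dy (fun z => v z * w z) z = dy v z * w z + v z * dy w z := by
  unfold dy
  rw [fderiv_fun_mul hv hw]
  simp only [_root_.add_apply, _root_.smul_apply, smul_eq_mul]
  ring

theorem dx_congr {v w : ℂ → ℝ} {z : ℂ} (h : v =ᶠ[𝓝 z] w) : dx v z = dx w z := by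
  unfold dx; rw [h.fderiv_eq]

theorem dy_congr {v w : ℂ → ℝ} {z : ℂ} (h : v =ᶠ[𝓝 z] w) : dy v z = dy w z := by
  unfold dy; rw [h.fderiv_eq]

theorem measurable_dx (v : ℂ → ℝ) : Measurable (dx v) := measurable_fderiv_apply_const ℝ v 1

theorem measurable_dy (v : ℂ → ℝ) : Measurable (dy v) := measurable_fderiv_apply_const ℝ v I

theorem continuousOn_dx {v : ℂ → ℝ} {S : Set ℂ} (hS : IsOpen S) (hv : ContDiffOn ℝ 1 v S) :
    ContinuousOn (dx v) S :=
  (hv.continuousOn_fderiv_of_isOpen hS le_rfl).clm_apply continuousOn_const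

theorem continuousOn_dy {v : ℂ → ℝ} {S : Set ℂ} (hS : IsOpen S) (hv : ContDiffOn ℝ 1 v S) :
    ContinuousOn (dy v) S :=
  (hv.continuousOn_fderiv_of_isOpen hS le_rfl).clm_apply continuousOn_const

/-- `|v_x| + |v_y|`. -/
noncomputable def gr (v : ℂ → ℝ) (z : ℂ) : ℝ := |dx v z| + |dy v z|

theorem gr_nonneg (v : ℂ → ℝ) (z : ℂ) : 0 ≤ gr v z := by unfold gr; positivity

theorem measurable_gr (v : ℂ → ℝ) : Measurable (gr v) :=
  (measurable_dx v).abs.add (measurable_dy v).abs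

theorem measurable_g2 (v : ℂ → ℝ) : Measurable (g2 v) :=
  ((measurable_dx v).pow_const 2).add ((measurable_dy v).pow_const 2)

theorem gr_sq_le (v : ℂ → ℝ) (z : ℂ) : gr v z ^ 2 ≤ 2 * g2 v z := by
  unfold gr g2
  nlinarith [sq_abs (dx v z), sq_abs (dy v z), sq_nonneg (|dx v z| - |dy v z|)]

theorem g2_le (v : ℂ → ℝ) (z : ℂ) : g2 v z ≤ gr v z ^ 2 := by
  unfold gr g2
  nlinarith [sq_abs (dx v z), sq_abs (dy v z), abs_nonneg (dx v z), abs_nonneg (dy v z),
    mul_nonneg (abs_nonneg (dx v z)) (abs_nonneg (dy v z))]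

theorem g2_nonneg (v : ℂ → ℝ) (z : ℂ) : 0 ≤ g2 v z := by unfold g2; positivity

theorem abs_ip_le (v w : ℂ → ℝ) (z : ℂ) : |ip v w z| ≤ gr v z * gr w z := by
  unfold ip gr
  refine (abs_add_le _ _).trans ?_
  rw [abs_mul, abs_mul]
  nlinarith [mul_nonneg (abs_nonneg (dx v z)) (abs_nonneg (dy w z)),
    mul_nonneg (abs_nonneg (dy v z)) (abs_nonneg (dx w z))]

theorem abs_rot_le (v w : ℂ → ℝ) (z : ℂ) :
    |dy v z * dx w z - dx v z * dy w z| ≤ gr v z * gr w z := by
  unfold gr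
  refine (abs_sub _ _).trans ?_
  rw [abs_mul, abs_mul]
  nlinarith [mul_nonneg (abs_nonneg (dx v z)) (abs_nonneg (dx w z)),
    mul_nonneg (abs_nonneg (dy v z)) (abs_nonneg (dy w z))]

/-! ### derivative bound for the smooth transition -/

theorem exists_st_bound : ∃ C : ℝ, 0 < C ∧ (∀ t, |deriv Real.smoothTransition t| ≤ C) ∧
    (∀ t, t < 0 → deriv Real.smoothTransition t = 0) ∧
    (∀ t, 1 < t → deriv Real.smoothTransition t = 0) := by
  have h0 : ∀ t, t < 0 → deriv Real.smoothTransition t = 0 := by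
    intro t ht
    have : Real.smoothTransition =ᶠ[𝓝 t] fun _ => 0 := by
      filter_upwards [Iio_mem_nhds ht] with s hs
      exact Real.smoothTransition.zero_of_nonpos (le_of_lt hs)
    rw [this.deriv_eq, deriv_const]
  have h1 : ∀ t, 1 < t → deriv Real.smoothTransition t = 0 := by
    intro t ht
    have : Real.smoothTransition =ᶠ[𝓝 t] fun _ => 1 := by
      filter_upwards [Ioi_mem_nhds ht] with s hs
      exact Real.smoothTransition.one_of_one_le (le_of_lt hs)
    rw [this.deriv_eq, deriv_const]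
  have hc : Continuous (deriv Real.smoothTransition) :=
    (Real.smoothTransition.contDiff (n := 1)).continuous_deriv le_rfl
  obtain ⟨C, hC⟩ := (isCompact_Icc (a := (0:ℝ)) (b := 1)).exists_bound_of_continuousOn
    hc.continuousOn
  refine ⟨max C 1, by positivity, ?_, h0, h1⟩
  intro t
  by_cases ht0 : t < 0
  · rw [h0 t ht0]; simp
  by_cases ht1 : 1 < t
  · rw [h1 t ht1]; simp
  push Not at ht0 ht1
  have := hC t ⟨ht0, ht1⟩
  rw [Real.norm_eq_abs] at this
  exact this.trans (le_max_left _ _)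

/-- the constant of `exists_st_bound` -/
noncomputable def C0 : ℝ := exists_st_bound.choose

theorem C0_pos : 0 < C0 := exists_st_bound.choose_spec.1
theorem st_le (t : ℝ) : |deriv Real.smoothTransition t| ≤ C0 := exists_st_bound.choose_spec.2.1 t
theorem st_neg {t : ℝ} (h : t < 0) : deriv Real.smoothTransition t = 0 :=
  exists_st_bound.choose_spec.2.2.1 t h
theorem st_gt {t : ℝ} (h : 1 < t) : deriv Real.smoothTransition t = 0 :=
  exists_st_bound.choose_spec.2.2.2 t h

/-! ### the cutoffs -/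

/-- vanishes near `0` -/
noncomputable def cut (n : ℕ) (z : ℂ) : ℝ := Real.smoothTransition (n * ‖z‖ ^ 2 - 1)

/-- vanishes near the unit circle (and outside) -/
noncomputable def bc (n : ℕ) (z : ℂ) : ℝ := Real.smoothTransition (n * (1 - ‖z‖ ^ 2) - 1)

theorem contDiff_cut (n : ℕ) {k : ℕ∞} : ContDiff ℝ k (cut n) := by
  unfold cut
  exact Real.smoothTransition.contDiff.comp
    ((contDiff_const.mul (contDiff_norm_sq ℝ)).sub contDiff_const)

theorem contDiff_bc (n : ℕ) {k : ℕ∞} : ContDiff ℝ k (bc n) := by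
  unfold bc
  exact Real.smoothTransition.contDiff.comp
    ((contDiff_const.mul (contDiff_const.sub (contDiff_norm_sq ℝ))).sub contDiff_const)

theorem cut_nonneg (n : ℕ) (z : ℂ) : 0 ≤ cut n z := Real.smoothTransition.nonneg _
theorem cut_le_one (n : ℕ) (z : ℂ) : cut n z ≤ 1 := Real.smoothTransition.le_one _
theorem bc_nonneg (n : ℕ) (z : ℂ) : 0 ≤ bc n z := Real.smoothTransition.nonneg _
theorem bc_le_one (n : ℕ) (z : ℂ) : bc n z ≤ 1 := Real.smoothTransition.le_one _

theorem hasFDerivAt_norm_sq' (z : ℂ) :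
    HasFDerivAt (fun z : ℂ => ‖z‖ ^ 2) ((2 * z.re) • Complex.reCLM + (2 * z.im) • Complex.imCLM) z := by
  have h1 : (fun z : ℂ => ‖z‖ ^ 2) = fun z : ℂ => z.re ^ 2 + z.im ^ 2 := by
    funext z; rw [Complex.sq_norm, Complex.normSq_apply]; ring
  rw [h1]
  have hr : HasFDerivAt (fun z : ℂ => z.re ^ 2) ((2 * z.re) • Complex.reCLM) z := by
    have := (Complex.reCLM.hasFDerivAt (x := z)).pow 2
    simpa using this
  have hi : HasFDerivAt (fun z : ℂ => z.im ^ 2) ((2 * z.im) • Complex.imCLM) z := by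
    have := (Complex.imCLM.hasFDerivAt (x := z)).pow 2
    simpa using this
  exact hr.add hi

theorem dx_cut (n : ℕ) (z : ℂ) :
    dx (cut n) z = deriv Real.smoothTransition (n * ‖z‖ ^ 2 - 1) * (n * (2 * z.re)) := by
  have h1 : HasFDerivAt (fun z : ℂ => (n : ℝ) * ‖z‖ ^ 2 - 1)
      ((n : ℝ) • ((2 * z.re) • Complex.reCLM + (2 * z.im) • Complex.imCLM)) z :=
    ((hasFDerivAt_norm_sq' z).const_mul (n : ℝ)).sub_const 1
  have h2 := ((Real.smoothTransition.contDiff (n := 1)).differentiable (by simp)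
    ((n : ℝ) * ‖z‖ ^ 2 - 1)).hasDerivAt.comp_hasFDerivAt z h1
  unfold dx
  have h3 : HasFDerivAt (cut n) _ z := h2
  rw [h3.fderiv]
  simp

theorem dy_cut (n : ℕ) (z : ℂ) :
    dy (cut n) z = deriv Real.smoothTransition (n * ‖z‖ ^ 2 - 1) * (n * (2 * z.im)) := by
  have h1 : HasFDerivAt (fun z : ℂ => (n : ℝ) * ‖z‖ ^ 2 - 1)
      ((n : ℝ) • ((2 * z.re) • Complex.reCLM + (2 * z.im) • Complex.imCLM)) z :=
    ((hasFDerivAt_norm_sq' z).const_mul (n : ℝ)).sub_const 1
  have h2 := ((Real.smoothTransition.contDiff (n := 1)).differentiable (by simp)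
    ((n : ℝ) * ‖z‖ ^ 2 - 1)).hasDerivAt.comp_hasFDerivAt z h1
  unfold dy
  have h3 : HasFDerivAt (cut n) _ z := h2
  rw [h3.fderiv]
  simp

theorem dx_bc (n : ℕ) (z : ℂ) :
    dx (bc n) z = -(deriv Real.smoothTransition (n * (1 - ‖z‖ ^ 2) - 1) * (n * (2 * z.re))) := by
  have h1 : HasFDerivAt (fun z : ℂ => (n : ℝ) * (1 - ‖z‖ ^ 2) - 1)
      ((n : ℝ) • (-((2 * z.re) • Complex.reCLM + (2 * z.im) • Complex.imCLM))) z :=
    (((hasFDerivAt_norm_sq' z).const_sub 1).const_mul (n : ℝ)).sub_const 1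
  have h2 := ((Real.smoothTransition.contDiff (n := 1)).differentiable (by simp)
    ((n : ℝ) * (1 - ‖z‖ ^ 2) - 1)).hasDerivAt.comp_hasFDerivAt z h1
  unfold dx
  have h3 : HasFDerivAt (bc n) _ z := h2
  rw [h3.fderiv]
  simp

theorem dy_bc (n : ℕ) (z : ℂ) :
    dy (bc n) z = -(deriv Real.smoothTransition (n * (1 - ‖z‖ ^ 2) - 1) * (n * (2 * z.im))) := by
  have h1 : HasFDerivAt (fun z : ℂ => (n : ℝ) * (1 - ‖z‖ ^ 2) - 1)
      ((n : ℝ) • (-((2 * z.re) • Complex.reCLM + (2 * z.im) • Complex.imCLM))) z :=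
    (((hasFDerivAt_norm_sq' z).const_sub 1).const_mul (n : ℝ)).sub_const 1
  have h2 := ((Real.smoothTransition.contDiff (n := 1)).differentiable (by simp)
    ((n : ℝ) * (1 - ‖z‖ ^ 2) - 1)).hasDerivAt.comp_hasFDerivAt z h1
  unfold dy
  have h3 : HasFDerivAt (bc n) _ z := h2
  rw [h3.fderiv]
  simp

/-- `|∇ cut| ≤ 8 C0 / |z|`. -/
theorem gr_cut_le (n : ℕ) {z : ℂ} (hz : z ≠ 0) : gr (cut n) z ≤ 8 * C0 / ‖z‖ := by
  have hz' : 0 < ‖z‖ := norm_pos_iff.2 hz
  have hC := C0_pos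
  unfold gr
  rw [dx_cut, dy_cut]
  by_cases h : deriv Real.smoothTransition (n * ‖z‖ ^ 2 - 1) = 0
  · rw [h]; simp; positivity
  have h2 : (n : ℝ) * ‖z‖ ^ 2 ≤ 2 := by
    by_contra hh
    push Not at hh
    exact h (st_gt (by linarith))
  have h3 : (n : ℝ) * ‖z‖ ≤ 2 / ‖z‖ := by
    rw [le_div_iff₀ hz']; nlinarith
  have hre : |z.re| ≤ ‖z‖ := Complex.abs_re_le_norm z
  have him : |z.im| ≤ ‖z‖ := Complex.abs_im_le_norm z
  have hst := st_le (n * ‖z‖ ^ 2 - 1)
  have key : ∀ t : ℝ, |t| ≤ ‖z‖ →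
      |deriv Real.smoothTransition (n * ‖z‖ ^ 2 - 1) * (n * (2 * t))| ≤ 4 * C0 / ‖z‖ := by
    intro t ht
    rw [abs_mul]
    calc |deriv Real.smoothTransition (n * ‖z‖ ^ 2 - 1)| * |(n : ℝ) * (2 * t)|
        ≤ C0 * (2 * (2 / ‖z‖)) := by
          apply mul_le_mul hst _ (abs_nonneg _) hC.le
          rw [abs_mul, abs_mul, Nat.abs_cast, abs_two]
          have hn : (0 : ℝ) ≤ n := Nat.cast_nonneg n
          calc (n : ℝ) * (2 * |t|) ≤ n * (2 * ‖z‖) := by gcongr
            _ = 2 * (n * ‖z‖) := by ring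
            _ ≤ 2 * (2 / ‖z‖) := by linarith
      _ = 4 * C0 / ‖z‖ := by ring
  have h5 := key _ hre
  have h6 := key _ him
  have : 8 * C0 / ‖z‖ = 4 * C0 / ‖z‖ + 4 * C0 / ‖z‖ := by ring
  linarith

/-- `(1 - |z|²) |∇ bc| ≤ 8 C0 |z|`. -/
theorem gr_bc_le (n : ℕ) {z : ℂ} (hz : ‖z‖ < 1) : (1 - ‖z‖ ^ 2) * gr (bc n) z ≤ 8 * C0 * ‖z‖ := by
  have hC := C0_pos
  have hz1 : 0 < 1 - ‖z‖ ^ 2 := by nlinarith [norm_nonneg z]
  unfold gr
  rw [dx_bc, dy_bc]
  by_cases h : deriv Real.smoothTransition (n * (1 - ‖z‖ ^ 2) - 1) = 0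
  · rw [h]; simp; positivity
  have h2 : (n : ℝ) * (1 - ‖z‖ ^ 2) ≤ 2 := by
    by_contra hh
    push Not at hh
    exact h (st_gt (by linarith))
  have hre : |z.re| ≤ ‖z‖ := Complex.abs_re_le_norm z
  have him : |z.im| ≤ ‖z‖ := Complex.abs_im_le_norm z
  have hst := st_le (n * (1 - ‖z‖ ^ 2) - 1)
  have key : ∀ t : ℝ, |t| ≤ ‖z‖ →
      (1 - ‖z‖ ^ 2) * |-(deriv Real.smoothTransition (n * (1 - ‖z‖ ^ 2) - 1) * (n * (2 * t)))|
        ≤ 4 * C0 * ‖z‖ := by
    intro t ht
    rw [abs_neg, abs_mul, abs_mul, abs_mul, Nat.abs_cast, abs_two]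
    have hn : (0 : ℝ) ≤ n := Nat.cast_nonneg n
    calc (1 - ‖z‖ ^ 2) * (|deriv Real.smoothTransition (n * (1 - ‖z‖ ^ 2) - 1)| * (n * (2 * |t|)))
        = |deriv Real.smoothTransition (n * (1 - ‖z‖ ^ 2) - 1)| *
            ((n * (1 - ‖z‖ ^ 2)) * (2 * |t|)) := by ring
      _ ≤ C0 * (2 * (2 * ‖z‖)) := by
          apply mul_le_mul hst _ (by positivity) hC.le
          apply mul_le_mul h2 _ (by positivity) (by norm_num)
          linarith
      _ = 4 * C0 * ‖z‖ := by ring
  have h5 := key _ hre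
  have h6 := key _ him
  nlinarith

theorem cut_eventually {z : ℂ} (hz : z ≠ 0) : ∀ᶠ n : ℕ in atTop, cut n z = 1 ∧ gr (cut n) z = 0 := by
  have hz' : 0 < ‖z‖ ^ 2 := by have := norm_pos_iff.2 hz; positivity
  obtain ⟨N, hN⟩ := exists_nat_gt (2 / ‖z‖ ^ 2)
  filter_upwards [eventually_ge_atTop N] with n hn
  have h1 : 2 < (n : ℝ) * ‖z‖ ^ 2 := by
    have : (N : ℝ) ≤ n := by exact_mod_cast hn
    rw [div_lt_iff₀ hz'] at hN
    nlinarith
  refine ⟨Real.smoothTransition.one_of_one_le (by linarith), ?_⟩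
  unfold gr
  rw [dx_cut, dy_cut, st_gt (by linarith)]
  simp

theorem bc_eventually {z : ℂ} (hz : ‖z‖ < 1) : ∀ᶠ n : ℕ in atTop, bc n z = 1 ∧ gr (bc n) z = 0 := by
  have hz' : 0 < 1 - ‖z‖ ^ 2 := by nlinarith [norm_nonneg z]
  obtain ⟨N, hN⟩ := exists_nat_gt (2 / (1 - ‖z‖ ^ 2))
  filter_upwards [eventually_ge_atTop N] with n hn
  have h1 : 2 < (n : ℝ) * (1 - ‖z‖ ^ 2) := by
    have : (N : ℝ) ≤ n := by exact_mod_cast hn
    rw [div_lt_iff₀ hz'] at hN
    nlinarith
  refine ⟨Real.smoothTransition.one_of_one_le (by linarith), ?_⟩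
  unfold gr
  rw [dx_bc, dy_bc, st_gt (by linarith)]
  simp

theorem cut_eq_zero {n : ℕ} {z : ℂ} (h : (n : ℝ) * ‖z‖ ^ 2 ≤ 1) : cut n z = 0 :=
  Real.smoothTransition.zero_of_nonpos (by linarith)

theorem bc_eq_zero {n : ℕ} {z : ℂ} (h : (n : ℝ) * (1 - ‖z‖ ^ 2) ≤ 1) : bc n z = 0 :=
  Real.smoothTransition.zero_of_nonpos (by linarith)

/-! ### supports and smoothness of cut-off functions -/

/-- compact set supporting `cut n * bc n` -/
def Kn (n : ℕ) : Set ℂ := {z | 1 ≤ (n : ℝ) * ‖z‖ ^ 2 ∧ 1 ≤ (n : ℝ) * (1 - ‖z‖ ^ 2)}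

theorem isClosed_Kn (n : ℕ) : IsClosed (Kn n) := by
  have h1 : Continuous (fun z : ℂ => (n : ℝ) * ‖z‖ ^ 2) := by fun_prop
  have h2 : Continuous (fun z : ℂ => (n : ℝ) * (1 - ‖z‖ ^ 2)) := by fun_prop
  exact (isClosed_le continuous_const h1).inter (isClosed_le continuous_const h2)

theorem Kn_sub (n : ℕ) : Kn n ⊆ ball (0 : ℂ) 1 \ {0} := by
  intro z hz
  obtain ⟨h1, h2⟩ := hz
  have hn : (0 : ℝ) ≤ n := Nat.cast_nonneg n
  refine ⟨?_, ?_⟩
  · rw [mem_ball_zero_iff]
    by_contra hh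
    push Not at hh
    have : 1 - ‖z‖ ^ 2 ≤ 0 := by nlinarith
    nlinarith
  · intro h0
    rw [mem_singleton_iff] at h0
    subst h0
    norm_num at h1

theorem isCompact_Kn (n : ℕ) : IsCompact (Kn n) :=
  (isCompact_closedBall (0 : ℂ) 1).of_isClosed_subset (isClosed_Kn n)
    ((Kn_sub n).trans (sdiff_subset.trans ball_subset_closedBall))

theorem cutbc_zero {n : ℕ} {z : ℂ} (h : z ∉ Kn n) : cut n z * bc n z = 0 := by
  have h' : (n : ℝ) * ‖z‖ ^ 2 < 1 ∨ (n : ℝ) * (1 - ‖z‖ ^ 2) < 1 := by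
    by_contra hh
    push Not at hh
    exact h hh
  rcases h' with h | h
  · rw [cut_eq_zero h.le, zero_mul]
  · rw [bc_eq_zero h.le, mul_zero]

theorem ts_cutbc (n : ℕ) (g : ℂ → ℝ) : tsupport (fun z => cut n z * bc n z * g z) ⊆ Kn n := by
  apply closure_minimal _ (isClosed_Kn n)
  intro z hz
  by_contra h
  apply hz
  simp only
  rw [cutbc_zero h, zero_mul]

theorem hcs_cutbc (n : ℕ) (g : ℂ → ℝ) : HasCompactSupport (fun z => cut n z * bc n z * g z) :=
  (isCompact_Kn n).of_isClosed_subset (isClosed_tsupport _) (ts_cutbc n g)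

theorem isOpen_punct : IsOpen (ball (0 : ℂ) 1 \ {0}) := isOpen_ball.sdiff isClosed_singleton

theorem contDiff_cutbc {k : ℕ∞} {g : ℂ → ℝ} (hg : ContDiffOn ℝ k g (ball 0 1 \ {0})) (n : ℕ) :
    ContDiff ℝ k (fun z => cut n z * bc n z * g z) := by
  rw [contDiff_iff_contDiffAt]
  intro z
  by_cases hz : z ∈ Kn n
  · have h1 : ContDiffAt ℝ k g z := hg.contDiffAt (isOpen_punct.mem_nhds (Kn_sub n hz))
    exact ((contDiff_cut n).contDiffAt.mul (contDiff_bc n).contDiffAt).mul h1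
  · have h2 : (fun z => cut n z * bc n z * g z) =ᶠ[𝓝 z] fun _ => 0 := by
      filter_upwards [(isClosed_Kn n).isOpen_compl.mem_nhds hz] with w hw
      rw [cutbc_zero hw, zero_mul]
    exact contDiffAt_const.congr_of_eventuallyEq h2

theorem contDiffOn_cut_mul {k : ℕ∞} {g : ℂ → ℝ} (hg : ContDiffOn ℝ k g (ball 0 1 \ {0})) (n : ℕ) :
    ContDiffOn ℝ k (fun z => cut n z * g z) (ball 0 1) := by
  intro z hz
  apply ContDiffAt.contDiffWithinAt
  by_cases h0 : z = 0
  · subst h0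
    have h2 : (fun z => cut n z * g z) =ᶠ[𝓝 (0 : ℂ)] fun _ => 0 := by
      have hc : ContinuousAt (fun z : ℂ => (n : ℝ) * ‖z‖ ^ 2) 0 := by fun_prop
      have h3 : ∀ᶠ z in 𝓝 (0 : ℂ), (n : ℝ) * ‖z‖ ^ 2 < 1 := by
        apply hc.eventually_lt continuousAt_const
        simp
      filter_upwards [h3] with w hw
      rw [cut_eq_zero hw.le, zero_mul]
    exact contDiffAt_const.congr_of_eventuallyEq h2
  · have h1 : ContDiffAt ℝ k g z := hg.contDiffAt (isOpen_punct.mem_nhds ⟨hz, h0⟩)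
    exact (contDiff_cut n).contDiffAt.mul h1

/-! ### integration by parts -/

theorem integral_dx_zero {F : ℂ → ℝ} (hF : ContDiff ℝ 1 F) (hc : HasCompactSupport F) :
    ∫ z, dx F z = 0 := by
  have hd : Continuous (fun z => fderiv ℝ F z 1) :=
    (hF.continuous_fderiv (by simp)).clm_apply continuous_const
  have hi : Integrable (fun z => fderiv ℝ F z 1) := hd.integrable_of_hasCompactSupport
    (hc.fderiv_apply (𝕜 := ℝ) 1)
  have h := integral_mul_fderiv_eq_neg_fderiv_mul_of_integrable (μ := (volume : Measure ℂ))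
    (f := fun _ : ℂ => (1 : ℝ)) (g := F) (v := (1 : ℂ)) (by simp) (by simpa using hi)
    (by simpa using hF.continuous.integrable_of_hasCompactSupport hc)
    (fun x _ => differentiableAt_const _) (fun x _ => hF.differentiable (by simp) x)
  simpa [dx] using h

theorem integral_dy_zero {F : ℂ → ℝ} (hF : ContDiff ℝ 1 F) (hc : HasCompactSupport F) :
    ∫ z, dy F z = 0 := by
  have hd : Continuous (fun z => fderiv ℝ F z I) :=
    (hF.continuous_fderiv (by simp)).clm_apply continuous_const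
  have hi : Integrable (fun z => fderiv ℝ F z I) := hd.integrable_of_hasCompactSupport
    (hc.fderiv_apply (𝕜 := ℝ) I)
  have h := integral_mul_fderiv_eq_neg_fderiv_mul_of_integrable (μ := (volume : Measure ℂ))
    (f := fun _ : ℂ => (1 : ℝ)) (g := F) (v := (I : ℂ)) (by simp) (by simpa using hi)
    (by simpa using hF.continuous.integrable_of_hasCompactSupport hc)
    (fun x _ => differentiableAt_const _) (fun x _ => hF.differentiable (by simp) x)
  simpa [dy] using h

theorem integrable_of_compact {F : ℂ → ℝ} {K : Set ℂ} (hK : IsCompact K)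
    (hF : ContinuousOn F K) (hs : ∀ z, z ∉ K → F z = 0) : Integrable F := by
  have h1 : IntegrableOn F K := hF.integrableOn_compact hK
  rwa [integrableOn_iff_integrable_of_support_subset] at h1
  intro z hz
  by_contra h
  exact hz (hs z h)

theorem curl_zero {W g : ℂ → ℝ} (hW : ContDiffOn ℝ 1 W (ball 0 1)) (hg : ContDiff ℝ 2 g)
    (hc : HasCompactSupport g) (hs : tsupport g ⊆ ball 0 1) :
    ∫ z in ball (0 : ℂ) 1, (dy W z * dx g z - dx W z * dy g z) = 0 := by
  have hK : IsCompact (tsupport g) := hc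
  have hWd : ∀ z ∈ tsupport g, DifferentiableAt ℝ W z := fun z hz =>
    (hW.differentiableOn (by simp)).differentiableAt (isOpen_ball.mem_nhds (hs hz))
  have hgx : ContDiff ℝ 1 (dx g) := (hg.fderiv_right (m := 1) (by norm_num)).clm_apply contDiff_const
  have hgy : ContDiff ℝ 1 (dy g) := (hg.fderiv_right (m := 1) (by norm_num)).clm_apply contDiff_const
  have hx0 : ∀ z, z ∉ tsupport g → dx g z = 0 := by
    intro z hz
    unfold dx
    rw [fderiv_of_notMem_tsupport ℝ hz]; simp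
  have hy0 : ∀ z, z ∉ tsupport g → dy g z = 0 := by
    intro z hz
    unfold dy
    rw [fderiv_of_notMem_tsupport ℝ hz]; simp
  have tsx : tsupport (dx g) ⊆ tsupport g := by
    apply closure_minimal _ (isClosed_tsupport g)
    intro z hz; by_contra h; exact hz (hx0 z h)
  have tsy : tsupport (dy g) ⊆ tsupport g := by
    apply closure_minimal _ (isClosed_tsupport g)
    intro z hz; by_contra h; exact hz (hy0 z h)
  have hWc : ContinuousOn W (tsupport g) := hW.continuousOn.mono hs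
  have hWx : ContinuousOn (dx W) (tsupport g) := (continuousOn_dx isOpen_ball hW).mono hs
  have hWy : ContinuousOn (dy W) (tsupport g) := (continuousOn_dy isOpen_ball hW).mono hs
  have hgxx : Continuous (fun z => fderiv ℝ (dx g) z I) :=
    (hgx.continuous_fderiv (by simp)).clm_apply continuous_const
  have hgyy : Continuous (fun z => fderiv ℝ (dy g) z 1) :=
    (hgy.continuous_fderiv (by simp)).clm_apply continuous_const
  have hxx0 : ∀ z, z ∉ tsupport g → fderiv ℝ (dx g) z I = 0 := by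
    intro z hz
    rw [fderiv_of_notMem_tsupport ℝ (fun h => hz (tsx h))]; simp
  have hyy0 : ∀ z, z ∉ tsupport g → fderiv ℝ (dy g) z 1 = 0 := by
    intro z hz
    rw [fderiv_of_notMem_tsupport ℝ (fun h => hz (tsy h))]; simp
  have i1 : Integrable (fun z => dy W z * dx g z) := integrable_of_compact hK
    (hWy.mul hgx.continuous.continuousOn) (fun z hz => by rw [hx0 z hz, mul_zero])
  have i2 : Integrable (fun z => dx W z * dy g z) := integrable_of_compact hK
    (hWx.mul hgy.continuous.continuousOn) (fun z hz => by rw [hy0 z hz, mul_zero])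
  have i3 : Integrable (fun z => W z * fderiv ℝ (dx g) z I) := integrable_of_compact hK
    (hWc.mul hgxx.continuousOn) (fun z hz => by rw [hxx0 z hz, mul_zero])
  have i4 : Integrable (fun z => W z * fderiv ℝ (dy g) z 1) := integrable_of_compact hK
    (hWc.mul hgyy.continuousOn) (fun z hz => by rw [hyy0 z hz, mul_zero])
  have i5 : Integrable (fun z => W z * dx g z) := integrable_of_compact hK
    (hWc.mul hgx.continuous.continuousOn) (fun z hz => by rw [hx0 z hz, mul_zero])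
  have i6 : Integrable (fun z => W z * dy g z) := integrable_of_compact hK
    (hWc.mul hgy.continuous.continuousOn) (fun z hz => by rw [hy0 z hz, mul_zero])
  have e1 := integral_mul_fderiv_eq_neg_fderiv_mul_of_integrable (μ := (volume : Measure ℂ))
    (f := W) (g := dx g) (v := I) i1 i3 i5 (fun x hx => hWd x (tsx hx))
    (fun x _ => hgx.differentiable (by simp) x)
  have e2 := integral_mul_fderiv_eq_neg_fderiv_mul_of_integrable (μ := (volume : Measure ℂ))
    (f := W) (g := dy g) (v := 1) i2 i4 i6 (fun x hx => hWd x (tsy hx))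
    (fun x _ => hgy.differentiable (by simp) x)
  have hsym : ∀ z, fderiv ℝ (dx g) z I = fderiv ℝ (dy g) z 1 := by
    intro z
    have hsy : IsSymmSndFDerivAt ℝ g z := hg.contDiffAt.isSymmSndFDerivAt (by simp)
    have hd : DifferentiableAt ℝ (fderiv ℝ g) z :=
      (hg.fderiv_right (m := 1) (by norm_num)).differentiable (by simp) z
    have a1 : fderiv ℝ (dx g) z I = fderiv ℝ (fderiv ℝ g) z I 1 := by
      unfold dx
      rw [fderiv_clm_apply hd (differentiableAt_const _)]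
      simp
    have a2 : fderiv ℝ (dy g) z 1 = fderiv ℝ (fderiv ℝ g) z 1 I := by
      unfold dy
      rw [fderiv_clm_apply hd (differentiableAt_const _)]
      simp
    rw [a1, a2]
    exact hsy.eq I 1
  rw [setIntegral_eq_integral_of_forall_compl_eq_zero, integral_sub i1 i2]
  · have e3 : ∫ z, W z * fderiv ℝ (dx g) z I = ∫ z, W z * fderiv ℝ (dy g) z 1 := by
      congr 1; funext z; rw [hsym]
    have e1' : ∫ z, dy W z * dx g z = -∫ z, W z * fderiv ℝ (dx g) z I := by
      rw [e1, neg_neg]; rfl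
    have e2' : ∫ z, dx W z * dy g z = -∫ z, W z * fderiv ℝ (dy g) z 1 := by
      rw [e2, neg_neg]; rfl
    rw [e1', e2', e3]; ring
  · intro z hz
    have : z ∉ tsupport g := fun h => hz (hs h)
    rw [hx0 z this, hy0 z this]; ring

end Crest.Agent.R101
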