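import Crest.Agent.R101.CoreA

/-! Row 101: limits of cut-off identities; weak divergence and weak curl of `A = M (W_x - i W_y)`. -/

set_option autoImplicit false

open MeasureTheory Metric Set Complex ComplexConjugate Filter Topology
open scoped ContDiff

namespace Crest.Agent.R101

theorem integrableOn_inv_norm : IntegrableOn (fun z : ℂ => ‖z‖⁻¹) (ball 0 1) := by
  rw [integrableOn_fun_norm_addHaar (μ := (volume : Measure ℂ)) (f := fun y => y⁻¹) (r := 1)]
  have : IntegrableOn (fun _ : ℝ => (1 : ℝ)) (Ioo 0 1) := by simp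
  refine this.congr_fun ?_ measurableSet_Ioo
  intro y hy
  have : y ≠ 0 := hy.1.ne'
  simp [Complex.finrank_real_complex, this]

theorem ae_punct : ∀ᵐ z ∂(volume.restrict (ball (0 : ℂ) 1)), z ∈ ball (0 : ℂ) 1 ∧ z ≠ 0 := by
  have h1 : ∀ᵐ z ∂(volume.restrict (ball (0 : ℂ) 1)), z ∈ ball (0 : ℂ) 1 :=
    ae_restrict_mem measurableSet_ball
  have h2 : ∀ᵐ z ∂(volume.restrict (ball (0 : ℂ) 1)), z ≠ 0 := by
    apply ae_restrict_of_ae
    exact compl_mem_ae_iff.2 (measure_singleton (0 : ℂ))
  filter_upwards [h1, h2] with z a b using ⟨a, b⟩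

theorem dct {F : ℕ → ℂ → ℝ} {f G : ℂ → ℝ}
    (hF : ∀ n, AEStronglyMeasurable (F n) (volume.restrict (ball 0 1)))
    (hG : IntegrableOn G (ball 0 1))
    (hb : ∀ n, ∀ z ∈ ball (0 : ℂ) 1, z ≠ 0 → |F n z| ≤ G z)
    (hl : ∀ z ∈ ball (0 : ℂ) 1, z ≠ 0 → Tendsto (fun n => F n z) atTop (𝓝 (f z))) :
    Tendsto (fun n => ∫ z in ball (0 : ℂ) 1, F n z) atTop (𝓝 (∫ z in ball (0 : ℂ) 1, f z)) := by
  apply tendsto_integral_of_dominated_convergence G hF hG
  · intro n
    filter_upwards [ae_punct] with z hz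
    rw [Real.norm_eq_abs]
    exact hb n z hz.1 hz.2
  · filter_upwards [ae_punct] with z hz
    exact hl z hz.1 hz.2

/-- comparison on the punctured disc -/
theorem integrableOn_of_le {F G : ℂ → ℝ} (hF : AEStronglyMeasurable F (volume.restrict (ball 0 1)))
    (hG : IntegrableOn G (ball 0 1)) (h : ∀ z ∈ ball (0 : ℂ) 1, z ≠ 0 → |F z| ≤ G z) :
    IntegrableOn F (ball 0 1) := by
  apply Integrable.mono' hG hF
  filter_upwards [ae_punct] with z hz
  rw [Real.norm_eq_abs]
  exact h z hz.1 hz.2

theorem integral_congr_punct {F G : ℂ → ℝ} (h : ∀ z ∈ ball (0 : ℂ) 1, z ≠ 0 → F z = G z) :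
    ∫ z in ball (0 : ℂ) 1, F z = ∫ z in ball (0 : ℂ) 1, G z := by
  apply integral_congr_ae
  filter_upwards [ae_punct] with z hz using h z hz.1 hz.2

theorem measurable_rho (φ : ℂ → ℂ) : Measurable (rho φ) := by
  unfold rho
  exact (measurable_deriv φ).norm.pow_const 2

theorem aesm_of_c1 {v : ℂ → ℝ} (hv : ContDiffOn ℝ 1 v (ball 0 1)) :
    AEStronglyMeasurable v (volume.restrict (ball 0 1)) :=
  hv.continuousOn.aestronglyMeasurable measurableSet_ball

theorem diffAt_of_c1 {v : ℂ → ℝ} (hv : ContDiffOn ℝ 1 v (ball 0 1)) {z : ℂ} (hz : z ∈ ball (0:ℂ) 1) :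
    DifferentiableAt ℝ v z :=
  (hv.differentiableOn (by simp)).differentiableAt (isOpen_ball.mem_nhds hz)

theorem diffAt_of_c1' {v : ℂ → ℝ} (hv : ContDiffOn ℝ 1 v (ball 0 1 \ {0})) {z : ℂ}
    (hz : z ∈ ball (0:ℂ) 1) (h0 : z ≠ 0) : DifferentiableAt ℝ v z :=
  (hv.differentiableOn (by simp)).differentiableAt (isOpen_punct.mem_nhds ⟨hz, h0⟩)

theorem gr_mul_le {v w : ℂ → ℝ} {z : ℂ} (hv : DifferentiableAt ℝ v z) (hw : DifferentiableAt ℝ w z) :
    gr (fun z => v z * w z) z ≤ |v z| * gr w z + |w z| * gr v z := by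
  unfold gr
  rw [dx_mul hv hw, dy_mul hv hw]
  have h1 := abs_add_le (dx v z * w z) (v z * dx w z)
  have h2 := abs_add_le (dy v z * w z) (v z * dy w z)
  rw [abs_mul, abs_mul] at h1 h2
  linarith

variable {φ : ℂ → ℂ} {W : ℂ → ℝ} {μ c0 : ℝ}

theorem gw_int (hW : WSet φ W μ c0) : IntegrableOn (fun z => gr W z / ‖z‖ ^ 2) (ball 0 1) := by
  obtain ⟨C, r, hr, hr1, hC⟩ := hW.growth
  have hG : IntegrableOn (fun z : ℂ => 2 * |C| * ‖z‖⁻¹ + (1 + 2 * g2 W z) / r ^ 2) (ball 0 1) := by
    apply Integrable.add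
    · exact integrableOn_inv_norm.const_mul _
    · apply Integrable.div_const
      apply Integrable.add
      · exact integrableOn_const (measure_ball_lt_top.ne)
      · exact hW.adm.en.const_mul _
  refine integrableOn_of_le ?_ hG ?_
  · exact ((measurable_gr W).div (by fun_prop)).aestronglyMeasurable
  · intro z hz h0
    have hz' : 0 < ‖z‖ := norm_pos_iff.2 h0
    have hg := gr_nonneg W z
    rw [abs_of_nonneg (by positivity)]
    by_cases hzr : ‖z‖ < r
    · have h1 := hC z (mem_ball_zero_iff.2 hzr)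
      have h2 : gr W z ≤ 2 * |C| * ‖z‖ := by
        unfold gr
        have : C * ‖z‖ ≤ |C| * ‖z‖ := mul_le_mul_of_nonneg_right (le_abs_self C) hz'.le
        linarith [h1.2.1, h1.2.2]
      have h3 : gr W z / ‖z‖ ^ 2 ≤ 2 * |C| * ‖z‖⁻¹ := by
        rw [div_le_iff₀ (by positivity)]
        have : 2 * |C| * ‖z‖⁻¹ * ‖z‖ ^ 2 = 2 * |C| * ‖z‖ := by field_simp
        rw [this]; exact h2
      have h4 : 0 ≤ (1 + 2 * g2 W z) / r ^ 2 := by have := g2_nonneg W z; positivity
      linarith
    · push Not at hzr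
      have h5 : gr W z ≤ 1 + 2 * g2 W z := by
        have := gr_sq_le W z
        nlinarith [sq_nonneg (gr W z - 1)]
      have h6 : gr W z / ‖z‖ ^ 2 ≤ (1 + 2 * g2 W z) / r ^ 2 := by
        apply div_le_div₀ (by have := g2_nonneg W z; positivity) h5 (by positivity)
        gcongr
      have h7 : 0 ≤ 2 * |C| * ‖z‖⁻¹ := by positivity
      linarith

theorem rho_bdd_near (hφ : Conf φ) {r : ℝ} (hr1 : r < 1) : ∃ K : ℝ, 0 ≤ K ∧ ∀ z, ‖z‖ ≤ r → rho φ z ≤ K := by
  have h1 : ContinuousOn (deriv φ) (ball 0 1) := (hφ.holo.deriv isOpen_ball).continuousOn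
  have h2 : ContinuousOn (rho φ) (closedBall 0 r) := by
    unfold rho
    exact ((h1.mono (closedBall_subset_ball hr1)).norm).pow 2
  obtain ⟨K, hK⟩ := (isCompact_closedBall (0 : ℂ) r).exists_bound_of_continuousOn h2
  refine ⟨max K 0, le_max_right _ _, ?_⟩
  intro z hz
  have := hK z (mem_closedBall_zero_iff.2 hz)
  exact (le_abs_self _).trans (this.trans (le_max_left _ _))

theorem rho_nonneg (φ : ℂ → ℂ) (z : ℂ) : 0 ≤ rho φ z := by unfold rho; positivity

theorem rhs_aesm (hW : WSet φ W μ c0) :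
    AEStronglyMeasurable (fun z => rho φ z * (c0 + μ * W z)) (volume.restrict (ball 0 1)) :=
  (measurable_rho φ).aestronglyMeasurable.mul
    (aestronglyMeasurable_const.add ((aesm_of_c1 hW.adm.c1).const_mul μ))

/-- `ρ |c0 + μ W| / |z|` is integrable. -/
theorem gf_int (hφ : Conf φ) (hW : WSet φ W μ c0) :
    IntegrableOn (fun z => rho φ z * |c0 + μ * W z| / ‖z‖) (ball 0 1) := by
  obtain ⟨C, r, hr, hr1, hC⟩ := hW.growth
  obtain ⟨K, hK0, hK⟩ := rho_bdd_near hφ hr1
  have hG : IntegrableOn (fun z : ℂ => K * (|c0| + |μ| * |C|) * ‖z‖⁻¹ +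
      ((|c0| + |μ|) * rho φ z + |μ| * (rho φ z * W z ^ 2)) / r) (ball 0 1) := by
    apply Integrable.add
    · exact integrableOn_inv_norm.const_mul _
    · apply Integrable.div_const
      apply Integrable.add
      · exact hφ.rho_int.const_mul _
      · exact hW.adm.l2.const_mul _
  refine integrableOn_of_le ?_ hG ?_
  · refine AEStronglyMeasurable.mul ?_ (by fun_prop)
    exact (measurable_rho φ).aestronglyMeasurable.mul
      (aestronglyMeasurable_const.add ((aesm_of_c1 hW.adm.c1).const_mul μ)).norm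
  · intro z hz h0
    have hz' : 0 < ‖z‖ := norm_pos_iff.2 h0
    have hz1 : ‖z‖ < 1 := mem_ball_zero_iff.1 hz
    have hrn := rho_nonneg φ z
    rw [abs_of_nonneg (by positivity)]
    have hab : |c0 + μ * W z| ≤ |c0| + |μ| * |W z| := by
      rw [← abs_mul]; exact abs_add_le _ _
    by_cases hzr : ‖z‖ < r
    · have h1 := (hC z (mem_ball_zero_iff.2 hzr)).1
      have h2 : |W z| ≤ |C| := by
        calc |W z| ≤ C * ‖z‖ ^ 2 := h1
          _ ≤ |C| * 1 := by
            apply mul_le_mul (le_abs_self C) _ (by positivity) (abs_nonneg C)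
            nlinarith
          _ = |C| := mul_one _
      have h3 : rho φ z * |c0 + μ * W z| ≤ K * (|c0| + |μ| * |C|) := by
        apply mul_le_mul (hK z hzr.le) _ (abs_nonneg _) hK0
        refine hab.trans ?_
        gcongr
      have h4 : rho φ z * |c0 + μ * W z| / ‖z‖ ≤ K * (|c0| + |μ| * |C|) * ‖z‖⁻¹ := by
        rw [div_eq_mul_inv]
        gcongr
      have h5 : 0 ≤ ((|c0| + |μ|) * rho φ z + |μ| * (rho φ z * W z ^ 2)) / r := by positivity
      linarith
    · push Not at hzr
      have h6 : |W z| ≤ 1 + W z ^ 2 := by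
        have := sq_abs (W z)
        nlinarith [sq_nonneg (|W z| - 1)]
      have h7 : rho φ z * |c0 + μ * W z| ≤ (|c0| + |μ|) * rho φ z + |μ| * (rho φ z * W z ^ 2) := by
        calc rho φ z * |c0 + μ * W z| ≤ rho φ z * (|c0| + |μ| * (1 + W z ^ 2)) := by
              apply mul_le_mul_of_nonneg_left _ hrn
              refine hab.trans ?_
              gcongr
          _ = _ := by ring
      have h8 : rho φ z * |c0 + μ * W z| / ‖z‖ ≤
          ((|c0| + |μ|) * rho φ z + |μ| * (rho φ z * W z ^ 2)) / r := by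
        apply div_le_div₀ (by positivity) h7 hr hzr
      have h9 : 0 ≤ K * (|c0| + |μ| * |C|) * ‖z‖⁻¹ := by positivity
      linarith

/-- the weak equation for test functions with a singularity at `0` -/
theorem weak_lim (hW : WSet φ W μ c0) {g : ℂ → ℝ}
    (hg : ContDiffOn ℝ 1 g (ball 0 1 \ {0})) (hadm : ∀ n, Adm φ (fun z => cut n z * g z))
    {G1 G2 : ℂ → ℝ} (hG1 : IntegrableOn G1 (ball 0 1)) (hG2 : IntegrableOn G2 (ball 0 1))
    (h1 : ∀ z ∈ ball (0 : ℂ) 1, z ≠ 0 → gr W z * gr g z + gr W z * (|g z| / ‖z‖) ≤ G1 z)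
    (h2 : ∀ z ∈ ball (0 : ℂ) 1, z ≠ 0 → rho φ z * |c0 + μ * W z| * |g z| ≤ G2 z) :
    ∫ z in ball (0 : ℂ) 1, ip W g z = ∫ z in ball (0 : ℂ) 1, rho φ z * (c0 + μ * W z) * g z := by
  have hC := C0_pos
  have hdxn : ∀ n, ∀ z ∈ ball (0 : ℂ) 1, z ≠ 0 → ip W (fun z => cut n z * g z) z =
      cut n z * ip W g z + g z * ip W (cut n) z := by
    intro n z hz h0
    have hd := diffAt_of_c1' hg hz h0
    have hc : DifferentiableAt ℝ (cut n) z := (contDiff_cut n (k := 1)).differentiable (by simp) z
    unfold ip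
    rw [dx_mul hc hd, dy_mul hc hd]
    ring
  have L : Tendsto (fun n => ∫ z in ball (0 : ℂ) 1, ip W (fun z => cut n z * g z) z) atTop
      (𝓝 (∫ z in ball (0 : ℂ) 1, ip W g z)) := by
    apply dct (G := fun z => (1 + 8 * C0) * G1 z)
    · intro n
      unfold ip
      exact (((measurable_dx _).mul (measurable_dx _)).add
        ((measurable_dy _).mul (measurable_dy _))).aestronglyMeasurable
    · exact hG1.const_mul _
    · intro n z hz h0
      have hz' : 0 < ‖z‖ := norm_pos_iff.2 h0
      rw [hdxn n z hz h0]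
      have a1 := abs_ip_le W g z
      have a2 := abs_ip_le W (cut n) z
      have a3 := gr_cut_le n h0
      have a4 := h1 z hz h0
      have g1 := gr_nonneg W z
      have g2' := gr_nonneg g z
      have g3 := gr_nonneg (cut n) z
      have c1 := cut_nonneg n z
      have c2 := cut_le_one n z
      have t1 : |cut n z * ip W g z| ≤ gr W z * gr g z := by
        rw [abs_mul, abs_of_nonneg c1]
        calc cut n z * |ip W g z| ≤ 1 * (gr W z * gr g z) :=
              mul_le_mul c2 a1 (abs_nonneg _) zero_le_one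
          _ = _ := one_mul _
      have t2 : |g z * ip W (cut n) z| ≤ 8 * C0 * (gr W z * (|g z| / ‖z‖)) := by
        rw [abs_mul]
        calc |g z| * |ip W (cut n) z| ≤ |g z| * (gr W z * (8 * C0 / ‖z‖)) := by
              apply mul_le_mul_of_nonneg_left _ (abs_nonneg _)
              exact a2.trans (mul_le_mul_of_nonneg_left a3 g1)
          _ = _ := by ring
      have u1 : 0 ≤ gr W z * gr g z := by positivity
      have u2 : 0 ≤ gr W z * (|g z| / ‖z‖) := by positivity
      refine (abs_add_le _ _).trans ?_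
      nlinarith [mul_nonneg hC.le u1]
    · intro z hz h0
      apply tendsto_const_nhds.congr'
      filter_upwards [cut_eventually h0] with n hn
      rw [hdxn n z hz h0, hn.1]
      have : ip W (cut n) z = 0 := by
        have := abs_ip_le W (cut n) z
        rw [hn.2, mul_zero] at this
        exact abs_eq_zero.1 (le_antisymm this (abs_nonneg _))
      rw [this]; ring
  have Rr : Tendsto (fun n => ∫ z in ball (0 : ℂ) 1, rho φ z * (c0 + μ * W z) * (cut n z * g z)) atTop
      (𝓝 (∫ z in ball (0 : ℂ) 1, rho φ z * (c0 + μ * W z) * g z)) := by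
    apply dct (G := G2)
    · intro n
      exact (rhs_aesm hW).mul (aesm_of_c1 (hadm n).c1)
    · exact hG2
    · intro n z hz h0
      have c1 := cut_nonneg n z
      have c2 := cut_le_one n z
      have hrn := rho_nonneg φ z
      refine le_trans ?_ (h2 z hz h0)
      rw [abs_mul, abs_mul, abs_mul, abs_of_nonneg hrn, abs_of_nonneg c1]
      have : cut n z * |g z| ≤ 1 * |g z| := mul_le_mul_of_nonneg_right c2 (abs_nonneg _)
      rw [one_mul] at this
      exact mul_le_mul_of_nonneg_left this (by positivity)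
    · intro z hz h0
      apply tendsto_const_nhds.congr'
      filter_upwards [cut_eventually h0] with n hn
      rw [hn.1, one_mul]
  refine tendsto_nhds_unique L ?_
  refine Rr.congr ?_
  intro n
  exact (hW.weak _ (hadm n)).symm

/-- the curl identity for functions with a singularity at `0` vanishing on the circle -/
theorem curl_lim (hW : WSet φ W μ c0) {g : ℂ → ℝ} (hg : ContDiffOn ℝ 2 g (ball 0 1 \ {0})) {K : ℝ}
    (hK : 0 ≤ K)
    (h1 : ∀ z ∈ ball (0 : ℂ) 1, z ≠ 0 → |g z| ≤ K * (1 - ‖z‖ ^ 2) / ‖z‖)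
    (h2 : ∀ z ∈ ball (0 : ℂ) 1, z ≠ 0 → gr g z ≤ K / ‖z‖ ^ 2) :
    ∫ z in ball (0 : ℂ) 1, (dy W z * dx g z - dx W z * dy g z) = 0 := by
  have hC := C0_pos
  have hg1 : ContDiffOn ℝ 1 g (ball 0 1 \ {0}) := hg.of_le (by norm_num)
  have hdxn : ∀ n, ∀ z ∈ ball (0 : ℂ) 1, z ≠ 0 →
      dy W z * dx (fun z => cut n z * bc n z * g z) z - dx W z * dy (fun z => cut n z * bc n z * g z) z
      = cut n z * bc n z * (dy W z * dx g z - dx W z * dy g z) +
        g z * (bc n z * (dy W z * dx (cut n) z - dx W z * dy (cut n) z) +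
          cut n z * (dy W z * dx (bc n) z - dx W z * dy (bc n) z)) := by
    intro n z hz h0
    have hd := diffAt_of_c1' hg1 hz h0
    have hc : DifferentiableAt ℝ (cut n) z := (contDiff_cut n (k := 1)).differentiable (by simp) z
    have hb : DifferentiableAt ℝ (bc n) z := (contDiff_bc n (k := 1)).differentiable (by simp) z
    have hcb : DifferentiableAt ℝ (fun z => cut n z * bc n z) z := hc.mul hb
    rw [dx_mul hcb hd, dy_mul hcb hd, dx_mul hc hb, dy_mul hc hb]
    ring
  have hz : ∀ n, ∫ z in ball (0 : ℂ) 1, (dy W z * dx (fun z => cut n z * bc n z * g z) z -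
      dx W z * dy (fun z => cut n z * bc n z * g z) z) = 0 := by
    intro n
    exact curl_zero hW.adm.c1 (contDiff_cutbc (k := 2) hg n) (hcs_cutbc n g)
      ((ts_cutbc n g).trans ((Kn_sub n).trans sdiff_subset))
  have L : Tendsto (fun n => ∫ z in ball (0 : ℂ) 1, (dy W z * dx (fun z => cut n z * bc n z * g z) z -
      dx W z * dy (fun z => cut n z * bc n z * g z) z)) atTop
      (𝓝 (∫ z in ball (0 : ℂ) 1, (dy W z * dx g z - dx W z * dy g z))) := by
    apply dct (G := fun z => (K * (1 + 16 * C0)) * (gr W z / ‖z‖ ^ 2))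
    · intro n
      exact (((measurable_dy _).mul (measurable_dx _)).sub
        ((measurable_dx _).mul (measurable_dy _))).aestronglyMeasurable
    · exact (gw_int hW).const_mul _
    · intro n z hz h0
      have hz' : 0 < ‖z‖ := norm_pos_iff.2 h0
      have hz1 : ‖z‖ < 1 := mem_ball_zero_iff.1 hz
      have hz2 : 0 < 1 - ‖z‖ ^ 2 := by nlinarith
      rw [hdxn n z hz h0]
      have a1 := abs_rot_le W g z
      have a2 := abs_rot_le W (cut n) z
      have a2' := abs_rot_le W (bc n) z
      have a3 := gr_cut_le n h0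
      have a3' := gr_bc_le n hz1
      have a4 := h1 z hz h0
      have a5 := h2 z hz h0
      have g1 := gr_nonneg W z
      have g2' := gr_nonneg g z
      have g3 := gr_nonneg (cut n) z
      have g3' := gr_nonneg (bc n) z
      have c1 := cut_nonneg n z
      have c2 := cut_le_one n z
      have b1 := bc_nonneg n z
      have b2 := bc_le_one n z
      have t1 : |cut n z * bc n z * (dy W z * dx g z - dx W z * dy g z)| ≤ gr W z * (K / ‖z‖ ^ 2) := by
        rw [abs_mul, abs_of_nonneg (mul_nonneg c1 b1)]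
        calc cut n z * bc n z * |dy W z * dx g z - dx W z * dy g z| ≤ 1 * (gr W z * (K / ‖z‖ ^ 2)) := by
              apply mul_le_mul _ (a1.trans (mul_le_mul_of_nonneg_left a5 g1)) (abs_nonneg _) zero_le_one
              nlinarith
          _ = _ := one_mul _
      have t2 : |g z * (bc n z * (dy W z * dx (cut n) z - dx W z * dy (cut n) z))| ≤
          8 * C0 * (gr W z * (K / ‖z‖ ^ 2)) := by
        rw [abs_mul, abs_mul, abs_of_nonneg b1]
        have e1 : |g z| ≤ K / ‖z‖ := by
          refine a4.trans ?_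
          gcongr
          nlinarith
        calc |g z| * (bc n z * |dy W z * dx (cut n) z - dx W z * dy (cut n) z|)
            ≤ (K / ‖z‖) * (1 * (gr W z * (8 * C0 / ‖z‖))) := by
              apply mul_le_mul e1 _ (by positivity) (by positivity)
              apply mul_le_mul b2 (a2.trans (mul_le_mul_of_nonneg_left a3 g1)) (abs_nonneg _) zero_le_one
          _ = _ := by field_simp
      have t3 : |g z * (cut n z * (dy W z * dx (bc n) z - dx W z * dy (bc n) z))| ≤
          8 * C0 * (gr W z * (K / ‖z‖ ^ 2)) := by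
        rw [abs_mul, abs_mul, abs_of_nonneg c1]
        calc |g z| * (cut n z * |dy W z * dx (bc n) z - dx W z * dy (bc n) z|)
            ≤ (K * (1 - ‖z‖ ^ 2) / ‖z‖) * (1 * (gr W z * gr (bc n) z)) := by
              apply mul_le_mul a4 _ (by positivity) (by positivity)
              apply mul_le_mul c2 a2' (abs_nonneg _) zero_le_one
          _ = (K / ‖z‖ * gr W z) * ((1 - ‖z‖ ^ 2) * gr (bc n) z) := by ring
          _ ≤ (K / ‖z‖ * gr W z) * (8 * C0 * ‖z‖) := by
              apply mul_le_mul_of_nonneg_left a3' (by positivity)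
          _ = 8 * C0 * (gr W z * K) := by field_simp
          _ ≤ 8 * C0 * (gr W z * (K / ‖z‖ ^ 2)) := by
              apply mul_le_mul_of_nonneg_left _ (by positivity)
              apply mul_le_mul_of_nonneg_left _ g1
              rw [le_div_iff₀ (by positivity)]
              have : ‖z‖ ^ 2 ≤ 1 := by nlinarith
              nlinarith
      refine (abs_add_le _ _).trans ?_
      rw [mul_add]
      have t4 := abs_add_le (g z * (bc n z * (dy W z * dx (cut n) z - dx W z * dy (cut n) z)))
        (g z * (cut n z * (dy W z * dx (bc n) z - dx W z * dy (bc n) z)))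
      have e2 : K * (1 + 16 * C0) * (gr W z / ‖z‖ ^ 2) = gr W z * (K / ‖z‖ ^ 2) +
        8 * C0 * (gr W z * (K / ‖z‖ ^ 2)) + 8 * C0 * (gr W z * (K / ‖z‖ ^ 2)) := by ring
      rw [e2]
      linarith
    · intro z hz h0
      have hz1 : ‖z‖ < 1 := mem_ball_zero_iff.1 hz
      apply tendsto_const_nhds.congr'
      filter_upwards [cut_eventually h0, bc_eventually hz1] with n hn hb
      rw [hdxn n z hz h0, hn.1, hb.1]
      have e1 : dy W z * dx (cut n) z - dx W z * dy (cut n) z = 0 := by
        have := abs_rot_le W (cut n) z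
        rw [hn.2, mul_zero] at this
        exact abs_eq_zero.1 (le_antisymm this (abs_nonneg _))
      have e2 : dy W z * dx (bc n) z - dx W z * dy (bc n) z = 0 := by
        have := abs_rot_le W (bc n) z
        rw [hb.2, mul_zero] at this
        exact abs_eq_zero.1 (le_antisymm this (abs_nonneg _))
      rw [e1, e2]; ring
  refine tendsto_nhds_unique L ?_
  refine tendsto_const_nhds.congr ?_
  intro n
  exact (hz n).symm

end Crest.Agent.R101
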