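import Crest.Agent.R101.CoreB

/-! Row 101: weak divergence, weak curl and energy of `A = M (W_x - i W_y)`. -/

set_option autoImplicit false

open MeasureTheory Metric Set Complex ComplexConjugate Filter Topology
open scoped ContDiff

namespace Crest.Agent.R101

/-! ### `M` -/

theorem dx_re {F : ℂ → ℂ} {F' z : ℂ} (h : HasDerivAt F F' z) : dx (fun z => (F z).re) z = F'.re := by
  have h1 : HasFDerivAt (fun z => (F z).re)
      (Complex.reCLM.comp ((ContinuousLinearMap.toSpanSingleton ℂ F').restrictScalars ℝ)) z :=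
    Complex.reCLM.hasFDerivAt.comp z (h.hasFDerivAt.restrictScalars ℝ)
  unfold dx
  rw [h1.fderiv]
  simp

theorem dy_re {F : ℂ → ℂ} {F' z : ℂ} (h : HasDerivAt F F' z) : dy (fun z => (F z).re) z = -F'.im := by
  have h1 : HasFDerivAt (fun z => (F z).re)
      (Complex.reCLM.comp ((ContinuousLinearMap.toSpanSingleton ℂ F').restrictScalars ℝ)) z :=
    Complex.reCLM.hasFDerivAt.comp z (h.hasFDerivAt.restrictScalars ℝ)
  unfold dy
  rw [h1.fderiv]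
  simp

theorem dx_im {F : ℂ → ℂ} {F' z : ℂ} (h : HasDerivAt F F' z) : dx (fun z => (F z).im) z = F'.im := by
  have h1 : HasFDerivAt (fun z => (F z).im)
      (Complex.imCLM.comp ((ContinuousLinearMap.toSpanSingleton ℂ F').restrictScalars ℝ)) z :=
    Complex.imCLM.hasFDerivAt.comp z (h.hasFDerivAt.restrictScalars ℝ)
  unfold dx
  rw [h1.fderiv]
  simp

theorem dy_im {F : ℂ → ℂ} {F' z : ℂ} (h : HasDerivAt F F' z) : dy (fun z => (F z).im) z = F'.re := by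
  have h1 : HasFDerivAt (fun z => (F z).im)
      (Complex.imCLM.comp ((ContinuousLinearMap.toSpanSingleton ℂ F').restrictScalars ℝ)) z :=
    Complex.imCLM.hasFDerivAt.comp z (h.hasFDerivAt.restrictScalars ℝ)
  unfold dy
  rw [h1.fderiv]
  simp

theorem hasDerivAt_MM (β : ℂ) {z : ℂ} (hz : z ≠ 0) : HasDerivAt (MM β) (MM' β z) z := by
  unfold MM MM'
  have h1 : HasDerivAt (fun z : ℂ => β / z) (-β / z ^ 2) z := by
    have h := (hasDerivAt_inv hz).const_mul β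
    have e1 : (fun z : ℂ => β / z) = fun y => β * y⁻¹ := by funext y; rw [div_eq_mul_inv]
    have e2 : -β / z ^ 2 = β * -(z ^ 2)⁻¹ := by rw [div_eq_mul_inv]; ring
    rw [e1, e2]; exact h
  have h2 : HasDerivAt (fun z : ℂ => conj β * z) (conj β) z := by
    simpa using (hasDerivAt_id z).const_mul (conj β)
  exact h1.add h2

theorem hasDerivAt_MM' (β : ℂ) {z : ℂ} (hz : z ≠ 0) : HasDerivAt (MM' β) (2 * β / z ^ 3) z := by
  unfold MM'
  have h0 : HasDerivAt (fun z : ℂ => z ^ 2) (2 * z) z := by simpa using hasDerivAt_pow 2 z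
  have h1 : HasDerivAt (fun z : ℂ => (z ^ 2)⁻¹) (-(2 * z) / (z ^ 2) ^ 2) z := h0.inv (pow_ne_zero 2 hz)
  have h2 := (h1.const_mul (-β)).add_const (conj β)
  have e1 : (fun z : ℂ => -β / z ^ 2 + conj β) = fun y => -β * (y ^ 2)⁻¹ + conj β := by
    funext y; rw [div_eq_mul_inv]
  have e2 : 2 * β / z ^ 3 = -β * (-(2 * z) / (z ^ 2) ^ 2) := by field_simp
  rw [e1, e2]; exact h2

theorem norm_MM_le {β z : ℂ} (hβ : ‖β‖ = 1) (hz1 : ‖z‖ < 1) (h0 : z ≠ 0) : ‖MM β z‖ ≤ 2 / ‖z‖ := by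
  have hz : 0 < ‖z‖ := norm_pos_iff.2 h0
  unfold MM
  refine (norm_add_le _ _).trans ?_
  rw [norm_div, norm_mul, RCLike.norm_conj, hβ, one_mul]
  have : ‖z‖ ≤ 1 / ‖z‖ := by rw [le_div_iff₀ hz]; nlinarith
  have e : 2 / ‖z‖ = 1 / ‖z‖ + 1 / ‖z‖ := by ring
  linarith

theorem norm_MM'_le {β z : ℂ} (hβ : ‖β‖ = 1) (hz1 : ‖z‖ < 1) (h0 : z ≠ 0) :
    ‖MM' β z‖ ≤ 2 / ‖z‖ ^ 2 := by
  have hz : 0 < ‖z‖ := norm_pos_iff.2 h0
  unfold MM'
  refine (norm_add_le _ _).trans ?_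
  rw [norm_div, norm_neg, RCLike.norm_conj, hβ, norm_pow]
  have : 1 ≤ 1 / ‖z‖ ^ 2 := by rw [le_div_iff₀ (by positivity)]; nlinarith
  have e : 2 / ‖z‖ ^ 2 = 1 / ‖z‖ ^ 2 + 1 / ‖z‖ ^ 2 := by ring
  linarith

theorem RR_eq {β z : ℂ} (h0 : z ≠ 0) : RR β z = (1 - ‖z‖ ^ 2) * (β / z).im := by
  unfold RR MM
  have h1 : conj β * z = conj (β * conj z) := by simp
  have h2 : β * conj z = ((‖z‖ ^ 2 : ℝ) : ℂ) * (β / z) := by
    rw [← Complex.normSq_eq_norm_sq, ← Complex.mul_conj]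
    field_simp
  rw [Complex.add_im, h1, Complex.conj_im, h2, Complex.im_ofReal_mul]
  ring

theorem abs_RR_le {β z : ℂ} (hβ : ‖β‖ = 1) (hz1 : ‖z‖ < 1) (h0 : z ≠ 0) :
    |RR β z| ≤ (1 - ‖z‖ ^ 2) / ‖z‖ := by
  have hz : 0 < ‖z‖ := norm_pos_iff.2 h0
  rw [RR_eq h0, abs_mul, abs_of_nonneg (by nlinarith), div_eq_mul_inv (1 - ‖z‖ ^ 2)]
  apply mul_le_mul_of_nonneg_left _ (by nlinarith)
  refine (Complex.abs_im_le_norm _).trans ?_
  rw [norm_div, hβ, one_div]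

theorem contDiffOn_MM (β : ℂ) {k : ℕ∞} : ContDiffOn ℝ k (MM β) (ball 0 1 \ {0}) := by
  intro z hz
  have h0 : z ≠ 0 := hz.2
  apply ContDiffAt.contDiffWithinAt
  unfold MM
  have h1 : ContDiffAt ℝ k (fun z : ℂ => β * z⁻¹) z :=
    contDiffAt_const.mul (contDiffAt_inv ℝ h0)
  have e1 : (fun z : ℂ => β / z + conj β * z) = fun z => β * z⁻¹ + conj β * z := by
    funext y; rw [div_eq_mul_inv]
  rw [e1]
  exact h1.add (contDiffAt_const.mul contDiffAt_id)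

theorem contDiffOn_Mre (β : ℂ) {k : ℕ∞} : ContDiffOn ℝ k (fun z => (MM β z).re) (ball 0 1 \ {0}) :=
  Complex.reCLM.contDiff.comp_contDiffOn (contDiffOn_MM β)

theorem contDiffOn_RR (β : ℂ) {k : ℕ∞} : ContDiffOn ℝ k (RR β) (ball 0 1 \ {0}) :=
  Complex.imCLM.contDiff.comp_contDiffOn (contDiffOn_MM β)

theorem dx_Mre (β : ℂ) {z : ℂ} (h0 : z ≠ 0) : dx (fun z => (MM β z).re) z = (MM' β z).re :=
  dx_re (hasDerivAt_MM β h0)
theorem dy_Mre (β : ℂ) {z : ℂ} (h0 : z ≠ 0) : dy (fun z => (MM β z).re) z = -(MM' β z).im :=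
  dy_re (hasDerivAt_MM β h0)
theorem dx_RR (β : ℂ) {z : ℂ} (h0 : z ≠ 0) : dx (RR β) z = (MM' β z).im :=
  dx_im (hasDerivAt_MM β h0)
theorem dy_RR (β : ℂ) {z : ℂ} (h0 : z ≠ 0) : dy (RR β) z = (MM' β z).re :=
  dy_im (hasDerivAt_MM β h0)

theorem gr_Mre_le {β z : ℂ} (hβ : ‖β‖ = 1) (hz1 : ‖z‖ < 1) (h0 : z ≠ 0) :
    gr (fun z => (MM β z).re) z ≤ 4 / ‖z‖ ^ 2 := by
  unfold gr
  rw [dx_Mre β h0, dy_Mre β h0, abs_neg]
  have h1 := Complex.abs_re_le_norm (MM' β z)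
  have h2 := Complex.abs_im_le_norm (MM' β z)
  have h3 := norm_MM'_le hβ hz1 h0
  have e : 4 / ‖z‖ ^ 2 = 2 / ‖z‖ ^ 2 + 2 / ‖z‖ ^ 2 := by ring
  linarith

theorem gr_RR_le {β z : ℂ} (hβ : ‖β‖ = 1) (hz1 : ‖z‖ < 1) (h0 : z ≠ 0) :
    gr (RR β) z ≤ 4 / ‖z‖ ^ 2 := by
  unfold gr
  rw [dx_RR β h0, dy_RR β h0]
  have h1 := Complex.abs_re_le_norm (MM' β z)
  have h2 := Complex.abs_im_le_norm (MM' β z)
  have h3 := norm_MM'_le hβ hz1 h0
  have e : 4 / ‖z‖ ^ 2 = 2 / ‖z‖ ^ 2 + 2 / ‖z‖ ^ 2 := by ring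
  linarith

/-! ### admissibility of cut-off functions -/

theorem adm_of_bdd {φ : ℂ → ℂ} (hφ : Conf φ) {g : ℂ → ℝ} (hg : ContDiffOn ℝ 1 g (ball 0 1)) {B : ℝ}
    (h1 : ∀ z ∈ ball (0 : ℂ) 1, z ≠ 0 → |g z| ≤ B) (h2 : ∀ z ∈ ball (0 : ℂ) 1, z ≠ 0 → gr g z ≤ B) :
    Adm φ g := by
  refine ⟨hg, ?_, ?_⟩
  · refine integrableOn_of_le ?_ (hφ.rho_int.const_mul (B ^ 2)) ?_
    · exact (measurable_rho φ).aestronglyMeasurable.mul ((aesm_of_c1 hg).pow 2)
    · intro z hz h0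
      have hr := rho_nonneg φ z
      rw [abs_of_nonneg (by positivity)]
      have := h1 z hz h0
      have h3 : g z ^ 2 ≤ B ^ 2 := by
        rw [← sq_abs]
        gcongr
      calc rho φ z * g z ^ 2 ≤ rho φ z * B ^ 2 := mul_le_mul_of_nonneg_left h3 hr
        _ = B ^ 2 * rho φ z := by ring
  · refine integrableOn_of_le (measurable_g2 g).aestronglyMeasurable
      (integrableOn_const (C := B ^ 2) measure_ball_lt_top.ne) ?_
    intro z hz h0
    rw [abs_of_nonneg (g2_nonneg g z)]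
    have h3 := h2 z hz h0
    have h4 := gr_nonneg g z
    calc g2 g z ≤ gr g z ^ 2 := g2_le g z
      _ ≤ B ^ 2 := by gcongr

theorem gr_cut_zero {n : ℕ} {z : ℂ} (h : (n : ℝ) * ‖z‖ ^ 2 < 1) : gr (cut n) z = 0 := by
  unfold gr
  rw [dx_cut, dy_cut, st_neg (by linarith)]
  simp

theorem adm_cut {φ : ℂ → ℂ} (hφ : Conf φ) {g : ℂ → ℝ} (hg : ContDiffOn ℝ 1 g (ball 0 1 \ {0}))
    {K : ℝ} (hK : 0 ≤ K)
    (h1 : ∀ z ∈ ball (0 : ℂ) 1, z ≠ 0 → |g z| ≤ K / ‖z‖)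
    (h2 : ∀ z ∈ ball (0 : ℂ) 1, z ≠ 0 → gr g z ≤ K / ‖z‖ ^ 2) (n : ℕ) :
    Adm φ (fun z => cut n z * g z) := by
  have hC := C0_pos
  have key : ∀ z ∈ ball (0 : ℂ) 1, z ≠ 0 → 1 ≤ (n : ℝ) * ‖z‖ ^ 2 → 1 / ‖z‖ ^ 2 ≤ n := by
    intro z hz h0 h
    have hz' : 0 < ‖z‖ := norm_pos_iff.2 h0
    rw [div_le_iff₀ (by positivity)]; exact h
  have hn0 : (0 : ℝ) ≤ n := Nat.cast_nonneg n
  refine adm_of_bdd (B := K * n * (1 + 8 * C0)) hφ (contDiffOn_cut_mul (k := 1) hg n) ?_ ?_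
  · intro z hz h0
    have hz' : 0 < ‖z‖ := norm_pos_iff.2 h0
    have hz1 : ‖z‖ < 1 := mem_ball_zero_iff.1 hz
    by_cases h : (n : ℝ) * ‖z‖ ^ 2 < 1
    · rw [cut_eq_zero h.le, zero_mul, abs_zero]; positivity
    · push Not at h
      have k1 := key z hz h0 h
      have c1 := cut_nonneg n z
      have c2 := cut_le_one n z
      rw [abs_mul, abs_of_nonneg c1]
      have : |g z| ≤ K * n := by
        calc |g z| ≤ K / ‖z‖ := h1 z hz h0
          _ = K * (1 / ‖z‖) := by ring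
          _ ≤ K * n := by
            apply mul_le_mul_of_nonneg_left _ hK
            refine le_trans ?_ k1
            apply one_div_le_one_div_of_le (by positivity)
            nlinarith
      calc cut n z * |g z| ≤ 1 * (K * n) := mul_le_mul c2 this (abs_nonneg _) zero_le_one
        _ ≤ K * n * (1 + 8 * C0) := by nlinarith [mul_nonneg hK hn0, mul_nonneg (mul_nonneg hK hn0) hC.le]
  · intro z hz h0
    have hz' : 0 < ‖z‖ := norm_pos_iff.2 h0
    have hz1 : ‖z‖ < 1 := mem_ball_zero_iff.1 hz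
    have hd := diffAt_of_c1' hg hz h0
    have hc : DifferentiableAt ℝ (cut n) z := (contDiff_cut n (k := 1)).differentiable (by simp) z
    have hm := gr_mul_le hc hd
    refine hm.trans ?_
    by_cases h : (n : ℝ) * ‖z‖ ^ 2 < 1
    · rw [cut_eq_zero h.le, gr_cut_zero h]; simp; positivity
    · push Not at h
      have k1 := key z hz h0 h
      have c1 := cut_nonneg n z
      have c2 := cut_le_one n z
      rw [abs_of_nonneg c1]
      have t1 : gr g z ≤ K * n := by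
        calc gr g z ≤ K / ‖z‖ ^ 2 := h2 z hz h0
          _ = K * (1 / ‖z‖ ^ 2) := by ring
          _ ≤ K * n := mul_le_mul_of_nonneg_left k1 hK
      have t2 : |g z| * gr (cut n) z ≤ K * n * (8 * C0) := by
        calc |g z| * gr (cut n) z ≤ (K / ‖z‖) * (8 * C0 / ‖z‖) :=
              mul_le_mul (h1 z hz h0) (gr_cut_le n h0) (gr_nonneg _ _) (by positivity)
          _ = K * (8 * C0) * (1 / ‖z‖ ^ 2) := by field_simp
          _ ≤ K * (8 * C0) * n := mul_le_mul_of_nonneg_left k1 (by positivity)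
          _ = _ := by ring
      have t3 : cut n z * gr g z ≤ K * n := by
        calc cut n z * gr g z ≤ 1 * (K * n) := mul_le_mul c2 t1 (gr_nonneg _ _) zero_le_one
          _ = _ := one_mul _
      nlinarith

/-! ### bounds for smooth test functions -/

theorem exists_bound_smooth {v : ℂ → ℝ} (hv : ContDiff ℝ ∞ v) :
    ∃ K : ℝ, 0 ≤ K ∧ ∀ z, ‖z‖ ≤ 1 → |v z| ≤ K ∧ gr v z ≤ K ∧ ‖fderiv ℝ v z‖ ≤ K := by
  have h1 : Continuous v := hv.continuous
  have h2 : Continuous (fderiv ℝ v) := hv.continuous_fderiv (by simp)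
  obtain ⟨K1, hK1⟩ := (isCompact_closedBall (0 : ℂ) 1).exists_bound_of_continuousOn h1.continuousOn
  obtain ⟨K2, hK2⟩ := (isCompact_closedBall (0 : ℂ) 1).exists_bound_of_continuousOn h2.continuousOn
  have hK20 : 0 ≤ K2 := le_trans (norm_nonneg _) (hK2 0 (by simp))
  have hK10 : 0 ≤ K1 := le_trans (norm_nonneg _) (hK1 0 (by simp))
  refine ⟨K1 + 2 * K2, by positivity, ?_⟩
  intro z hz
  have a1 := hK1 z (mem_closedBall_zero_iff.2 hz)
  have a2 := hK2 z (mem_closedBall_zero_iff.2 hz)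
  rw [Real.norm_eq_abs] at a1
  have b1 : |dx v z| ≤ K2 := by
    have := (fderiv ℝ v z).le_opNorm 1
    rw [Real.norm_eq_abs, norm_one, mul_one] at this
    exact this.trans a2
  have b2 : |dy v z| ≤ K2 := by
    have := (fderiv ℝ v z).le_opNorm I
    rw [Real.norm_eq_abs, Complex.norm_I, mul_one] at this
    exact this.trans a2
  refine ⟨by linarith, ?_, by linarith⟩
  unfold gr; linarith

theorem bound_of_zero_circle {B : ℂ → ℝ} (hB : ContDiff ℝ ∞ B) (hB0 : ∀ z, ‖z‖ = 1 → B z = 0) {K : ℝ}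
    (hK : 0 ≤ K) (h : ∀ z, ‖z‖ ≤ 1 → ‖fderiv ℝ B z‖ ≤ K) {z : ℂ} (hz1 : ‖z‖ < 1) (h0 : z ≠ 0) :
    |B z| ≤ K * (1 - ‖z‖ ^ 2) := by
  have hz : 0 < ‖z‖ := norm_pos_iff.2 h0
  set w : ℂ := ((‖z‖⁻¹ : ℝ) : ℂ) * z with hw
  have hw1 : ‖w‖ = 1 := by
    rw [hw, norm_mul, Complex.norm_real, Real.norm_eq_abs, abs_of_pos (by positivity)]
    field_simp
  have hd : ∀ x ∈ closedBall (0 : ℂ) 1, HasFDerivWithinAt B (fderiv ℝ B x) (closedBall 0 1) x :=
    fun x _ => (hB.differentiable (by simp) x).hasFDerivAt.hasFDerivWithinAt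
  have hm := Convex.norm_image_sub_le_of_norm_hasFDerivWithin_le (𝕜 := ℝ) hd
    (fun x hx => h x (mem_closedBall_zero_iff.1 hx)) (convex_closedBall (0 : ℂ) 1)
    (mem_closedBall_zero_iff.2 hw1.le) (mem_closedBall_zero_iff.2 hz1.le)
  rw [hB0 w hw1, sub_zero, Real.norm_eq_abs] at hm
  have hdist : ‖z - w‖ = 1 - ‖z‖ := by
    have : z - w = ((1 - ‖z‖⁻¹ : ℝ) : ℂ) * z := by rw [hw]; push_cast; ring
    rw [this, norm_mul, Complex.norm_real, Real.norm_eq_abs]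
    have h1 : 1 ≤ ‖z‖⁻¹ := by rw [one_le_inv₀ hz]; exact hz1.le
    rw [abs_of_nonpos (by linarith)]
    field_simp
    ring
  rw [hdist] at hm
  refine hm.trans (mul_le_mul_of_nonneg_left ?_ hK)
  nlinarith

/-! ### weak divergence and curl -/

noncomputable def VA1 (β : ℂ) (W : ℂ → ℝ) (z : ℂ) : ℝ := (MM β z).re * dx W z + RR β z * dy W z
noncomputable def VA2 (β : ℂ) (W : ℂ → ℝ) (z : ℂ) : ℝ := (MM β z).re * dy W z - RR β z * dx W z

variable {φ : ℂ → ℂ} {W : ℂ → ℝ} {μ c0 : ℝ}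

/-- weak equation tested with `k v`, `|k| ≤ 2/|z|`, `|∇k| ≤ 4/|z|²` -/
theorem weak_kv (hφ : Conf φ) (hW : WSet φ W μ c0) {k v : ℂ → ℝ}
    (hk : ContDiffOn ℝ 1 k (ball 0 1 \ {0})) (hk1 : ∀ z ∈ ball (0 : ℂ) 1, z ≠ 0 → |k z| ≤ 2 / ‖z‖)
    (hk2 : ∀ z ∈ ball (0 : ℂ) 1, z ≠ 0 → gr k z ≤ 4 / ‖z‖ ^ 2) (hv : ContDiff ℝ ∞ v) :
    IntegrableOn (ip W (fun z => k z * v z)) (ball 0 1) ∧
    IntegrableOn (fun z => rho φ z * (c0 + μ * W z) * (k z * v z)) (ball 0 1) ∧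
    ∫ z in ball (0 : ℂ) 1, ip W (fun z => k z * v z) z =
      ∫ z in ball (0 : ℂ) 1, rho φ z * (c0 + μ * W z) * (k z * v z) := by
  obtain ⟨K, hK, hb⟩ := exists_bound_smooth hv
  have hg : ContDiffOn ℝ 1 (fun z => k z * v z) (ball 0 1 \ {0}) :=
    hk.mul ((hv.of_le (by simp)).contDiffOn)
  have g1 : ∀ z ∈ ball (0 : ℂ) 1, z ≠ 0 → |k z * v z| ≤ 6 * K / ‖z‖ := by
    intro z hz h0
    have hz' : 0 < ‖z‖ := norm_pos_iff.2 h0
    have hz1 : ‖z‖ < 1 := mem_ball_zero_iff.1 hz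
    rw [abs_mul]
    calc |k z| * |v z| ≤ (2 / ‖z‖) * K := mul_le_mul (hk1 z hz h0) (hb z hz1.le).1 (abs_nonneg _) (by positivity)
      _ = 2 * K / ‖z‖ := by ring
      _ ≤ 6 * K / ‖z‖ := by gcongr; norm_num
  have g2' : ∀ z ∈ ball (0 : ℂ) 1, z ≠ 0 → gr (fun z => k z * v z) z ≤ 6 * K / ‖z‖ ^ 2 := by
    intro z hz h0
    have hz' : 0 < ‖z‖ := norm_pos_iff.2 h0
    have hz1 : ‖z‖ < 1 := mem_ball_zero_iff.1 hz
    have hm := gr_mul_le (diffAt_of_c1' hk hz h0) (hv.differentiable (by simp) z)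
    refine hm.trans ?_
    have t1 : |k z| * gr v z ≤ 2 * K / ‖z‖ ^ 2 := by
      calc |k z| * gr v z ≤ (2 / ‖z‖) * K :=
            mul_le_mul (hk1 z hz h0) (hb z hz1.le).2.1 (gr_nonneg _ _) (by positivity)
        _ = 2 * K / ‖z‖ := by ring
        _ ≤ 2 * K / ‖z‖ ^ 2 := by
          apply div_le_div_of_nonneg_left (by positivity) (by positivity)
          nlinarith
    have t2 : |v z| * gr k z ≤ 4 * K / ‖z‖ ^ 2 := by
      calc |v z| * gr k z ≤ K * (4 / ‖z‖ ^ 2) :=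
            mul_le_mul (hb z hz1.le).1 (hk2 z hz h0) (gr_nonneg _ _) hK
        _ = _ := by ring
    have e : 6 * K / ‖z‖ ^ 2 = 2 * K / ‖z‖ ^ 2 + 4 * K / ‖z‖ ^ 2 := by ring
    linarith
  have hG1 : IntegrableOn (fun z => 12 * K * (gr W z / ‖z‖ ^ 2)) (ball 0 1) := (gw_int hW).const_mul _
  have hG2 : IntegrableOn (fun z => 6 * K * (rho φ z * |c0 + μ * W z| / ‖z‖)) (ball 0 1) :=
    (gf_int hφ hW).const_mul _
  have h1 : ∀ z ∈ ball (0 : ℂ) 1, z ≠ 0 → gr W z * gr (fun z => k z * v z) z +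
      gr W z * (|k z * v z| / ‖z‖) ≤ 12 * K * (gr W z / ‖z‖ ^ 2) := by
    intro z hz h0
    have hz' : 0 < ‖z‖ := norm_pos_iff.2 h0
    have a := mul_le_mul_of_nonneg_left (g2' z hz h0) (gr_nonneg W z)
    have b : gr W z * (|k z * v z| / ‖z‖) ≤ gr W z * (6 * K / ‖z‖ / ‖z‖) := by
      apply mul_le_mul_of_nonneg_left _ (gr_nonneg W z)
      exact div_le_div_of_nonneg_right (g1 z hz h0) hz'.le
    have e : 12 * K * (gr W z / ‖z‖ ^ 2) = gr W z * (6 * K / ‖z‖ ^ 2) + gr W z * (6 * K / ‖z‖ / ‖z‖) := by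
      field_simp; ring
    linarith
  have h2 : ∀ z ∈ ball (0 : ℂ) 1, z ≠ 0 → rho φ z * |c0 + μ * W z| * |k z * v z| ≤
      6 * K * (rho φ z * |c0 + μ * W z| / ‖z‖) := by
    intro z hz h0
    have hr := rho_nonneg φ z
    calc rho φ z * |c0 + μ * W z| * |k z * v z| ≤ rho φ z * |c0 + μ * W z| * (6 * K / ‖z‖) :=
          mul_le_mul_of_nonneg_left (g1 z hz h0) (by positivity)
      _ = _ := by ring
  refine ⟨?_, ?_, weak_lim hW hg (adm_cut hφ hg (by positivity) g1 g2') hG1 hG2 h1 h2⟩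
  · refine integrableOn_of_le ?_ hG1 ?_
    · unfold ip
      exact (((measurable_dx _).mul (measurable_dx _)).add
        ((measurable_dy _).mul (measurable_dy _))).aestronglyMeasurable
    · intro z hz h0
      have := h1 z hz h0
      have b : 0 ≤ gr W z * (|k z * v z| / ‖z‖) := mul_nonneg (gr_nonneg _ _) (by positivity)
      have := abs_ip_le W (fun z => k z * v z) z
      linarith
  · refine integrableOn_of_le ?_ hG2 ?_
    · refine (rhs_aesm hW).mul ?_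
      have hm : ContinuousOn (fun z => k z * v z) (ball 0 1 \ {0}) := hg.continuousOn
      have h3 : AEStronglyMeasurable (fun z => k z * v z) (volume.restrict (ball 0 1 \ {0})) :=
        hm.aestronglyMeasurable (measurableSet_ball.diff (measurableSet_singleton 0))
      rwa [Measure.restrict_congr_set (sdiff_null_ae_eq_self (measure_singleton (0 : ℂ)))] at h3
    · intro z hz h0
      rw [abs_mul, abs_mul, abs_of_nonneg (rho_nonneg φ z)]
      exact h2 z hz h0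

theorem div_A (hφ : Conf φ) (hW : WSet φ W μ c0) {β : ℂ} (hβ : ‖β‖ = 1) {v : ℂ → ℝ}
    (hv : ContDiff ℝ ∞ v) :
    IntegrableOn (fun z => VA1 β W z * dx v z + VA2 β W z * dy v z) (ball 0 1) ∧
    IntegrableOn (fun z => rho φ z * (c0 + μ * W z) * (MM β z).re * v z) (ball 0 1) ∧
    ∫ z in ball (0 : ℂ) 1, (VA1 β W z * dx v z + VA2 β W z * dy v z) =
      ∫ z in ball (0 : ℂ) 1, rho φ z * (c0 + μ * W z) * (MM β z).re * v z := by
  obtain ⟨K, hK, hb⟩ := exists_bound_smooth hv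
  have hMb : ∀ z ∈ ball (0 : ℂ) 1, z ≠ 0 → |(MM β z).re| ≤ 2 / ‖z‖ := fun z hz h0 =>
    (Complex.abs_re_le_norm _).trans (norm_MM_le hβ (mem_ball_zero_iff.1 hz) h0)
  have hMb2 : ∀ z ∈ ball (0 : ℂ) 1, z ≠ 0 → gr (fun z => (MM β z).re) z ≤ 4 / ‖z‖ ^ 2 :=
    fun z hz h0 => gr_Mre_le hβ (mem_ball_zero_iff.1 hz) h0
  obtain ⟨i1, i2, e1⟩ := weak_kv hφ hW (contDiffOn_Mre β (k := 1)) hMb hMb2 hv
  have hRc : ContDiffOn ℝ 2 (fun z => RR β z * v z) (ball 0 1 \ {0}) :=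
    (contDiffOn_RR β (k := 2)).mul ((hv.of_le (mod_cast le_top)).contDiffOn)
  have r1 : ∀ z ∈ ball (0 : ℂ) 1, z ≠ 0 → |RR β z * v z| ≤ (6 * K) * (1 - ‖z‖ ^ 2) / ‖z‖ := by
    intro z hz h0
    have hz' : 0 < ‖z‖ := norm_pos_iff.2 h0
    have hz1 : ‖z‖ < 1 := mem_ball_zero_iff.1 hz
    have hz2 : 0 < 1 - ‖z‖ ^ 2 := by nlinarith
    rw [abs_mul]
    calc |RR β z| * |v z| ≤ ((1 - ‖z‖ ^ 2) / ‖z‖) * K :=
          mul_le_mul (abs_RR_le hβ hz1 h0) (hb z hz1.le).1 (abs_nonneg _) (by positivity)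
      _ = K * (1 - ‖z‖ ^ 2) / ‖z‖ := by ring
      _ ≤ (6 * K) * (1 - ‖z‖ ^ 2) / ‖z‖ := by gcongr; linarith
  have r2 : ∀ z ∈ ball (0 : ℂ) 1, z ≠ 0 → gr (fun z => RR β z * v z) z ≤ 6 * K / ‖z‖ ^ 2 := by
    intro z hz h0
    have hz' : 0 < ‖z‖ := norm_pos_iff.2 h0
    have hz1 : ‖z‖ < 1 := mem_ball_zero_iff.1 hz
    have hz2 : 0 < 1 - ‖z‖ ^ 2 := by nlinarith
    have hm := gr_mul_le (diffAt_of_c1' (contDiffOn_RR β (k := 1)) hz h0) (hv.differentiable (by simp) z)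
    refine hm.trans ?_
    have t1 : |RR β z| * gr v z ≤ 2 * K / ‖z‖ ^ 2 := by
      calc |RR β z| * gr v z ≤ ((1 - ‖z‖ ^ 2) / ‖z‖) * K :=
            mul_le_mul (abs_RR_le hβ hz1 h0) (hb z hz1.le).2.1 (gr_nonneg _ _) (by positivity)
        _ = K * ((1 - ‖z‖ ^ 2) * ‖z‖) / ‖z‖ ^ 2 := by field_simp
        _ ≤ 2 * K / ‖z‖ ^ 2 := by
          apply div_le_div_of_nonneg_right _ (by positivity)
          nlinarith [mul_nonneg hK hz'.le]
    have t2 : |v z| * gr (RR β) z ≤ 4 * K / ‖z‖ ^ 2 := by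
      calc |v z| * gr (RR β) z ≤ K * (4 / ‖z‖ ^ 2) :=
            mul_le_mul (hb z hz1.le).1 (gr_RR_le hβ hz1 h0) (gr_nonneg _ _) hK
        _ = _ := by ring
    have e : 6 * K / ‖z‖ ^ 2 = 2 * K / ‖z‖ ^ 2 + 4 * K / ‖z‖ ^ 2 := by ring
    linarith
  have e2 := curl_lim hW hRc (K := 6 * K) (by positivity) r1 r2
  have i3 : IntegrableOn (fun z => dy W z * dx (fun z => RR β z * v z) z -
      dx W z * dy (fun z => RR β z * v z) z) (ball 0 1) := by
    refine integrableOn_of_le ?_ ((gw_int hW).const_mul (6 * K)) ?_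
    · exact (((measurable_dy _).mul (measurable_dx _)).sub
        ((measurable_dx _).mul (measurable_dy _))).aestronglyMeasurable
    · intro z hz h0
      refine (abs_rot_le W _ z).trans ?_
      calc gr W z * gr (fun z => RR β z * v z) z ≤ gr W z * (6 * K / ‖z‖ ^ 2) :=
            mul_le_mul_of_nonneg_left (r2 z hz h0) (gr_nonneg _ _)
        _ = _ := by ring
  have hpt : ∀ z ∈ ball (0 : ℂ) 1, z ≠ 0 → VA1 β W z * dx v z + VA2 β W z * dy v z =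
      ip W (fun z => (MM β z).re * v z) z + (dy W z * dx (fun z => RR β z * v z) z -
      dx W z * dy (fun z => RR β z * v z) z) := by
    intro z hz h0
    have d1 : DifferentiableAt ℝ (fun z => (MM β z).re) z :=
      diffAt_of_c1' (contDiffOn_Mre β (k := 1)) hz h0
    have d2 : DifferentiableAt ℝ (RR β) z := diffAt_of_c1' (contDiffOn_RR β (k := 1)) hz h0
    have d3 : DifferentiableAt ℝ v z := hv.differentiable (by simp) z
    unfold ip VA1 VA2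
    rw [dx_mul d1 d3, dy_mul d1 d3, dx_mul d2 d3, dy_mul d2 d3, dx_Mre β h0, dy_Mre β h0,
      dx_RR β h0, dy_RR β h0]
    ring
  have e3 : (fun z => rho φ z * (c0 + μ * W z) * ((MM β z).re * v z)) =
      fun z => rho φ z * (c0 + μ * W z) * (MM β z).re * v z := by funext z; ring
  rw [e3] at i2
  refine ⟨?_, i2, ?_⟩
  · refine (i1.add i3).congr ?_
    filter_upwards [ae_punct] with z hz
    exact (hpt z hz.1 hz.2).symm
  · rw [integral_congr_punct hpt, integral_add i1 i3, e2, add_zero, e1, e3]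

theorem curl_A (hφ : Conf φ) (hW : WSet φ W μ c0) {β : ℂ} (hβ : ‖β‖ = 1) {B : ℂ → ℝ}
    (hB : ContDiff ℝ ∞ B) (hB0 : ∀ z, ‖z‖ = 1 → B z = 0) :
    IntegrableOn (fun z => VA1 β W z * dy B z - VA2 β W z * dx B z) (ball 0 1) ∧
    IntegrableOn (fun z => rho φ z * (c0 + μ * W z) * RR β z * B z) (ball 0 1) ∧
    ∫ z in ball (0 : ℂ) 1, (VA1 β W z * dy B z - VA2 β W z * dx B z) =
      ∫ z in ball (0 : ℂ) 1, rho φ z * (c0 + μ * W z) * RR β z * B z := by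
  obtain ⟨K, hK, hb⟩ := exists_bound_smooth hB
  have hMb : ∀ z ∈ ball (0 : ℂ) 1, z ≠ 0 → |RR β z| ≤ 2 / ‖z‖ := fun z hz h0 =>
    (Complex.abs_im_le_norm _).trans (norm_MM_le hβ (mem_ball_zero_iff.1 hz) h0)
  have hMb2 : ∀ z ∈ ball (0 : ℂ) 1, z ≠ 0 → gr (RR β) z ≤ 4 / ‖z‖ ^ 2 :=
    fun z hz h0 => gr_RR_le hβ (mem_ball_zero_iff.1 hz) h0
  obtain ⟨i1, i2, e1⟩ := weak_kv hφ hW (contDiffOn_RR β (k := 1)) hMb hMb2 hB
  have hRc : ContDiffOn ℝ 2 (fun z => (MM β z).re * B z) (ball 0 1 \ {0}) :=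
    (contDiffOn_Mre β (k := 2)).mul ((hB.of_le (mod_cast le_top)).contDiffOn)
  have r1 : ∀ z ∈ ball (0 : ℂ) 1, z ≠ 0 → |(MM β z).re * B z| ≤ (6 * K) * (1 - ‖z‖ ^ 2) / ‖z‖ := by
    intro z hz h0
    have hz' : 0 < ‖z‖ := norm_pos_iff.2 h0
    have hz1 : ‖z‖ < 1 := mem_ball_zero_iff.1 hz
    have hz2 : 0 < 1 - ‖z‖ ^ 2 := by nlinarith
    have hBb := bound_of_zero_circle hB hB0 hK (fun z hz => (hb z hz).2.2) hz1 h0
    rw [abs_mul]
    calc |(MM β z).re| * |B z| ≤ (2 / ‖z‖) * (K * (1 - ‖z‖ ^ 2)) :=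
          mul_le_mul ((Complex.abs_re_le_norm _).trans (norm_MM_le hβ hz1 h0)) hBb (abs_nonneg _)
            (by positivity)
      _ = (2 * K) * (1 - ‖z‖ ^ 2) / ‖z‖ := by ring
      _ ≤ (6 * K) * (1 - ‖z‖ ^ 2) / ‖z‖ := by gcongr; norm_num
  have r2 : ∀ z ∈ ball (0 : ℂ) 1, z ≠ 0 → gr (fun z => (MM β z).re * B z) z ≤ 6 * K / ‖z‖ ^ 2 := by
    intro z hz h0
    have hz' : 0 < ‖z‖ := norm_pos_iff.2 h0
    have hz1 : ‖z‖ < 1 := mem_ball_zero_iff.1 hz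
    have hz2 : 0 < 1 - ‖z‖ ^ 2 := by nlinarith
    have hm := gr_mul_le (diffAt_of_c1' (contDiffOn_Mre β (k := 1)) hz h0) (hB.differentiable (by simp) z)
    refine hm.trans ?_
    have t1 : |(MM β z).re| * gr B z ≤ 2 * K / ‖z‖ ^ 2 := by
      calc |(MM β z).re| * gr B z ≤ (2 / ‖z‖) * K :=
            mul_le_mul ((Complex.abs_re_le_norm _).trans (norm_MM_le hβ hz1 h0)) (hb z hz1.le).2.1
              (gr_nonneg _ _) (by positivity)
        _ = 2 * K / ‖z‖ := by ring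
        _ ≤ 2 * K / ‖z‖ ^ 2 := by
          apply div_le_div_of_nonneg_left (by positivity) (by positivity)
          nlinarith
    have t2 : |B z| * gr (fun z => (MM β z).re) z ≤ 4 * K / ‖z‖ ^ 2 := by
      calc |B z| * gr (fun z => (MM β z).re) z ≤ K * (4 / ‖z‖ ^ 2) :=
            mul_le_mul (hb z hz1.le).1 (gr_Mre_le hβ hz1 h0) (gr_nonneg _ _) hK
        _ = _ := by ring
    have e : 6 * K / ‖z‖ ^ 2 = 2 * K / ‖z‖ ^ 2 + 4 * K / ‖z‖ ^ 2 := by ring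
    linarith
  have e2 := curl_lim hW hRc (K := 6 * K) (by positivity) r1 r2
  have i3 : IntegrableOn (fun z => dy W z * dx (fun z => (MM β z).re * B z) z -
      dx W z * dy (fun z => (MM β z).re * B z) z) (ball 0 1) := by
    refine integrableOn_of_le ?_ ((gw_int hW).const_mul (6 * K)) ?_
    · exact (((measurable_dy _).mul (measurable_dx _)).sub
        ((measurable_dx _).mul (measurable_dy _))).aestronglyMeasurable
    · intro z hz h0
      refine (abs_rot_le W _ z).trans ?_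
      calc gr W z * gr (fun z => (MM β z).re * B z) z ≤ gr W z * (6 * K / ‖z‖ ^ 2) :=
            mul_le_mul_of_nonneg_left (r2 z hz h0) (gr_nonneg _ _)
        _ = _ := by ring
  have hpt : ∀ z ∈ ball (0 : ℂ) 1, z ≠ 0 → VA1 β W z * dy B z - VA2 β W z * dx B z =
      ip W (fun z => RR β z * B z) z - (dy W z * dx (fun z => (MM β z).re * B z) z -
      dx W z * dy (fun z => (MM β z).re * B z) z) := by
    intro z hz h0
    have d1 : DifferentiableAt ℝ (fun z => (MM β z).re) z :=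
      diffAt_of_c1' (contDiffOn_Mre β (k := 1)) hz h0
    have d2 : DifferentiableAt ℝ (RR β) z := diffAt_of_c1' (contDiffOn_RR β (k := 1)) hz h0
    have d3 : DifferentiableAt ℝ B z := hB.differentiable (by simp) z
    unfold ip VA1 VA2
    rw [dx_mul d1 d3, dy_mul d1 d3, dx_mul d2 d3, dy_mul d2 d3, dx_Mre β h0, dy_Mre β h0,
      dx_RR β h0, dy_RR β h0]
    ring
  have e3 : (fun z => rho φ z * (c0 + μ * W z) * (RR β z * B z)) =
      fun z => rho φ z * (c0 + μ * W z) * RR β z * B z := by funext z; ring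
  rw [e3] at i2
  refine ⟨?_, i2, ?_⟩
  · refine (i1.sub i3).congr ?_
    filter_upwards [ae_punct] with z hz
    exact (hpt z hz.1 hz.2).symm
  · rw [integral_congr_punct hpt, integral_sub i1 i3, e2, sub_zero, e1, e3]

end Crest.Agent.R101
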