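import Crest.Agent.R101.CoreC

/-! Row 101: the energy identity for `A = M (W_x - i W_y)`:
`∫ |M|² |∇W|² = ∫ ρ (c0 + μ W) |M|² W + 2 ∫ W² |M'|²`. -/

set_option autoImplicit false

open MeasureTheory Metric Set Complex ComplexConjugate Filter Topology
open scoped ContDiff

namespace Crest.Agent.R101

theorem dx_add {v w : ℂ → ℝ} {z : ℂ} (hv : DifferentiableAt ℝ v z) (hw : DifferentiableAt ℝ w z) :
    dx (fun z => v z + w z) z = dx v z + dx w z := by
  unfold dx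
  rw [fderiv_fun_add hv hw]
  simp only [_root_.add_apply]

theorem dy_add {v w : ℂ → ℝ} {z : ℂ} (hv : DifferentiableAt ℝ v z) (hw : DifferentiableAt ℝ w z) :
    dy (fun z => v z + w z) z = dy v z + dy w z := by
  unfold dy
  rw [fderiv_fun_add hv hw]
  simp only [_root_.add_apply]

theorem dx_sub {v w : ℂ → ℝ} {z : ℂ} (hv : DifferentiableAt ℝ v z) (hw : DifferentiableAt ℝ w z) :
    dx (fun z => v z - w z) z = dx v z - dx w z := by
  unfold dx
  rw [fderiv_fun_sub hv hw]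
  simp only [_root_.sub_apply]

theorem dy_sub {v w : ℂ → ℝ} {z : ℂ} (hv : DifferentiableAt ℝ v z) (hw : DifferentiableAt ℝ w z) :
    dy (fun z => v z - w z) z = dy v z - dy w z := by
  unfold dy
  rw [fderiv_fun_sub hv hw]
  simp only [_root_.sub_apply]

theorem contDiffOn_MM' (β : ℂ) {k : ℕ∞} : ContDiffOn ℝ k (MM' β) (ball 0 1 \ {0}) := by
  intro z hz
  have h0 : z ≠ 0 := hz.2
  apply ContDiffAt.contDiffWithinAt
  unfold MM'
  have h1 : ContDiffAt ℝ k (fun z : ℂ => -β * (z⁻¹ ^ 2)) z :=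
    contDiffAt_const.mul ((contDiffAt_inv ℝ h0).pow 2)
  have e1 : (fun z : ℂ => -β / z ^ 2 + conj β) = fun z => -β * (z⁻¹ ^ 2) + conj β := by
    funext y; rw [div_eq_mul_inv, inv_pow]
  rw [e1]
  exact h1.add contDiffAt_const

theorem contDiffOn_M're (β : ℂ) {k : ℕ∞} : ContDiffOn ℝ k (fun z => (MM' β z).re) (ball 0 1 \ {0}) :=
  Complex.reCLM.contDiff.comp_contDiffOn (contDiffOn_MM' β)

theorem contDiffOn_M'im (β : ℂ) {k : ℕ∞} : ContDiffOn ℝ k (fun z => (MM' β z).im) (ball 0 1 \ {0}) :=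
  Complex.imCLM.contDiff.comp_contDiffOn (contDiffOn_MM' β)

theorem dx_M're (β : ℂ) {z : ℂ} (h0 : z ≠ 0) : dx (fun z => (MM' β z).re) z = (2 * β / z ^ 3).re :=
  dx_re (hasDerivAt_MM' β h0)
theorem dy_M're (β : ℂ) {z : ℂ} (h0 : z ≠ 0) : dy (fun z => (MM' β z).re) z = -(2 * β / z ^ 3).im :=
  dy_re (hasDerivAt_MM' β h0)
theorem dx_M'im (β : ℂ) {z : ℂ} (h0 : z ≠ 0) : dx (fun z => (MM' β z).im) z = (2 * β / z ^ 3).im :=
  dx_im (hasDerivAt_MM' β h0)
theorem dy_M'im (β : ℂ) {z : ℂ} (h0 : z ≠ 0) : dy (fun z => (MM' β z).im) z = (2 * β / z ^ 3).re :=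
  dy_im (hasDerivAt_MM' β h0)

/-- `|M|²` -/
noncomputable def kM (β z : ℂ) : ℝ := (MM β z).re * (MM β z).re + RR β z * RR β z
/-- `½ ∂ₓ |M|²` -/
noncomputable def aM (β z : ℂ) : ℝ := (MM β z).re * (MM' β z).re + RR β z * (MM' β z).im
/-- `½ ∂_y |M|²` -/
noncomputable def bM (β z : ℂ) : ℝ := RR β z * (MM' β z).re - (MM β z).re * (MM' β z).im

theorem kM_eq (β z : ℂ) : kM β z = ‖MM β z‖ ^ 2 := by
  rw [Complex.sq_norm, Complex.normSq_apply]; rfl

theorem contDiffOn_kM (β : ℂ) {k : ℕ∞} : ContDiffOn ℝ k (kM β) (ball 0 1 \ {0}) :=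
  ((contDiffOn_Mre β).mul (contDiffOn_Mre β)).add ((contDiffOn_RR β).mul (contDiffOn_RR β))

theorem contDiffOn_aM (β : ℂ) {k : ℕ∞} : ContDiffOn ℝ k (aM β) (ball 0 1 \ {0}) :=
  ((contDiffOn_Mre β).mul (contDiffOn_M're β)).add ((contDiffOn_RR β).mul (contDiffOn_M'im β))

theorem contDiffOn_bM (β : ℂ) {k : ℕ∞} : ContDiffOn ℝ k (bM β) (ball 0 1 \ {0}) :=
  ((contDiffOn_RR β).mul (contDiffOn_M're β)).sub ((contDiffOn_Mre β).mul (contDiffOn_M'im β))

theorem dx_kM (β : ℂ) {z : ℂ} (hz : z ∈ ball (0 : ℂ) 1) (h0 : z ≠ 0) : dx (kM β) z = 2 * aM β z := by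
  have d1 : DifferentiableAt ℝ (fun z => (MM β z).re) z :=
    diffAt_of_c1' (contDiffOn_Mre β (k := 1)) hz h0
  have d2 : DifferentiableAt ℝ (RR β) z := diffAt_of_c1' (contDiffOn_RR β (k := 1)) hz h0
  unfold kM aM
  rw [dx_add (d1.fun_mul d1) (d2.fun_mul d2), dx_mul d1 d1, dx_mul d2 d2, dx_Mre β h0, dx_RR β h0]
  ring

theorem dy_kM (β : ℂ) {z : ℂ} (hz : z ∈ ball (0 : ℂ) 1) (h0 : z ≠ 0) : dy (kM β) z = 2 * bM β z := by
  have d1 : DifferentiableAt ℝ (fun z => (MM β z).re) z :=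
    diffAt_of_c1' (contDiffOn_Mre β (k := 1)) hz h0
  have d2 : DifferentiableAt ℝ (RR β) z := diffAt_of_c1' (contDiffOn_RR β (k := 1)) hz h0
  unfold kM bM
  rw [dy_add (d1.fun_mul d1) (d2.fun_mul d2), dy_mul d1 d1, dy_mul d2 d2, dy_Mre β h0, dy_RR β h0]
  ring

theorem div_ab (β : ℂ) {z : ℂ} (hz : z ∈ ball (0 : ℂ) 1) (h0 : z ≠ 0) :
    dx (aM β) z + dy (bM β) z = 2 * ‖MM' β z‖ ^ 2 := by
  have d1 : DifferentiableAt ℝ (fun z => (MM β z).re) z :=
    diffAt_of_c1' (contDiffOn_Mre β (k := 1)) hz h0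
  have d2 : DifferentiableAt ℝ (RR β) z := diffAt_of_c1' (contDiffOn_RR β (k := 1)) hz h0
  have d3 : DifferentiableAt ℝ (fun z => (MM' β z).re) z :=
    diffAt_of_c1' (contDiffOn_M're β (k := 1)) hz h0
  have d4 : DifferentiableAt ℝ (fun z => (MM' β z).im) z :=
    diffAt_of_c1' (contDiffOn_M'im β (k := 1)) hz h0
  unfold aM bM
  rw [dx_add (d1.fun_mul d3) (d2.fun_mul d4), dy_sub (d2.fun_mul d3) (d1.fun_mul d4), dx_mul d1 d3, dx_mul d2 d4,
    dy_mul d2 d3, dy_mul d1 d4, dx_Mre β h0, dy_Mre β h0, dx_RR β h0, dy_RR β h0,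
    dx_M're β h0, dy_M're β h0, dx_M'im β h0, dy_M'im β h0, Complex.sq_norm, Complex.normSq_apply]
  ring

theorem abs_aM_le {β z : ℂ} (hβ : ‖β‖ = 1) (hz1 : ‖z‖ < 1) (h0 : z ≠ 0) :
    |aM β z| ≤ 4 / ‖z‖ ^ 3 ∧ |bM β z| ≤ 4 / ‖z‖ ^ 3 := by
  have hz : 0 < ‖z‖ := norm_pos_iff.2 h0
  have h : ‖conj (MM β z) * MM' β z‖ ≤ 4 / ‖z‖ ^ 3 := by
    rw [norm_mul, RCLike.norm_conj]
    calc ‖MM β z‖ * ‖MM' β z‖ ≤ (2 / ‖z‖) * (2 / ‖z‖ ^ 2) :=
          mul_le_mul (norm_MM_le hβ hz1 h0) (norm_MM'_le hβ hz1 h0) (norm_nonneg _) (by positivity)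
      _ = 4 / ‖z‖ ^ 3 := by field_simp; norm_num
  constructor
  · have e : aM β z = (conj (MM β z) * MM' β z).re := by
      unfold aM RR; simp [Complex.mul_re]
    rw [e]; exact (Complex.abs_re_le_norm _).trans h
  · have e : bM β z = -(conj (MM β z) * MM' β z).im := by
      unfold bM RR; simp [Complex.mul_im]; ring
    rw [e, abs_neg]; exact (Complex.abs_im_le_norm _).trans h

theorem radial_ab {β z : ℂ} (hβ : ‖β‖ = 1) (h0 : z ≠ 0) :
    z.re * aM β z + z.im * bM β z = -((1 - ‖z‖ ^ 2) * (1 + ‖z‖ ^ 2) / ‖z‖ ^ 2) := by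
  have hz : 0 < ‖z‖ := norm_pos_iff.2 h0
  have e1 : z.re * aM β z + z.im * bM β z = (conj (MM β z) * (z * MM' β z)).re := by
    unfold aM bM RR
    simp only [Complex.mul_re, Complex.mul_im, Complex.conj_re, Complex.conj_im]
    ring
  have e2 : conj (MM β z) * (z * MM' β z) =
      (((‖z‖ ^ 2 - 1 / ‖z‖ ^ 2 : ℝ)) : ℂ) + (conj (β / z) * (conj β * z) - conj (conj (β / z) * (conj β * z))) := by
    have hzz : z * MM' β z = -(β / z) + conj β * z := by
      unfold MM'; field_simp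
    rw [hzz]
    unfold MM
    have n1 : conj (β / z) * (β / z) = ((1 / ‖z‖ ^ 2 : ℝ) : ℂ) := by
      rw [← Complex.normSq_eq_conj_mul_self, Complex.normSq_eq_norm_sq, norm_div, hβ]
      congr 1
      rw [div_pow, one_pow]
    have n2 : conj (conj β * z) * (conj β * z) = ((‖z‖ ^ 2 : ℝ) : ℂ) := by
      rw [← Complex.normSq_eq_conj_mul_self, Complex.normSq_eq_norm_sq, norm_mul, RCLike.norm_conj, hβ,
        one_mul]
    have n3 : conj (conj (β / z) * (conj β * z)) = conj (conj β * z) * (β / z) := by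
      rw [map_mul, Complex.conj_conj]; ring
    rw [n3, Complex.ofReal_sub, ← n1, ← n2, map_add]
    ring
  rw [e1, e2, Complex.add_re, Complex.ofReal_re, Complex.sub_re, Complex.conj_re, sub_self, add_zero]
  field_simp
  ring

/-! ### dominating function -/

noncomputable def HH (W : ℂ → ℝ) (z : ℂ) : ℝ := W z ^ 2 / ‖z‖ ^ 4 + gr W z ^ 2 / ‖z‖ ^ 2

theorem HH_nonneg (W : ℂ → ℝ) (z : ℂ) : 0 ≤ HH W z := by unfold HH; positivity

theorem HH1 (W : ℂ → ℝ) (z : ℂ) : W z ^ 2 / ‖z‖ ^ 4 ≤ HH W z := by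
  unfold HH; have : 0 ≤ gr W z ^ 2 / ‖z‖ ^ 2 := by positivity
  linarith

theorem HH2 (W : ℂ → ℝ) (z : ℂ) : gr W z ^ 2 / ‖z‖ ^ 2 ≤ HH W z := by
  unfold HH; have : 0 ≤ W z ^ 2 / ‖z‖ ^ 4 := by positivity
  linarith

theorem HH3 (W : ℂ → ℝ) {z : ℂ} (h0 : z ≠ 0) : |W z| * gr W z / ‖z‖ ^ 3 ≤ HH W z / 2 := by
  have hz : 0 < ‖z‖ := norm_pos_iff.2 h0
  have e : |W z| * gr W z / ‖z‖ ^ 3 = (|W z| / ‖z‖ ^ 2) * (gr W z / ‖z‖) := by field_simp
  have e1 : W z ^ 2 / ‖z‖ ^ 4 = (|W z| / ‖z‖ ^ 2) ^ 2 := by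
    rw [div_pow, sq_abs]; congr 1; ring
  have e2 : gr W z ^ 2 / ‖z‖ ^ 2 = (gr W z / ‖z‖) ^ 2 := by rw [div_pow]
  unfold HH
  rw [e, e1, e2]
  nlinarith [sq_nonneg (|W z| / ‖z‖ ^ 2 - gr W z / ‖z‖)]

variable {φ : ℂ → ℂ} {W : ℂ → ℝ} {μ c0 : ℝ}

theorem HH_int (hW : WSet φ W μ c0) (hL2 : IntegrableOn (fun z => W z ^ 2) (ball 0 1)) :
    IntegrableOn (HH W) (ball 0 1) := by
  obtain ⟨C, r, hr, hr1, hC⟩ := hW.growth
  have hG : IntegrableOn (fun z : ℂ => 5 * C ^ 2 + (W z ^ 2 / r ^ 4 + 2 * g2 W z / r ^ 2)) (ball 0 1) := by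
    apply Integrable.add
    · exact integrableOn_const (measure_ball_lt_top.ne)
    · apply Integrable.add
      · exact hL2.div_const _
      · exact (hW.adm.en.const_mul _).div_const _
  refine integrableOn_of_le ?_ hG ?_
  · unfold HH
    refine AEStronglyMeasurable.add ?_ ?_
    · refine AEMeasurable.aestronglyMeasurable ?_
      exact ((aesm_of_c1 hW.adm.c1).aemeasurable.pow_const 2).div
        (Measurable.aemeasurable (by fun_prop))
    · exact (((measurable_gr W).pow_const 2).div (by fun_prop)).aestronglyMeasurable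
  · intro z hz h0
    have hz' : 0 < ‖z‖ := norm_pos_iff.2 h0
    rw [abs_of_nonneg (HH_nonneg W z)]
    by_cases hzr : ‖z‖ < r
    · have h1 := hC z (mem_ball_zero_iff.2 hzr)
      have h2 : gr W z ≤ 2 * |C| * ‖z‖ := by
        unfold gr
        have : C * ‖z‖ ≤ |C| * ‖z‖ := mul_le_mul_of_nonneg_right (le_abs_self C) hz'.le
        linarith [h1.2.1, h1.2.2]
      have h3 : gr W z ^ 2 / ‖z‖ ^ 2 ≤ 4 * C ^ 2 := by
        rw [div_le_iff₀ (by positivity)]
        calc gr W z ^ 2 ≤ (2 * |C| * ‖z‖) ^ 2 := pow_le_pow_left₀ (gr_nonneg _ _) h2 2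
          _ = 4 * |C| ^ 2 * ‖z‖ ^ 2 := by ring
          _ = _ := by rw [sq_abs]
      have h4 : W z ^ 2 / ‖z‖ ^ 4 ≤ C ^ 2 := by
        rw [div_le_iff₀ (by positivity)]
        calc W z ^ 2 = |W z| ^ 2 := (sq_abs _).symm
          _ ≤ (C * ‖z‖ ^ 2) ^ 2 := pow_le_pow_left₀ (abs_nonneg _) h1.1 2
          _ = _ := by ring
      have h5 : 0 ≤ W z ^ 2 / r ^ 4 + 2 * g2 W z / r ^ 2 := by have := g2_nonneg W z; positivity
      unfold HH
      linarith
    · push Not at hzr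
      have h5 : W z ^ 2 / ‖z‖ ^ 4 ≤ W z ^ 2 / r ^ 4 := by
        apply div_le_div_of_nonneg_left (sq_nonneg _) (by positivity)
        gcongr
      have h6 : gr W z ^ 2 / ‖z‖ ^ 2 ≤ 2 * g2 W z / r ^ 2 := by
        apply div_le_div₀ (by have := g2_nonneg W z; positivity) (gr_sq_le W z) (by positivity)
        gcongr
      have h7 : 0 ≤ 5 * C ^ 2 := by positivity
      unfold HH
      linarith

theorem rhoW_dom (hW : WSet φ W μ c0) {β : ℂ} (hβ : ‖β‖ = 1) :
    ∃ K : ℝ, ∀ z ∈ ball (0 : ℂ) 1, z ≠ 0 →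
      rho φ z * |c0 + μ * W z| * |kM β z * W z| ≤ K * (rho φ z + rho φ z * W z ^ 2) := by
  obtain ⟨C, r, hr, hr1, hC⟩ := hW.growth
  refine ⟨4 * (|C| + 1 / r ^ 2) * (|c0| + |μ|), ?_⟩
  intro z hz h0
  have hz' : 0 < ‖z‖ := norm_pos_iff.2 h0
  have hz1 : ‖z‖ < 1 := mem_ball_zero_iff.1 hz
  have hrn := rho_nonneg φ z
  have hk : |kM β z| ≤ 4 / ‖z‖ ^ 2 := by
    rw [kM_eq, abs_of_nonneg (by positivity)]
    calc ‖MM β z‖ ^ 2 ≤ (2 / ‖z‖) ^ 2 := pow_le_pow_left₀ (norm_nonneg _) (norm_MM_le hβ hz1 h0) 2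
      _ = 4 / ‖z‖ ^ 2 := by rw [div_pow]; norm_num
  have hab : |c0 + μ * W z| ≤ |c0| + |μ| * |W z| := by
    rw [← abs_mul]; exact abs_add_le _ _
  have h6 : |W z| ≤ 1 + W z ^ 2 := by
    have := sq_abs (W z)
    nlinarith [sq_nonneg (|W z| - 1)]
  have hc0 := abs_nonneg c0
  have hμ := abs_nonneg μ
  have hCn := abs_nonneg C
  have hWn := abs_nonneg (W z)
  -- key estimate
  have key : |c0 + μ * W z| * (4 * |W z| / ‖z‖ ^ 2) ≤ 4 * (|C| + 1 / r ^ 2) * (|c0| + |μ|) * (1 + W z ^ 2) := by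
    by_cases hzr : ‖z‖ < r
    · have h1 := (hC z (mem_ball_zero_iff.2 hzr)).1
      have h2 : 4 * |W z| / ‖z‖ ^ 2 ≤ 4 * |C| := by
        rw [div_le_iff₀ (by positivity)]
        have : C * ‖z‖ ^ 2 ≤ |C| * ‖z‖ ^ 2 := mul_le_mul_of_nonneg_right (le_abs_self C) (by positivity)
        nlinarith
      have h3 : |c0 + μ * W z| ≤ (|c0| + |μ|) * (1 + W z ^ 2) := by
        nlinarith [mul_nonneg hc0 (sq_nonneg (W z)), mul_le_mul_of_nonneg_left h6 hμ]
      calc |c0 + μ * W z| * (4 * |W z| / ‖z‖ ^ 2) ≤ ((|c0| + |μ|) * (1 + W z ^ 2)) * (4 * |C|) :=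
            mul_le_mul h3 h2 (by positivity) (by positivity)
        _ = 4 * |C| * (|c0| + |μ|) * (1 + W z ^ 2) := by ring
        _ ≤ _ := by
          have : 0 ≤ 1 / r ^ 2 := by positivity
          gcongr
          linarith
    · push Not at hzr
      have h2 : 4 * |W z| / ‖z‖ ^ 2 ≤ 4 * |W z| * (1 / r ^ 2) := by
        rw [mul_one_div]
        apply div_le_div_of_nonneg_left (by positivity) (by positivity)
        gcongr
      have h3 : |c0 + μ * W z| * |W z| ≤ (|c0| + |μ|) * (1 + W z ^ 2) := by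
        calc |c0 + μ * W z| * |W z| ≤ (|c0| + |μ| * |W z|) * |W z| :=
              mul_le_mul_of_nonneg_right hab hWn
          _ = |c0| * |W z| + |μ| * W z ^ 2 := by rw [← sq_abs (W z)]; ring
          _ ≤ |c0| * (1 + W z ^ 2) + |μ| * (1 + W z ^ 2) := by
            gcongr
            linarith
          _ = _ := by ring
      calc |c0 + μ * W z| * (4 * |W z| / ‖z‖ ^ 2) ≤ |c0 + μ * W z| * (4 * |W z| * (1 / r ^ 2)) :=
            mul_le_mul_of_nonneg_left h2 (abs_nonneg _)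
        _ = 4 * (1 / r ^ 2) * (|c0 + μ * W z| * |W z|) := by ring
        _ ≤ 4 * (1 / r ^ 2) * ((|c0| + |μ|) * (1 + W z ^ 2)) := by
            apply mul_le_mul_of_nonneg_left h3; positivity
        _ = 4 * (1 / r ^ 2) * (|c0| + |μ|) * (1 + W z ^ 2) := by ring
        _ ≤ _ := by
          gcongr
          linarith
  calc rho φ z * |c0 + μ * W z| * |kM β z * W z| = rho φ z * (|c0 + μ * W z| * (|kM β z| * |W z|)) := by
        rw [abs_mul]; ring
    _ ≤ rho φ z * (|c0 + μ * W z| * ((4 / ‖z‖ ^ 2) * |W z|)) := by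
        gcongr
    _ = rho φ z * (|c0 + μ * W z| * (4 * |W z| / ‖z‖ ^ 2)) := by ring
    _ ≤ rho φ z * (4 * (|C| + 1 / r ^ 2) * (|c0| + |μ|) * (1 + W z ^ 2)) :=
        mul_le_mul_of_nonneg_left key hrn
    _ = _ := by ring

theorem abs_kM_le {β z : ℂ} (hβ : ‖β‖ = 1) (hz1 : ‖z‖ < 1) (h0 : z ≠ 0) :
    |kM β z| ≤ 4 / ‖z‖ ^ 2 := by
  rw [kM_eq, abs_of_nonneg (by positivity)]
  calc ‖MM β z‖ ^ 2 ≤ (2 / ‖z‖) ^ 2 := pow_le_pow_left₀ (norm_nonneg _) (norm_MM_le hβ hz1 h0) 2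
    _ = 4 / ‖z‖ ^ 2 := by rw [div_pow]; norm_num

theorem gr_kM_le {β z : ℂ} (hβ : ‖β‖ = 1) (hz : z ∈ ball (0 : ℂ) 1) (h0 : z ≠ 0) :
    gr (kM β) z ≤ 16 / ‖z‖ ^ 3 := by
  have hz1 : ‖z‖ < 1 := mem_ball_zero_iff.1 hz
  have h := abs_aM_le hβ hz1 h0
  unfold gr
  rw [dx_kM β hz h0, dy_kM β hz h0, abs_mul, abs_mul, abs_two]
  have e : 16 / ‖z‖ ^ 3 = 2 * (4 / ‖z‖ ^ 3) + 2 * (4 / ‖z‖ ^ 3) := by ring
  linarith [h.1, h.2]

theorem c1_kMW (hW : WSet φ W μ c0) (β : ℂ) :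
    ContDiffOn ℝ 1 (fun z => kM β z * W z) (ball 0 1 \ {0}) :=
  (contDiffOn_kM β (k := 1)).mul (hW.adm.c1.mono sdiff_subset)

theorem gr_kMW_le (hW : WSet φ W μ c0) {β z : ℂ} (hβ : ‖β‖ = 1) (hz : z ∈ ball (0 : ℂ) 1) (h0 : z ≠ 0) :
    gr (fun z => kM β z * W z) z ≤ 4 * gr W z / ‖z‖ ^ 2 + 16 * |W z| / ‖z‖ ^ 3 := by
  have hz1 : ‖z‖ < 1 := mem_ball_zero_iff.1 hz
  have hz' : 0 < ‖z‖ := norm_pos_iff.2 h0
  have hm := gr_mul_le (diffAt_of_c1' (contDiffOn_kM β (k := 1)) hz h0) (diffAt_of_c1 hW.adm.c1 hz)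
  refine hm.trans ?_
  have t1 : |kM β z| * gr W z ≤ 4 * gr W z / ‖z‖ ^ 2 := by
    calc |kM β z| * gr W z ≤ 4 / ‖z‖ ^ 2 * gr W z :=
          mul_le_mul_of_nonneg_right (abs_kM_le hβ hz1 h0) (gr_nonneg _ _)
      _ = _ := by ring
  have t2 : |W z| * gr (kM β) z ≤ 16 * |W z| / ‖z‖ ^ 3 := by
    calc |W z| * gr (kM β) z ≤ |W z| * (16 / ‖z‖ ^ 3) :=
          mul_le_mul_of_nonneg_left (gr_kM_le hβ hz h0) (abs_nonneg _)
      _ = _ := by ring
  linarith

theorem adm_cut_kMW (hW : WSet φ W μ c0) {β : ℂ} (hβ : ‖β‖ = 1)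
    (hL2 : IntegrableOn (fun z => W z ^ 2) (ball 0 1)) (n : ℕ) :
    Adm φ (fun z => cut n z * (kM β z * W z)) := by
  have hC := C0_pos
  have hn0 : (0 : ℝ) ≤ n := Nat.cast_nonneg n
  have hc1 : ContDiffOn ℝ 1 (fun z => cut n z * (kM β z * W z)) (ball 0 1) :=
    contDiffOn_cut_mul (k := 1) (c1_kMW hW β) n
  refine ⟨hc1, ?_, ?_⟩
  · refine integrableOn_of_le ?_ (hW.adm.l2.const_mul ((4 * n) ^ 2)) ?_
    · exact (measurable_rho φ).aestronglyMeasurable.mul ((aesm_of_c1 hc1).pow 2)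
    · intro z hz h0
      have hz1 : ‖z‖ < 1 := mem_ball_zero_iff.1 hz
      have hz' : 0 < ‖z‖ := norm_pos_iff.2 h0
      have hr := rho_nonneg φ z
      rw [abs_of_nonneg (mul_nonneg hr (sq_nonneg _))]
      have hb : |cut n z * (kM β z * W z)| ≤ 4 * n * |W z| := by
        by_cases h : (n : ℝ) * ‖z‖ ^ 2 < 1
        · rw [cut_eq_zero h.le, zero_mul, abs_zero]; positivity
        · push Not at h
          have k1 : 1 / ‖z‖ ^ 2 ≤ n := by rw [div_le_iff₀ (by positivity)]; exact h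
          rw [abs_mul, abs_mul, abs_of_nonneg (cut_nonneg n z)]
          calc cut n z * (|kM β z| * |W z|) ≤ 1 * ((4 / ‖z‖ ^ 2) * |W z|) := by
                apply mul_le_mul (cut_le_one n z) _ (by positivity) zero_le_one
                exact mul_le_mul_of_nonneg_right (abs_kM_le hβ hz1 h0) (abs_nonneg _)
            _ = 4 * (1 / ‖z‖ ^ 2) * |W z| := by ring
            _ ≤ 4 * n * |W z| := by gcongr
      calc rho φ z * (cut n z * (kM β z * W z)) ^ 2 = rho φ z * |cut n z * (kM β z * W z)| ^ 2 := by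
            rw [sq_abs]
        _ ≤ rho φ z * (4 * n * |W z|) ^ 2 := by gcongr
        _ = (4 * n) ^ 2 * (rho φ z * W z ^ 2) := by rw [mul_pow, sq_abs]; ring
  · refine integrableOn_of_le (measurable_g2 _).aestronglyMeasurable
      ((HH_int hW hL2).const_mul (2 * n * (4 ^ 2 + (16 + 32 * C0) ^ 2))) ?_
    intro z hz h0
    have hz1 : ‖z‖ < 1 := mem_ball_zero_iff.1 hz
    have hz' : 0 < ‖z‖ := norm_pos_iff.2 h0
    rw [abs_of_nonneg (g2_nonneg _ z)]
    have hH := HH_nonneg W z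
    have hd : DifferentiableAt ℝ (fun z => kM β z * W z) z := diffAt_of_c1' (c1_kMW hW β) hz h0
    have hc : DifferentiableAt ℝ (cut n) z := (contDiff_cut n (k := 1)).differentiable (by simp) z
    have hm := gr_mul_le hc hd
    refine (g2_le _ z).trans ?_
    by_cases h : (n : ℝ) * ‖z‖ ^ 2 < 1
    · rw [cut_eq_zero h.le, gr_cut_zero h] at hm
      simp only [abs_zero, zero_mul, mul_zero, add_zero] at hm
      have h1 : gr (fun z => cut n z * (kM β z * W z)) z = 0 := le_antisymm hm (gr_nonneg _ _)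
      rw [h1, zero_pow two_ne_zero]; positivity
    · push Not at h
      have k1 : 1 / ‖z‖ ^ 2 ≤ n := by rw [div_le_iff₀ (by positivity)]; exact h
      have hg := gr_kMW_le hW hβ hz h0
      have gW := gr_nonneg W z
      have hb : gr (fun z => cut n z * (kM β z * W z)) z ≤
          4 * (gr W z / ‖z‖ ^ 2) + (16 + 32 * C0) * (|W z| / ‖z‖ ^ 3) := by
        refine hm.trans ?_
        have t1 : |cut n z| * gr (fun z => kM β z * W z) z ≤
            4 * gr W z / ‖z‖ ^ 2 + 16 * |W z| / ‖z‖ ^ 3 := by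
          rw [abs_of_nonneg (cut_nonneg n z)]
          calc cut n z * gr (fun z => kM β z * W z) z ≤ 1 * gr (fun z => kM β z * W z) z :=
                mul_le_mul_of_nonneg_right (cut_le_one n z) (gr_nonneg _ _)
            _ ≤ _ := by rw [one_mul]; exact hg
        have t2 : |kM β z * W z| * gr (cut n) z ≤ 32 * C0 * (|W z| / ‖z‖ ^ 3) := by
          rw [abs_mul]
          calc |kM β z| * |W z| * gr (cut n) z ≤ (4 / ‖z‖ ^ 2) * |W z| * (8 * C0 / ‖z‖) := by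
                apply mul_le_mul _ (gr_cut_le n h0) (gr_nonneg _ _) (by positivity)
                exact mul_le_mul_of_nonneg_right (abs_kM_le hβ hz1 h0) (abs_nonneg _)
            _ = _ := by field_simp; ring
        have e : 4 * (gr W z / ‖z‖ ^ 2) + (16 + 32 * C0) * (|W z| / ‖z‖ ^ 3) =
          (4 * gr W z / ‖z‖ ^ 2 + 16 * |W z| / ‖z‖ ^ 3) + 32 * C0 * (|W z| / ‖z‖ ^ 3) := by ring
        linarith
      have q1 : (gr W z / ‖z‖ ^ 2) ^ 2 ≤ n * HH W z := by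
        calc (gr W z / ‖z‖ ^ 2) ^ 2 = (1 / ‖z‖ ^ 2) * (gr W z ^ 2 / ‖z‖ ^ 2) := by field_simp
          _ ≤ n * HH W z := mul_le_mul k1 (HH2 W z) (by positivity) hn0
      have q2 : (|W z| / ‖z‖ ^ 3) ^ 2 ≤ n * HH W z := by
        calc (|W z| / ‖z‖ ^ 3) ^ 2 = (1 / ‖z‖ ^ 2) * (W z ^ 2 / ‖z‖ ^ 4) := by
              rw [div_pow, sq_abs]; field_simp
          _ ≤ n * HH W z := mul_le_mul k1 (HH1 W z) (by positivity) hn0
      calc gr (fun z => cut n z * (kM β z * W z)) z ^ 2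
          ≤ (4 * (gr W z / ‖z‖ ^ 2) + (16 + 32 * C0) * (|W z| / ‖z‖ ^ 3)) ^ 2 :=
            pow_le_pow_left₀ (gr_nonneg _ _) hb 2
        _ ≤ 2 * (4 ^ 2 * (gr W z / ‖z‖ ^ 2) ^ 2) + 2 * ((16 + 32 * C0) ^ 2 * (|W z| / ‖z‖ ^ 3) ^ 2) := by
            nlinarith [sq_nonneg (4 * (gr W z / ‖z‖ ^ 2) - (16 + 32 * C0) * (|W z| / ‖z‖ ^ 3))]
        _ ≤ 2 * (4 ^ 2 * (n * HH W z)) + 2 * ((16 + 32 * C0) ^ 2 * (n * HH W z)) := by
            gcongr
        _ = _ := by ring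

/-- the weak equation tested with `|M|² W` -/
theorem en_A_weak (hφ : Conf φ) (hW : WSet φ W μ c0) {β : ℂ} (hβ : ‖β‖ = 1)
    (hL2 : IntegrableOn (fun z => W z ^ 2) (ball 0 1)) :
    IntegrableOn (fun z => rho φ z * (c0 + μ * W z) * (kM β z * W z)) (ball 0 1) ∧
    ∫ z in ball (0 : ℂ) 1, ip W (fun z => kM β z * W z) z =
      ∫ z in ball (0 : ℂ) 1, rho φ z * (c0 + μ * W z) * (kM β z * W z) := by
  obtain ⟨K, hK⟩ := rhoW_dom hW hβ
  have hG2 : IntegrableOn (fun z => K * (rho φ z + rho φ z * W z ^ 2)) (ball 0 1) :=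
    (hφ.rho_int.add hW.adm.l2).const_mul K
  have hG1 : IntegrableOn (fun z => 14 * HH W z) (ball 0 1) := (HH_int hW hL2).const_mul _
  have h1 : ∀ z ∈ ball (0 : ℂ) 1, z ≠ 0 → gr W z * gr (fun z => kM β z * W z) z +
      gr W z * (|kM β z * W z| / ‖z‖) ≤ 14 * HH W z := by
    intro z hz h0
    have hz1 : ‖z‖ < 1 := mem_ball_zero_iff.1 hz
    have hz' : 0 < ‖z‖ := norm_pos_iff.2 h0
    have hg := gr_kMW_le hW hβ hz h0
    have gW := gr_nonneg W z
    have a : gr W z * gr (fun z => kM β z * W z) z ≤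
        4 * (gr W z ^ 2 / ‖z‖ ^ 2) + 16 * (|W z| * gr W z / ‖z‖ ^ 3) := by
      calc gr W z * gr (fun z => kM β z * W z) z ≤
            gr W z * (4 * gr W z / ‖z‖ ^ 2 + 16 * |W z| / ‖z‖ ^ 3) := mul_le_mul_of_nonneg_left hg gW
        _ = _ := by ring
    have b : gr W z * (|kM β z * W z| / ‖z‖) ≤ 4 * (|W z| * gr W z / ‖z‖ ^ 3) := by
      rw [abs_mul]
      calc gr W z * (|kM β z| * |W z| / ‖z‖) ≤ gr W z * ((4 / ‖z‖ ^ 2) * |W z| / ‖z‖) := by
            have := abs_kM_le hβ hz1 h0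
            gcongr
        _ = _ := by field_simp
    have := HH2 W z
    have := HH3 W h0
    linarith
  have h2 : ∀ z ∈ ball (0 : ℂ) 1, z ≠ 0 → rho φ z * |c0 + μ * W z| * |kM β z * W z| ≤
      K * (rho φ z + rho φ z * W z ^ 2) := hK
  refine ⟨?_, weak_lim hW (c1_kMW hW β) (adm_cut_kMW hW hβ hL2) hG1 hG2 h1 h2⟩
  refine integrableOn_of_le ?_ hG2 ?_
  · refine (rhs_aesm hW).mul ?_
    have hm : ContinuousOn (fun z => kM β z * W z) (ball 0 1 \ {0}) := (c1_kMW hW β).continuousOn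
    have h3 : AEStronglyMeasurable (fun z => kM β z * W z) (volume.restrict (ball 0 1 \ {0})) :=
      hm.aestronglyMeasurable (measurableSet_ball.diff (measurableSet_singleton 0))
    rwa [Measure.restrict_congr_set (sdiff_null_ae_eq_self (measure_singleton (0 : ℂ)))] at h3
  · intro z hz h0
    rw [abs_mul, abs_mul, abs_of_nonneg (rho_nonneg φ z)]
    exact h2 z hz h0

/-! ### the divergence identity -/

theorem c1_Wa (hW : WSet φ W μ c0) (β : ℂ) :
    ContDiffOn ℝ 1 (fun z => W z * W z * aM β z) (ball 0 1 \ {0}) :=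
  ((hW.adm.c1.mono sdiff_subset).mul (hW.adm.c1.mono sdiff_subset)).mul (contDiffOn_aM β (k := 1))

theorem c1_Wb (hW : WSet φ W μ c0) (β : ℂ) :
    ContDiffOn ℝ 1 (fun z => W z * W z * bM β z) (ball 0 1 \ {0}) :=
  ((hW.adm.c1.mono sdiff_subset).mul (hW.adm.c1.mono sdiff_subset)).mul (contDiffOn_bM β (k := 1))

theorem div_Wab (hW : WSet φ W μ c0) (β : ℂ) {z : ℂ} (hz : z ∈ ball (0 : ℂ) 1) (h0 : z ≠ 0) :
    dx (fun z => W z * W z * aM β z) z + dy (fun z => W z * W z * bM β z) z =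
      W z * ip W (kM β) z + 2 * W z ^ 2 * ‖MM' β z‖ ^ 2 := by
  have d1 : DifferentiableAt ℝ W z := diffAt_of_c1 hW.adm.c1 hz
  have d2 : DifferentiableAt ℝ (aM β) z := diffAt_of_c1' (contDiffOn_aM β (k := 1)) hz h0
  have d3 : DifferentiableAt ℝ (bM β) z := diffAt_of_c1' (contDiffOn_bM β (k := 1)) hz h0
  rw [dx_mul (d1.fun_mul d1) d2, dy_mul (d1.fun_mul d1) d3, dx_mul d1 d1, dy_mul d1 d1]
  have e := div_ab β hz h0
  unfold ip
  rw [dx_kM β hz h0, dy_kM β hz h0]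
  have e2 : dy (bM β) z = 2 * ‖MM' β z‖ ^ 2 - dx (aM β) z := by linarith
  rw [e2]; ring

theorem set_dx_zero {F : ℂ → ℝ} (hF : ContDiff ℝ 1 F) (hc : HasCompactSupport F)
    (hs : tsupport F ⊆ ball 0 1) :
    IntegrableOn (dx F) (ball 0 1) ∧ ∫ z in ball (0 : ℂ) 1, dx F z = 0 := by
  have hd : Continuous (fun z => fderiv ℝ F z 1) :=
    (hF.continuous_fderiv (by simp)).clm_apply continuous_const
  have hi : Integrable (fun z => fderiv ℝ F z 1) := hd.integrable_of_hasCompactSupport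
    (hc.fderiv_apply (𝕜 := ℝ) 1)
  refine ⟨hi.integrableOn, ?_⟩
  rw [setIntegral_eq_integral_of_forall_compl_eq_zero, integral_dx_zero hF hc]
  intro z hz
  unfold dx
  rw [fderiv_of_notMem_tsupport ℝ (fun h => hz (hs h))]; simp

theorem set_dy_zero {F : ℂ → ℝ} (hF : ContDiff ℝ 1 F) (hc : HasCompactSupport F)
    (hs : tsupport F ⊆ ball 0 1) :
    IntegrableOn (dy F) (ball 0 1) ∧ ∫ z in ball (0 : ℂ) 1, dy F z = 0 := by
  have hd : Continuous (fun z => fderiv ℝ F z I) :=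
    (hF.continuous_fderiv (by simp)).clm_apply continuous_const
  have hi : Integrable (fun z => fderiv ℝ F z I) := hd.integrable_of_hasCompactSupport
    (hc.fderiv_apply (𝕜 := ℝ) I)
  refine ⟨hi.integrableOn, ?_⟩
  rw [setIntegral_eq_integral_of_forall_compl_eq_zero, integral_dy_zero hF hc]
  intro z hz
  unfold dy
  rw [fderiv_of_notMem_tsupport ℝ (fun h => hz (hs h))]; simp

theorem abs_WipkM_le {W : ℂ → ℝ} {β z : ℂ} (hβ : ‖β‖ = 1) (hz : z ∈ ball (0 : ℂ) 1) (h0 : z ≠ 0) :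
    |W z * ip W (kM β) z| ≤ 8 * HH W z := by
  have hz' : 0 < ‖z‖ := norm_pos_iff.2 h0
  have a := abs_ip_le W (kM β) z
  have b := gr_kM_le hβ hz h0
  have gW := gr_nonneg W z
  rw [abs_mul]
  calc |W z| * |ip W (kM β) z| ≤ |W z| * (gr W z * (16 / ‖z‖ ^ 3)) := by
        apply mul_le_mul_of_nonneg_left _ (abs_nonneg _)
        exact a.trans (mul_le_mul_of_nonneg_left b gW)
    _ = 16 * (|W z| * gr W z / ‖z‖ ^ 3) := by ring
    _ ≤ 8 * HH W z := by linarith [HH3 W h0]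

theorem WM'_le {W : ℂ → ℝ} {β z : ℂ} (hβ : ‖β‖ = 1) (hz : z ∈ ball (0 : ℂ) 1) (h0 : z ≠ 0) :
    W z ^ 2 * ‖MM' β z‖ ^ 2 ≤ 4 * HH W z := by
  have hz1 : ‖z‖ < 1 := mem_ball_zero_iff.1 hz
  have hz' : 0 < ‖z‖ := norm_pos_iff.2 h0
  calc W z ^ 2 * ‖MM' β z‖ ^ 2 ≤ W z ^ 2 * (2 / ‖z‖ ^ 2) ^ 2 := by
        have := norm_MM'_le hβ hz1 h0
        gcongr
    _ = 4 * (W z ^ 2 / ‖z‖ ^ 4) := by field_simp; norm_num
    _ ≤ 4 * HH W z := by linarith [HH1 W z]

theorem aesm_WM' (hW : WSet φ W μ c0) (β : ℂ) :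
    AEStronglyMeasurable (fun z => W z ^ 2 * ‖MM' β z‖ ^ 2) (volume.restrict (ball 0 1)) := by
  refine ((aesm_of_c1 hW.adm.c1).pow 2).mul ?_
  have hm : Measurable (fun z => ‖MM' β z‖ ^ 2) := by
    unfold MM'; fun_prop
  exact hm.aestronglyMeasurable

theorem en_A_div (hW : WSet φ W μ c0) {β : ℂ} (hβ : ‖β‖ = 1)
    (hL2 : IntegrableOn (fun z => W z ^ 2) (ball 0 1)) :
    ∫ z in ball (0 : ℂ) 1, (W z * ip W (kM β) z + 2 * W z ^ 2 * ‖MM' β z‖ ^ 2) = 0 := by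
  have hC := C0_pos
  set F1 : ℂ → ℝ := fun z => W z * W z * aM β z with hF1
  set F2 : ℂ → ℝ := fun z => W z * W z * bM β z with hF2
  have c1 : ContDiffOn ℝ 1 F1 (ball 0 1 \ {0}) := c1_Wa hW β
  have c2 : ContDiffOn ℝ 1 F2 (ball 0 1 \ {0}) := c1_Wb hW β
  have hpt : ∀ n, ∀ z ∈ ball (0 : ℂ) 1, z ≠ 0 →
      dx (fun z => cut n z * bc n z * F1 z) z + dy (fun z => cut n z * bc n z * F2 z) z
      = cut n z * bc n z * (W z * ip W (kM β) z + 2 * W z ^ 2 * ‖MM' β z‖ ^ 2) +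
        (bc n z * (dx (cut n) z * F1 z + dy (cut n) z * F2 z) +
          cut n z * (dx (bc n) z * F1 z + dy (bc n) z * F2 z)) := by
    intro n z hz h0
    have hd1 := diffAt_of_c1' c1 hz h0
    have hd2 := diffAt_of_c1' c2 hz h0
    have hc : DifferentiableAt ℝ (cut n) z := (contDiff_cut n (k := 1)).differentiable (by simp) z
    have hb : DifferentiableAt ℝ (bc n) z := (contDiff_bc n (k := 1)).differentiable (by simp) z
    have hcb : DifferentiableAt ℝ (fun z => cut n z * bc n z) z := hc.mul hb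
    rw [dx_mul hcb hd1, dy_mul hcb hd2, dx_mul hc hb, dy_mul hc hb, ← div_Wab hW β hz h0]
    ring
  have hz : ∀ n, ∫ z in ball (0 : ℂ) 1, (dx (fun z => cut n z * bc n z * F1 z) z +
      dy (fun z => cut n z * bc n z * F2 z) z) = 0 := by
    intro n
    have s1 := set_dx_zero (contDiff_cutbc (k := 1) c1 n) (hcs_cutbc n F1)
      ((ts_cutbc n F1).trans ((Kn_sub n).trans sdiff_subset))
    have s2 := set_dy_zero (contDiff_cutbc (k := 1) c2 n) (hcs_cutbc n F2)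
      ((ts_cutbc n F2).trans ((Kn_sub n).trans sdiff_subset))
    rw [integral_add s1.1 s2.1, s1.2, s2.2, add_zero]
  have L : Tendsto (fun n => ∫ z in ball (0 : ℂ) 1, (dx (fun z => cut n z * bc n z * F1 z) z +
      dy (fun z => cut n z * bc n z * F2 z) z)) atTop
      (𝓝 (∫ z in ball (0 : ℂ) 1, (W z * ip W (kM β) z + 2 * W z ^ 2 * ‖MM' β z‖ ^ 2))) := by
    apply dct (G := fun z => (16 + 40 * C0) * HH W z)
    · intro n
      exact ((measurable_dx _).add (measurable_dy _)).aestronglyMeasurable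
    · exact (HH_int hW hL2).const_mul _
    · intro n z hz h0
      have hz' : 0 < ‖z‖ := norm_pos_iff.2 h0
      have hz1 : ‖z‖ < 1 := mem_ball_zero_iff.1 hz
      have hz2 : 0 < 1 - ‖z‖ ^ 2 := by nlinarith
      have hH := HH_nonneg W z
      rw [hpt n z hz h0]
      have a3 := gr_cut_le n h0
      have g3 := gr_nonneg (cut n) z
      have k1 := cut_nonneg n z
      have k2 := cut_le_one n z
      have b1 := bc_nonneg n z
      have b2 := bc_le_one n z
      have u1 := abs_WipkM_le (W := W) hβ hz h0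
      have u2 := WM'_le (W := W) hβ hz h0
      have v := abs_aM_le hβ hz1 h0
      have t1 : |cut n z * bc n z * (W z * ip W (kM β) z + 2 * W z ^ 2 * ‖MM' β z‖ ^ 2)| ≤
          16 * HH W z := by
        rw [abs_mul, abs_of_nonneg (mul_nonneg k1 b1)]
        have e0 : |W z * ip W (kM β) z + 2 * W z ^ 2 * ‖MM' β z‖ ^ 2| ≤ 16 * HH W z := by
          refine (abs_add_le _ _).trans ?_
          rw [abs_of_nonneg (show 0 ≤ 2 * W z ^ 2 * ‖MM' β z‖ ^ 2 by positivity)]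
          linarith
        calc cut n z * bc n z * |W z * ip W (kM β) z + 2 * W z ^ 2 * ‖MM' β z‖ ^ 2|
            ≤ 1 * (16 * HH W z) := by
              apply mul_le_mul _ e0 (abs_nonneg _) zero_le_one
              nlinarith
          _ = _ := one_mul _
      have w1 : |F1 z| ≤ 4 * (W z ^ 2 / ‖z‖ ^ 3) := by
        rw [hF1]; simp only
        rw [abs_mul, abs_mul_self]
        calc W z * W z * |aM β z| ≤ W z * W z * (4 / ‖z‖ ^ 3) :=
              mul_le_mul_of_nonneg_left v.1 (mul_self_nonneg _)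
          _ = _ := by ring
      have w2 : |F2 z| ≤ 4 * (W z ^ 2 / ‖z‖ ^ 3) := by
        rw [hF2]; simp only
        rw [abs_mul, abs_mul_self]
        calc W z * W z * |bM β z| ≤ W z * W z * (4 / ‖z‖ ^ 3) :=
              mul_le_mul_of_nonneg_left v.2 (mul_self_nonneg _)
          _ = _ := by ring
      have t2 : |bc n z * (dx (cut n) z * F1 z + dy (cut n) z * F2 z)| ≤ 32 * C0 * HH W z := by
        rw [abs_mul, abs_of_nonneg b1]
        have e0 : |dx (cut n) z * F1 z + dy (cut n) z * F2 z| ≤ gr (cut n) z * (4 * (W z ^ 2 / ‖z‖ ^ 3)) := by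
          refine (abs_add_le _ _).trans ?_
          have q1 : |dx (cut n) z * F1 z| ≤ |dx (cut n) z| * (4 * (W z ^ 2 / ‖z‖ ^ 3)) := by
            rw [abs_mul]; exact mul_le_mul_of_nonneg_left w1 (abs_nonneg _)
          have q2 : |dy (cut n) z * F2 z| ≤ |dy (cut n) z| * (4 * (W z ^ 2 / ‖z‖ ^ 3)) := by
            rw [abs_mul]; exact mul_le_mul_of_nonneg_left w2 (abs_nonneg _)
          unfold gr
          rw [add_mul]
          exact add_le_add q1 q2
        calc bc n z * |dx (cut n) z * F1 z + dy (cut n) z * F2 z|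
            ≤ 1 * ((8 * C0 / ‖z‖) * (4 * (W z ^ 2 / ‖z‖ ^ 3))) := by
              apply mul_le_mul b2 _ (abs_nonneg _) zero_le_one
              refine e0.trans ?_
              gcongr
          _ = 32 * C0 * (W z ^ 2 / ‖z‖ ^ 4) := by field_simp; ring
          _ ≤ 32 * C0 * HH W z := by
              apply mul_le_mul_of_nonneg_left (HH1 W z); positivity
      have t3 : |cut n z * (dx (bc n) z * F1 z + dy (bc n) z * F2 z)| ≤ 8 * C0 * HH W z := by
        rw [abs_mul, abs_of_nonneg k1]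
        have e0 : dx (bc n) z * F1 z + dy (bc n) z * F2 z =
            deriv Real.smoothTransition (n * (1 - ‖z‖ ^ 2) - 1) *
              (2 * (n * (1 - ‖z‖ ^ 2)) * ((1 + ‖z‖ ^ 2) * (W z ^ 2 / ‖z‖ ^ 2))) := by
          have hr := radial_ab hβ h0
          rw [dx_bc, dy_bc, hF1, hF2]
          simp only
          have : -(deriv Real.smoothTransition (n * (1 - ‖z‖ ^ 2) - 1) * (n * (2 * z.re))) * (W z * W z * aM β z)
            + -(deriv Real.smoothTransition (n * (1 - ‖z‖ ^ 2) - 1) * (n * (2 * z.im))) * (W z * W z * bM β z)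
            = -(deriv Real.smoothTransition (n * (1 - ‖z‖ ^ 2) - 1) * (2 * n * W z ^ 2 *
              (z.re * aM β z + z.im * bM β z))) := by ring
          rw [this, hr]; ring
        have e1 : |dx (bc n) z * F1 z + dy (bc n) z * F2 z| ≤ 8 * C0 * HH W z := by
          rw [e0, abs_mul]
          by_cases h : deriv Real.smoothTransition (n * (1 - ‖z‖ ^ 2) - 1) = 0
          · rw [h, abs_zero, zero_mul]; positivity
          have h2 : (n : ℝ) * (1 - ‖z‖ ^ 2) ≤ 2 := by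
            by_contra hh
            push Not at hh
            exact h (st_gt (by linarith))
          have hn : (0 : ℝ) ≤ n * (1 - ‖z‖ ^ 2) := mul_nonneg (Nat.cast_nonneg n) hz2.le
          have hst := st_le (n * (1 - ‖z‖ ^ 2) - 1)
          rw [abs_of_nonneg (show 0 ≤ 2 * ((n : ℝ) * (1 - ‖z‖ ^ 2)) * ((1 + ‖z‖ ^ 2) * (W z ^ 2 / ‖z‖ ^ 2)) by
            positivity)]
          calc |deriv Real.smoothTransition (n * (1 - ‖z‖ ^ 2) - 1)| *
                (2 * (n * (1 - ‖z‖ ^ 2)) * ((1 + ‖z‖ ^ 2) * (W z ^ 2 / ‖z‖ ^ 2)))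
              ≤ C0 * (2 * 2 * (2 * (W z ^ 2 / ‖z‖ ^ 4))) := by
                apply mul_le_mul hst _ (by positivity) hC.le
                apply mul_le_mul (by linarith) _ (by positivity) (by norm_num)
                apply mul_le_mul (by nlinarith) _ (by positivity) (by norm_num)
                apply div_le_div_of_nonneg_left (sq_nonneg _) (by positivity)
                have : ‖z‖ ^ 2 ≤ 1 := by nlinarith
                calc ‖z‖ ^ 4 = ‖z‖ ^ 2 * ‖z‖ ^ 2 := by ring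
                  _ ≤ ‖z‖ ^ 2 * 1 := by gcongr
                  _ = ‖z‖ ^ 2 := mul_one _
            _ = 8 * C0 * (W z ^ 2 / ‖z‖ ^ 4) := by ring
            _ ≤ 8 * C0 * HH W z := by
              apply mul_le_mul_of_nonneg_left (HH1 W z); positivity
        calc cut n z * |dx (bc n) z * F1 z + dy (bc n) z * F2 z| ≤ 1 * (8 * C0 * HH W z) :=
              mul_le_mul k2 e1 (abs_nonneg _) zero_le_one
          _ = _ := one_mul _
      refine (abs_add_le _ _).trans ?_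
      have t4 := abs_add_le (bc n z * (dx (cut n) z * F1 z + dy (cut n) z * F2 z))
        (cut n z * (dx (bc n) z * F1 z + dy (bc n) z * F2 z))
      have e2 : (16 + 40 * C0) * HH W z = 16 * HH W z + 32 * C0 * HH W z + 8 * C0 * HH W z := by ring
      rw [e2]
      linarith
    · intro z hz h0
      have hz1 : ‖z‖ < 1 := mem_ball_zero_iff.1 hz
      apply tendsto_const_nhds.congr'
      filter_upwards [cut_eventually h0, bc_eventually hz1] with n hn hb
      rw [hpt n z hz h0, hn.1, hb.1]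
      have e1 : dx (cut n) z = 0 ∧ dy (cut n) z = 0 := by
        have h := hn.2
        unfold gr at h
        have p1 := abs_nonneg (dx (cut n) z)
        have p2 := abs_nonneg (dy (cut n) z)
        exact ⟨abs_eq_zero.1 (by linarith), abs_eq_zero.1 (by linarith)⟩
      have e2 : dx (bc n) z = 0 ∧ dy (bc n) z = 0 := by
        have h := hb.2
        unfold gr at h
        have p1 := abs_nonneg (dx (bc n) z)
        have p2 := abs_nonneg (dy (bc n) z)
        exact ⟨abs_eq_zero.1 (by linarith), abs_eq_zero.1 (by linarith)⟩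
      rw [e1.1, e1.2, e2.1, e2.2]; ring
  refine tendsto_nhds_unique L ?_
  refine tendsto_const_nhds.congr ?_
  intro n
  exact (hz n).symm

/-- **Energy identity for `A`.** -/
theorem en_A (hφ : Conf φ) (hW : WSet φ W μ c0) {β : ℂ} (hβ : ‖β‖ = 1)
    (hL2 : IntegrableOn (fun z => W z ^ 2) (ball 0 1)) :
    IntegrableOn (fun z => ‖MM β z‖ ^ 2 * g2 W z) (ball 0 1) ∧
    IntegrableOn (fun z => rho φ z * (c0 + μ * W z) * ‖MM β z‖ ^ 2 * W z) (ball 0 1) ∧
    IntegrableOn (fun z => W z ^ 2 * ‖MM' β z‖ ^ 2) (ball 0 1) ∧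
    ∫ z in ball (0 : ℂ) 1, ‖MM β z‖ ^ 2 * g2 W z =
      (∫ z in ball (0 : ℂ) 1, rho φ z * (c0 + μ * W z) * ‖MM β z‖ ^ 2 * W z) +
        2 * ∫ z in ball (0 : ℂ) 1, W z ^ 2 * ‖MM' β z‖ ^ 2 := by
  obtain ⟨i2, e2⟩ := en_A_weak hφ hW hβ hL2
  have e3 : (fun z => rho φ z * (c0 + μ * W z) * (kM β z * W z)) =
      fun z => rho φ z * (c0 + μ * W z) * ‖MM β z‖ ^ 2 * W z := by
    funext z; rw [kM_eq]; ring
  rw [e3] at i2 e2
  have iH := HH_int hW hL2
  have i3 : IntegrableOn (fun z => W z ^ 2 * ‖MM' β z‖ ^ 2) (ball 0 1) := by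
    refine integrableOn_of_le (aesm_WM' hW β) (iH.const_mul 4) ?_
    intro z hz h0
    rw [abs_of_nonneg (by positivity)]
    exact WM'_le hβ hz h0
  have i1 : IntegrableOn (fun z => ‖MM β z‖ ^ 2 * g2 W z) (ball 0 1) := by
    refine integrableOn_of_le ?_ (iH.const_mul 4) ?_
    · have hm : Measurable (fun z => ‖MM β z‖ ^ 2) := by
        unfold MM; fun_prop
      exact (hm.mul (measurable_g2 W)).aestronglyMeasurable
    · intro z hz h0
      have hz1 : ‖z‖ < 1 := mem_ball_zero_iff.1 hz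
      have hz' : 0 < ‖z‖ := norm_pos_iff.2 h0
      have hg := g2_nonneg W z
      rw [abs_of_nonneg (by positivity), ← kM_eq]
      have h1 := abs_kM_le hβ hz1 h0
      have h2 := g2_le W z
      calc kM β z * g2 W z ≤ (4 / ‖z‖ ^ 2) * gr W z ^ 2 :=
            mul_le_mul ((le_abs_self _).trans h1) h2 hg (by positivity)
        _ = 4 * (gr W z ^ 2 / ‖z‖ ^ 2) := by ring
        _ ≤ 4 * HH W z := by linarith [HH2 W z]
  have i4 : IntegrableOn (fun z => W z * ip W (kM β) z) (ball 0 1) := by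
    refine integrableOn_of_le ?_ (iH.const_mul 8) ?_
    · refine (aesm_of_c1 hW.adm.c1).mul ?_
      unfold ip
      exact (((measurable_dx _).mul (measurable_dx _)).add
        ((measurable_dy _).mul (measurable_dy _))).aestronglyMeasurable
    · intro z hz h0
      exact abs_WipkM_le hβ hz h0
  have hpt : ∀ z ∈ ball (0 : ℂ) 1, z ≠ 0 → ip W (fun z => kM β z * W z) z =
      ‖MM β z‖ ^ 2 * g2 W z + W z * ip W (kM β) z := by
    intro z hz h0
    have d1 : DifferentiableAt ℝ (kM β) z := diffAt_of_c1' (contDiffOn_kM β (k := 1)) hz h0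
    have d2 : DifferentiableAt ℝ W z := diffAt_of_c1 hW.adm.c1 hz
    unfold ip g2
    rw [dx_mul d1 d2, dy_mul d1 d2, ← kM_eq]
    ring
  refine ⟨i1, i2, i3, ?_⟩
  have s1 : ∫ z in ball (0 : ℂ) 1, ip W (fun z => kM β z * W z) z =
      (∫ z in ball (0 : ℂ) 1, ‖MM β z‖ ^ 2 * g2 W z) + ∫ z in ball (0 : ℂ) 1, W z * ip W (kM β) z := by
    rw [integral_congr_punct hpt, integral_add i1 i4]
  have s2 := en_A_div hW hβ hL2
  have i5 : IntegrableOn (fun z => 2 * W z ^ 2 * ‖MM' β z‖ ^ 2) (ball 0 1) := by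
    have := i3.const_mul 2
    refine this.congr ?_
    filter_upwards with z
    ring
  rw [integral_add i4 i5] at s2
  have s3 : ∫ z in ball (0 : ℂ) 1, 2 * W z ^ 2 * ‖MM' β z‖ ^ 2 =
      2 * ∫ z in ball (0 : ℂ) 1, W z ^ 2 * ‖MM' β z‖ ^ 2 := by
    rw [← integral_const_mul]
    congr 1; funext z; ring
  rw [s3] at s2
  rw [s1] at e2
  linarith

end Crest.Agent.R101
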