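import Mathlib

/-! Row 101 (S0133, hot spots on simply connected planar domains): common definitions on the unit
disc `D = ball 0 1 ⊂ ℂ`. Everything is stated with real scalars `dx`, `dy` of real functions. -/

set_option autoImplicit false

open MeasureTheory Metric Set Complex ComplexConjugate

namespace Crest.Agent.R101

/-- `x`-derivative of a real function on the plane. -/
noncomputable def dx (v : ℂ → ℝ) (z : ℂ) : ℝ := fderiv ℝ v z 1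

/-- `y`-derivative of a real function on the plane. -/
noncomputable def dy (v : ℂ → ℝ) (z : ℂ) : ℝ := fderiv ℝ v z I

/-- `|∇ v|^2`. -/
noncomputable def g2 (v : ℂ → ℝ) (z : ℂ) : ℝ := dx v z ^ 2 + dy v z ^ 2

/-- `∇ v · ∇ w`. -/
noncomputable def ip (v w : ℂ → ℝ) (z : ℂ) : ℝ := dx v z * dx w z + dy v z * dy w z

/-- conformal factor `ρ = |φ'|^2`. -/
noncomputable def rho (φ : ℂ → ℂ) (z : ℂ) : ℝ := ‖deriv φ z‖ ^ 2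

/-- bounded injective holomorphic map of the unit disc with `φ 0 = 0`. -/
structure Conf (φ : ℂ → ℂ) : Prop where
  holo : DifferentiableOn ℂ φ (ball 0 1)
  inj : InjOn φ (ball 0 1)
  zero : φ 0 = 0
  bdd : ∃ C : ℝ, ∀ z ∈ ball (0 : ℂ) 1, ‖φ z‖ ≤ C
  rho_int : IntegrableOn (rho φ) (ball 0 1)

/-- admissible functions: `C¹` on the disc, `∫ ρ v² < ∞`, `∫ |∇ v|² < ∞`. -/
structure Adm (φ : ℂ → ℂ) (v : ℂ → ℝ) : Prop where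
  c1 : ContDiffOn ℝ 1 v (ball 0 1)
  l2 : IntegrableOn (fun z => rho φ z * v z ^ 2) (ball 0 1)
  en : IntegrableOn (g2 v) (ball 0 1)

/-- The pulled back eigenvalue problem: `U = u ∘ φ`, critical point at `0`. -/
structure Setting (φ : ℂ → ℂ) (U : ℂ → ℝ) (μ : ℝ) : Prop where
  conf : Conf φ
  μpos : 0 < μ
  adm : Adm φ U
  weak : ∀ v, Adm φ v → ∫ z in ball (0 : ℂ) 1, ip U v z = μ * ∫ z in ball (0 : ℂ) 1, rho φ z * U z * v z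
  ray : ∀ v, Adm φ v → ∫ z in ball (0 : ℂ) 1, rho φ z * v z = 0 →
    μ * ∫ z in ball (0 : ℂ) 1, rho φ z * v z ^ 2 ≤ ∫ z in ball (0 : ℂ) 1, g2 v z
  crit : fderiv ℝ U 0 = 0
  nz : ∃ z ∈ ball (0 : ℂ) 1, U z ≠ 0

/-- `M = β/ζ + conj β ζ`: real on the unit circle, simple pole at `0`. -/
noncomputable def MM (β ζ : ℂ) : ℂ := β / ζ + conj β * ζ

/-- `dM/dζ`. -/
noncomputable def MM' (β ζ : ℂ) : ℂ := -β / ζ ^ 2 + conj β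

/-- `R = Im M`. -/
noncomputable def RR (β ζ : ℂ) : ℝ := (MM β ζ).im

/-- `κ = ρ R + 2 Im(M_ζ φ conj φ')`  (`= ρ K`). -/
noncomputable def kap (φ : ℂ → ℂ) (β ζ : ℂ) : ℝ :=
  rho φ ζ * RR β ζ + 2 * (MM' β ζ * φ ζ * conj (deriv φ ζ)).im

/-- the integrand of `N0`. -/
noncomputable def n0 (φ : ℂ → ℂ) (β ζ : ℂ) : ℝ :=
  RR β ζ ^ 2 * kap φ β ζ ^ 2 / (2 * ‖MM' β ζ‖ ^ 2) - RR β ζ ^ 2 * ‖φ ζ‖ ^ 2 * rho φ ζ

/-- `h' = (M φ)' = M_ζ φ + M φ'`. -/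
noncomputable def hp (φ : ℂ → ℂ) (β ζ : ℂ) : ℂ := MM' β ζ * φ ζ + MM β ζ * deriv φ ζ

/-- `q(β) = ∫ |h'|² + μ ∫ ρ W Re M²`. -/
noncomputable def qq (φ : ℂ → ℂ) (W : ℂ → ℝ) (μ : ℝ) (β : ℂ) : ℝ :=
  (∫ ζ in ball (0 : ℂ) 1, ‖hp φ β ζ‖ ^ 2) +
    μ * ∫ ζ in ball (0 : ℂ) 1, rho φ ζ * W ζ * (MM β ζ ^ 2).re

/-- The normalised function: `-ΔW = ρ (c0 + μ W)` weakly (Neumann), `W = O(|z|²)`, `∇W = O(|z|)`
at `0`. Used with `c0 = 1` (`W = (U - U 0)/(μ U 0)`) and with `c0 = 0` (`W = U`, `U 0 = 0`). -/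
structure WSet (φ : ℂ → ℂ) (W : ℂ → ℝ) (μ c0 : ℝ) : Prop where
  adm : Adm φ W
  weak : ∀ v, Adm φ v → ∫ z in ball (0 : ℂ) 1, ip W v z =
    ∫ z in ball (0 : ℂ) 1, rho φ z * (c0 + μ * W z) * v z
  growth : ∃ C r : ℝ, 0 < r ∧ r < 1 ∧ ∀ z ∈ ball (0 : ℂ) r,
      |W z| ≤ C * ‖z‖ ^ 2 ∧ |dx W z| ≤ C * ‖z‖ ∧ |dy W z| ≤ C * ‖z‖

end Crest.Agent.R101
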