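import Mathlib

/-!
Row 101, part P5 (helper251): calculus on the unit disc with cutoffs.
`db G = 2 ∂_{\bar z} G`, `gr W = W_x + i W_y`; divergence lemmas with cutoffs at `0` and at the circle.
-/

set_option autoImplicit false

open MeasureTheory Metric Set Filter Topology Complex
open scoped ContDiff ComplexConjugate

namespace Crest.Agent.R101.En

/-- `2 ∂_{\bar z} G`. -/
noncomputable def db (G : ℂ → ℂ) (z : ℂ) : ℂ := fderiv ℝ G z 1 + I * fderiv ℝ G z I

/-- complex gradient `W_x + i W_y` of a real function. -/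
noncomputable def gr (W : ℂ → ℝ) (z : ℂ) : ℂ :=
  ((fderiv ℝ W z 1 : ℝ) : ℂ) + ((fderiv ℝ W z I : ℝ) : ℂ) * I

/-- derivative predicate for `2 ∂_{\bar z}`. -/
def HasDb (G : ℂ → ℂ) (d z : ℂ) : Prop :=
  ∃ L : ℂ →L[ℝ] ℂ, HasFDerivAt G L z ∧ L 1 + I * L I = d

theorem HasDb.db_eq {G : ℂ → ℂ} {d z : ℂ} (h : HasDb G d z) : db G z = d := by
  obtain ⟨L, hL, hd⟩ := h
  rw [db, hL.fderiv, hd]

theorem HasDb.differentiableAt {G : ℂ → ℂ} {d z : ℂ} (h : HasDb G d z) :
    DifferentiableAt ℝ G z := by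
  obtain ⟨L, hL, _⟩ := h
  exact hL.differentiableAt

theorem hasDb_of_differentiableAt {G : ℂ → ℂ} {z : ℂ} (h : DifferentiableAt ℝ G z) :
    HasDb G (db G z) z := ⟨_, h.hasFDerivAt, rfl⟩

theorem HasDb.congr_eventuallyEq {G H : ℂ → ℂ} {d z : ℂ} (h : HasDb G d z) (he : H =ᶠ[𝓝 z] G) :
    HasDb H d z := by
  obtain ⟨L, hL, hd⟩ := h
  exact ⟨L, hL.congr_of_eventuallyEq he, hd⟩

theorem HasDb.add {G H : ℂ → ℂ} {a b z : ℂ} (hG : HasDb G a z) (hH : HasDb H b z) :
    HasDb (fun w => G w + H w) (a + b) z := by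
  obtain ⟨L, hL, rfl⟩ := hG
  obtain ⟨K, hK, rfl⟩ := hH
  refine ⟨L + K, hL.add hK, ?_⟩
  simp only [ContinuousLinearMap.add_apply]
  ring

theorem HasDb.sub {G H : ℂ → ℂ} {a b z : ℂ} (hG : HasDb G a z) (hH : HasDb H b z) :
    HasDb (fun w => G w - H w) (a - b) z := by
  obtain ⟨L, hL, rfl⟩ := hG
  obtain ⟨K, hK, rfl⟩ := hH
  refine ⟨L - K, hL.sub hK, ?_⟩
  simp only [ContinuousLinearMap.sub_apply]
  ring

theorem HasDb.mul {G H : ℂ → ℂ} {a b z : ℂ} (hG : HasDb G a z) (hH : HasDb H b z) :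
    HasDb (fun w => G w * H w) (G z * b + H z * a) z := by
  obtain ⟨L, hL, rfl⟩ := hG
  obtain ⟨K, hK, rfl⟩ := hH
  refine ⟨_, hL.mul hK, ?_⟩
  simp only [ContinuousLinearMap.add_apply, ContinuousLinearMap.smul_apply, smul_eq_mul]
  ring

theorem hasDb_const (c z : ℂ) : HasDb (fun _ => c) 0 z :=
  ⟨0, hasFDerivAt_const c z, by simp⟩

theorem HasDb.const_mul {G : ℂ → ℂ} {a z : ℂ} (c : ℂ) (hG : HasDb G a z) :
    HasDb (fun w => c * G w) (c * a) z := by
  have := (hasDb_const c z).mul hG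
  simpa using this

/-- holomorphic functions. -/
theorem hasDb_of_hasDerivAt {F : ℂ → ℂ} {F' z : ℂ} (h : HasDerivAt F F' z) :
    HasDb F 0 z := by
  refine ⟨_, h.hasFDerivAt.restrictScalars ℝ, ?_⟩
  simp only [ContinuousLinearMap.coe_restrictScalars', ContinuousLinearMap.toSpanSingleton_apply,
    smul_eq_mul]
  ring_nf
  simp

/-- conjugates of holomorphic functions. -/
theorem hasDb_conj_of_hasDerivAt {F : ℂ → ℂ} {F' z : ℂ} (h : HasDerivAt F F' z) :
    HasDb (fun w => conj (F w)) (2 * conj F') z := by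
  have h1 := h.hasFDerivAt.restrictScalars ℝ
  have h2 := (Complex.conjCLE.toContinuousLinearMap.hasFDerivAt (x := F z)).comp z h1
  refine ⟨_, h2, ?_⟩
  simp
  ring_nf
  simp
  ring

/-- real functions. -/
theorem hasDb_ofReal {W : ℂ → ℝ} {z : ℂ} (h : DifferentiableAt ℝ W z) :
    HasDb (fun w => (W w : ℂ)) (gr W z) z := by
  have h2 := (Complex.ofRealCLM.hasFDerivAt (x := W z)).comp z h.hasFDerivAt
  refine ⟨_, h2, ?_⟩
  simp [gr]
  ring

theorem db_ofReal {W : ℂ → ℝ} {z : ℂ} (h : DifferentiableAt ℝ W z) :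
    db (fun w => (W w : ℂ)) z = gr W z := (hasDb_ofReal h).db_eq

theorem gr_mul {W V : ℂ → ℝ} {z : ℂ} (hW : DifferentiableAt ℝ W z) (hV : DifferentiableAt ℝ V z) :
    gr (fun w => W w * V w) z = (W z : ℂ) * gr V z + (V z : ℂ) * gr W z := by
  have h1 := (hasDb_ofReal hW).mul (hasDb_ofReal hV)
  have h2 := hasDb_ofReal (hW.mul hV)
  have h3 : db (fun w => ((W w * V w : ℝ) : ℂ)) z = gr (fun w => W w * V w) z := h2.db_eq
  rw [← h3]
  have h4 : (fun w => ((W w * V w : ℝ) : ℂ)) = fun w => (W w : ℂ) * (V w : ℂ) := by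
    funext w; push_cast; rfl
  rw [h4, h1.db_eq]

theorem gr_re_of_hasDerivAt {F : ℂ → ℂ} {F' z : ℂ} (h : HasDerivAt F F' z) :
    gr (fun w => (F w).re) z = conj F' := by
  have h1 := h.hasFDerivAt.restrictScalars ℝ
  have h2 := (Complex.reCLM.hasFDerivAt (x := F z)).comp z h1
  have h3 : HasFDerivAt (fun w => (F w).re) _ z := h2
  rw [gr, h3.fderiv]
  apply Complex.ext <;> simp

theorem gr_im_of_hasDerivAt {F : ℂ → ℂ} {F' z : ℂ} (h : HasDerivAt F F' z) :
    gr (fun w => (F w).im) z = I * conj F' := by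
  have h1 := h.hasFDerivAt.restrictScalars ℝ
  have h2 := (Complex.imCLM.hasFDerivAt (x := F z)).comp z h1
  have h3 : HasFDerivAt (fun w => (F w).im) _ z := h2
  rw [gr, h3.fderiv]
  apply Complex.ext <;> simp

/-! ### Compactly supported divergence theorem -/

theorem integral_fderiv_apply_eq_zero {G : ℂ → ℂ} (hG : ContDiff ℝ 1 G)
    (hc : HasCompactSupport G) (v : ℂ) :
    ∫ z, fderiv ℝ G z v = 0 := by
  have hcont : Continuous (fun z => fderiv ℝ G z v) := by
    have := hG.continuous_fderiv (by norm_num)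
    exact this.clm_apply continuous_const
  have hcs : HasCompactSupport (fun z => fderiv ℝ G z v) := hc.fderiv_apply ℝ v
  have h := integral_smul_fderiv_eq_neg_fderiv_smul_of_integrable (μ := volume) (𝕜 := ℝ)
    (f := fun _ : ℂ => (1:ℝ)) (g := G) (v := v) ?_ ?_ ?_ ?_ ?_
  · simpa using h
  · simp
  · simpa using hcont.integrable_of_hasCompactSupport hcs
  · simpa using hG.continuous.integrable_of_hasCompactSupport hc
  · intro x _
    exact differentiableAt_const _
  · intro x _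
    exact hG.differentiable (by norm_num) x

theorem integrable_db {G : ℂ → ℂ} (hG : ContDiff ℝ 1 G) (hc : HasCompactSupport G) :
    Integrable (db G) := by
  have hcont : ∀ v : ℂ, Continuous (fun z => fderiv ℝ G z v) := by
    intro v
    have := hG.continuous_fderiv (by norm_num)
    exact this.clm_apply continuous_const
  have hcs : ∀ v : ℂ, HasCompactSupport (fun z => fderiv ℝ G z v) :=
    fun v => hc.fderiv_apply ℝ v
  unfold db
  exact ((hcont 1).integrable_of_hasCompactSupport (hcs 1)).add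
    (((hcont I).integrable_of_hasCompactSupport (hcs I)).const_mul I)

theorem integral_db_eq_zero {G : ℂ → ℂ} (hG : ContDiff ℝ 1 G) (hc : HasCompactSupport G) :
    ∫ z, db G z = 0 := by
  have hcont : ∀ v : ℂ, Continuous (fun z => fderiv ℝ G z v) := by
    intro v
    have := hG.continuous_fderiv (by norm_num)
    exact this.clm_apply continuous_const
  have hcs : ∀ v : ℂ, HasCompactSupport (fun z => fderiv ℝ G z v) :=
    fun v => hc.fderiv_apply ℝ v
  unfold db
  rw [integral_add ((hcont 1).integrable_of_hasCompactSupport (hcs 1))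
    (((hcont I).integrable_of_hasCompactSupport (hcs I)).const_mul I),
    integral_const_mul, integral_fderiv_apply_eq_zero hG hc, integral_fderiv_apply_eq_zero hG hc]
  simp

/-! ### Cutoffs -/

theorem exists_bound_deriv_smoothTransition :
    ∃ C : ℝ, 0 ≤ C ∧ ∀ x, |deriv Real.smoothTransition x| ≤ C := by
  have hcont : Continuous (deriv Real.smoothTransition) :=
    (Real.smoothTransition.contDiff (n := 1)).continuous_deriv (by norm_num)
  obtain ⟨C, hC⟩ := (isCompact_Icc (a := (0:ℝ)) (b := 1)).exists_bound_of_continuousOn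
    hcont.continuousOn
  refine ⟨max C 0, le_max_right _ _, fun x => ?_⟩
  by_cases hx : x ∈ Icc (0:ℝ) 1
  · exact (hC x hx).trans (le_max_left _ _)
  · have : deriv Real.smoothTransition x = 0 := by
      rw [mem_Icc, not_and_or, not_le, not_le] at hx
      rcases hx with hx | hx
      · have he : Real.smoothTransition =ᶠ[𝓝 x] fun _ => 0 := by
          filter_upwards [Iio_mem_nhds hx] with y hy
          exact Real.smoothTransition.zero_of_nonpos (le_of_lt hy)
        rw [he.deriv_eq]; simp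
      · have he : Real.smoothTransition =ᶠ[𝓝 x] fun _ => 1 := by
          filter_upwards [Ioi_mem_nhds hx] with y hy
          exact Real.smoothTransition.one_of_one_le (le_of_lt hy)
        rw [he.deriv_eq]; simp
    rw [this]; simp

theorem deriv_smoothTransition_eq_zero {x : ℝ} (hx : x < 0 ∨ 1 < x) :
    deriv Real.smoothTransition x = 0 := by
  rcases hx with hx | hx
  · have he : Real.smoothTransition =ᶠ[𝓝 x] fun _ => 0 := by
      filter_upwards [Iio_mem_nhds hx] with y hy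
      exact Real.smoothTransition.zero_of_nonpos (le_of_lt hy)
    rw [he.deriv_eq]; simp
  · have he : Real.smoothTransition =ᶠ[𝓝 x] fun _ => 1 := by
      filter_upwards [Ioi_mem_nhds hx] with y hy
      exact Real.smoothTransition.one_of_one_le (le_of_lt hy)
    rw [he.deriv_eq]; simp

/-- cutoff near `0` as function of `t = ‖z‖²`. -/
noncomputable def k0 (n : ℕ) (t : ℝ) : ℝ := Real.smoothTransition (n * t - 1)

/-- cutoff near the circle as function of `t = ‖z‖²`. -/
noncomputable def k1 (n : ℕ) (t : ℝ) : ℝ := Real.smoothTransition (n * (1 - t) - 1)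

noncomputable def k0' (n : ℕ) (t : ℝ) : ℝ := n * deriv Real.smoothTransition (n * t - 1)
noncomputable def k1' (n : ℕ) (t : ℝ) : ℝ := -(n * deriv Real.smoothTransition (n * (1 - t) - 1))

theorem contDiff_k0 (n : ℕ) : ContDiff ℝ ∞ (k0 n) := by
  unfold k0
  exact (Real.smoothTransition.contDiff (n := ⊤)).comp (by fun_prop)

theorem contDiff_k1 (n : ℕ) : ContDiff ℝ ∞ (k1 n) := by
  unfold k1
  exact (Real.smoothTransition.contDiff (n := ⊤)).comp (by fun_prop)

theorem hasDerivAt_k0 (n : ℕ) (t : ℝ) : HasDerivAt (k0 n) (k0' n t) t := by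
  have h1 : HasDerivAt Real.smoothTransition (deriv Real.smoothTransition (n * t - 1)) (n * t - 1) :=
    ((Real.smoothTransition.contDiff (n := 1)).differentiable (by norm_num) _).hasDerivAt
  have h2 : HasDerivAt (fun t : ℝ => n * t - 1) (n : ℝ) t := by
    simpa using ((hasDerivAt_id t).const_mul (n : ℝ)).sub_const 1
  have := h1.comp t h2
  unfold k0 k0'
  rw [mul_comm]
  exact this

theorem hasDerivAt_k1 (n : ℕ) (t : ℝ) : HasDerivAt (k1 n) (k1' n t) t := by
  have h1 : HasDerivAt Real.smoothTransition (deriv Real.smoothTransition (n * (1 - t) - 1))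
      (n * (1 - t) - 1) :=
    ((Real.smoothTransition.contDiff (n := 1)).differentiable (by norm_num) _).hasDerivAt
  have h2 : HasDerivAt (fun t : ℝ => n * (1 - t) - 1) (-(n : ℝ)) t := by
    have := (((hasDerivAt_id t).const_sub 1).const_mul (n : ℝ)).sub_const 1
    simpa using this
  have := h1.comp t h2
  unfold k1 k1'
  have e : -(↑n * deriv Real.smoothTransition (↑n * (1 - t) - 1)) =
    deriv Real.smoothTransition (n * (1 - t) - 1) * -(n : ℝ) := by ring
  rw [e]
  exact this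

theorem k0_nonneg (n : ℕ) (t : ℝ) : 0 ≤ k0 n t := Real.smoothTransition.nonneg _
theorem k0_le_one (n : ℕ) (t : ℝ) : k0 n t ≤ 1 := Real.smoothTransition.le_one _
theorem k1_nonneg (n : ℕ) (t : ℝ) : 0 ≤ k1 n t := Real.smoothTransition.nonneg _
theorem k1_le_one (n : ℕ) (t : ℝ) : k1 n t ≤ 1 := Real.smoothTransition.le_one _

theorem abs_k0_le (n : ℕ) (t : ℝ) : |k0 n t| ≤ 1 := by
  rw [abs_of_nonneg (k0_nonneg n t)]; exact k0_le_one n t
theorem abs_k1_le (n : ℕ) (t : ℝ) : |k1 n t| ≤ 1 := by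
  rw [abs_of_nonneg (k1_nonneg n t)]; exact k1_le_one n t

theorem exists_bound_k' : ∃ C : ℝ, 0 ≤ C ∧
    (∀ (n : ℕ) (t : ℝ), 0 < t → |k0' n t| * t ≤ C) ∧
    (∀ (n : ℕ) (t : ℝ), t < 1 → |k1' n t| * (1 - t) ≤ C) := by
  obtain ⟨C, hC0, hC⟩ := exists_bound_deriv_smoothTransition
  have key : ∀ (n : ℕ) (t : ℝ), 0 < t → |n * deriv Real.smoothTransition (n * t - 1)| * t ≤ 2 * C := by
    intro n t ht
    by_cases h : (n : ℝ) * t - 1 ∈ Icc (0:ℝ) 1
    · rw [abs_mul, abs_of_nonneg (Nat.cast_nonneg n)]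
      have h1 : (n : ℝ) * t ≤ 2 := by linarith [h.2]
      have h2 := hC (n * t - 1)
      have h3 : 0 ≤ (n : ℝ) * t := by positivity
      calc (n : ℝ) * |deriv Real.smoothTransition (n * t - 1)| * t
          = (n * t) * |deriv Real.smoothTransition (n * t - 1)| := by ring
        _ ≤ 2 * C := mul_le_mul h1 h2 (abs_nonneg _) (by norm_num)
    · have : deriv Real.smoothTransition (n * t - 1) = 0 := by
        apply deriv_smoothTransition_eq_zero
        rw [mem_Icc, not_and_or, not_le, not_le] at h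
        exact h
      rw [this]; simp; exact hC0
  refine ⟨2 * C, by positivity, key, fun n t ht => ?_⟩
  have := key n (1 - t) (by linarith)
  unfold k1'
  rw [abs_neg]
  exact this

theorem eventually_k0_eq_one {t : ℝ} (ht : 0 < t) : ∀ᶠ n : ℕ in atTop, k0 n t = 1 ∧ k0' n t = 0 := by
  obtain ⟨N, hN⟩ := exists_nat_gt (2 / t)
  filter_upwards [eventually_ge_atTop N] with n hn
  have h1 : (2 / t) < n := lt_of_lt_of_le hN (by exact_mod_cast hn)
  have h2 : 2 < n * t := by rwa [div_lt_iff₀ ht] at h1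
  refine ⟨Real.smoothTransition.one_of_one_le (by linarith), ?_⟩
  unfold k0'
  rw [deriv_smoothTransition_eq_zero (Or.inr (by linarith))]
  simp

theorem eventually_k1_eq_one {t : ℝ} (ht : t < 1) : ∀ᶠ n : ℕ in atTop, k1 n t = 1 ∧ k1' n t = 0 := by
  obtain ⟨N, hN⟩ := exists_nat_gt (2 / (1 - t))
  filter_upwards [eventually_ge_atTop N] with n hn
  have ht' : 0 < 1 - t := by linarith
  have h1 : (2 / (1 - t)) < n := lt_of_lt_of_le hN (by exact_mod_cast hn)
  have h2 : 2 < n * (1 - t) := by rwa [div_lt_iff₀ ht'] at h1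
  refine ⟨Real.smoothTransition.one_of_one_le (by linarith), ?_⟩
  unfold k1'
  rw [deriv_smoothTransition_eq_zero (Or.inr (by linarith))]
  simp

theorem hasDb_radial {k : ℝ → ℝ} {k' : ℝ} {z : ℂ} (h : HasDerivAt k k' (‖z‖ ^ 2)) :
    HasDb (fun w => ((k (‖w‖ ^ 2) : ℝ) : ℂ)) (2 * (k' : ℂ) * z) z := by
  have h0 : HasFDerivAt (fun w : ℂ => ‖w‖ ^ 2) (2 • (innerSL ℝ z)) z := by
    have := (hasStrictFDerivAt_norm_sq z).hasFDerivAt
    exact this
  have h1 : HasFDerivAt (fun w : ℂ => k (‖w‖ ^ 2)) (k' • (2 • (innerSL ℝ z))) z :=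
    h.comp_hasFDerivAt z h0
  have h2 := (Complex.ofRealCLM.hasFDerivAt (x := k (‖z‖ ^ 2))).comp z h1
  refine ⟨_, h2, ?_⟩
  apply Complex.ext <;> simp [Complex.inner] <;> ring

/-- the full cutoff on the punctured disc. -/
noncomputable def kk (n : ℕ) (z : ℂ) : ℝ := k0 n (‖z‖ ^ 2) * k1 n (‖z‖ ^ 2)

noncomputable def kk' (n : ℕ) (z : ℂ) : ℝ :=
  k0' n (‖z‖ ^ 2) * k1 n (‖z‖ ^ 2) + k0 n (‖z‖ ^ 2) * k1' n (‖z‖ ^ 2)

theorem contDiff_norm_sq' : ContDiff ℝ ∞ (fun z : ℂ => ‖z‖ ^ 2) := contDiff_norm_sq ℝ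

theorem contDiff_kk (n : ℕ) : ContDiff ℝ ∞ (kk n) :=
  ((contDiff_k0 n).comp contDiff_norm_sq').mul ((contDiff_k1 n).comp contDiff_norm_sq')

theorem kk_nonneg (n : ℕ) (z : ℂ) : 0 ≤ kk n z := mul_nonneg (k0_nonneg _ _) (k1_nonneg _ _)

theorem abs_kk_le (n : ℕ) (z : ℂ) : |kk n z| ≤ 1 := by
  rw [kk, abs_mul]
  exact mul_le_one₀ (abs_k0_le _ _) (abs_nonneg _) (abs_k1_le _ _)

theorem continuous_k0' (n : ℕ) : Continuous (k0' n) := by
  have hcont : Continuous (deriv Real.smoothTransition) :=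
    (Real.smoothTransition.contDiff (n := 1)).continuous_deriv (by norm_num)
  unfold k0'
  exact continuous_const.mul (hcont.comp (by fun_prop))

theorem continuous_k1' (n : ℕ) : Continuous (k1' n) := by
  have hcont : Continuous (deriv Real.smoothTransition) :=
    (Real.smoothTransition.contDiff (n := 1)).continuous_deriv (by norm_num)
  unfold k1'
  exact (continuous_const.mul (hcont.comp (by fun_prop))).neg

theorem continuous_kk (n : ℕ) : Continuous (kk n) := (contDiff_kk n).continuous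

theorem continuous_kk' (n : ℕ) : Continuous (kk' n) := by
  have h0 := (contDiff_k0 n).continuous
  have h1 := (contDiff_k1 n).continuous
  have h2 := continuous_k0' n
  have h3 := continuous_k1' n
  have h4 : Continuous (fun z : ℂ => ‖z‖ ^ 2) := by fun_prop
  unfold kk'
  exact ((h2.comp h4).mul (h1.comp h4)).add ((h0.comp h4).mul (h3.comp h4))

theorem hasDb_kk (n : ℕ) (z : ℂ) : HasDb (fun w => ((kk n w : ℝ) : ℂ)) (2 * (kk' n z : ℂ) * z) z := by
  have h0 := hasDb_radial (z := z) (hasDerivAt_k0 n (‖z‖ ^ 2))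
  have h1 := hasDb_radial (z := z) (hasDerivAt_k1 n (‖z‖ ^ 2))
  have h := h0.mul h1
  have e : (fun w => ((kk n w : ℝ) : ℂ)) =
    fun w => ((k0 n (‖w‖ ^ 2) : ℝ) : ℂ) * ((k1 n (‖w‖ ^ 2) : ℝ) : ℂ) := by
    funext w; simp [kk]
  rw [e]
  convert h using 1
  simp only [kk']
  push_cast
  ring

theorem gr_kk (n : ℕ) (z : ℂ) : gr (kk n) z = 2 * (kk' n z : ℂ) * z := by
  rw [← (hasDb_kk n z).db_eq, db_ofReal]
  exact (contDiff_kk n).differentiable (by norm_num) z

theorem exists_bound_kk' : ∃ C : ℝ, 0 ≤ C ∧ ∀ (n : ℕ) (z : ℂ), ‖z‖ < 1 →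
    |kk' n z * (‖z‖ ^ 2 * (1 - ‖z‖ ^ 2))| ≤ C := by
  obtain ⟨C, hC0, hC1, hC2⟩ := exists_bound_k'
  refine ⟨2 * C, by positivity, fun n z hz => ?_⟩
  rcases eq_or_ne z 0 with rfl | hz0
  · simp; exact hC0
  have ht : 0 < ‖z‖ ^ 2 := by positivity
  have ht1 : ‖z‖ ^ 2 < 1 := by
    have := norm_nonneg z
    nlinarith
  set t := ‖z‖ ^ 2 with htdef
  have a1 := hC1 n t ht
  have a2 := hC2 n t ht1
  have b1 : |k0' n t * k1 n t * (t * (1 - t))| ≤ C := by
    rw [abs_mul, abs_mul, abs_of_pos (show 0 < t * (1 - t) by nlinarith)]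
    calc |k0' n t| * |k1 n t| * (t * (1 - t)) = (|k0' n t| * t) * (|k1 n t| * (1 - t)) := by ring
      _ ≤ C * 1 := by
          apply mul_le_mul a1 _ (mul_nonneg (abs_nonneg _) (by linarith)) hC0
          exact mul_le_one₀ (abs_k1_le _ _) (by linarith) (by linarith)
      _ = C := mul_one C
  have b2 : |k0 n t * k1' n t * (t * (1 - t))| ≤ C := by
    rw [abs_mul, abs_mul, abs_of_pos (show 0 < t * (1 - t) by nlinarith)]
    calc |k0 n t| * |k1' n t| * (t * (1 - t)) = (|k1' n t| * (1 - t)) * (|k0 n t| * t) := by ring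
      _ ≤ C * 1 := by
          apply mul_le_mul a2 _ (mul_nonneg (abs_nonneg _) (by linarith)) hC0
          exact mul_le_one₀ (abs_k0_le _ _) (by linarith) (by linarith)
      _ = C := mul_one C
  calc |kk' n z * (t * (1 - t))| = |k0' n t * k1 n t * (t * (1 - t)) + k0 n t * k1' n t * (t * (1 - t))| := by
        rw [kk', ← htdef]; ring_nf
    _ ≤ C + C := (abs_add_le _ _).trans (add_le_add b1 b2)
    _ = 2 * C := by ring

theorem eventually_kk {z : ℂ} (hz : z ≠ 0) (hz1 : ‖z‖ < 1) :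
    ∀ᶠ n : ℕ in atTop, kk n z = 1 ∧ kk' n z = 0 := by
  have ht : 0 < ‖z‖ ^ 2 := by positivity
  have ht1 : ‖z‖ ^ 2 < 1 := by
    have := norm_nonneg z
    nlinarith
  filter_upwards [eventually_k0_eq_one ht, eventually_k1_eq_one ht1] with n h0 h1
  simp [kk, kk', h0.1, h0.2, h1.1, h1.2]

theorem ae_ne_zero_disc : ∀ᵐ z ∂(volume.restrict (ball (0:ℂ) 1)), z ≠ 0 := by
  apply ae_restrict_of_ae
  rw [ae_iff]
  simp

theorem cutoff_limit {F H : ℂ → ℝ} (hF : IntegrableOn F (ball (0:ℂ) 1))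
    (hH : IntegrableOn H (ball (0:ℂ) 1))
    (h : ∀ n : ℕ, ∫ z in ball (0:ℂ) 1,
      (kk n z * F z + kk' n z * (‖z‖ ^ 2 * (1 - ‖z‖ ^ 2)) * H z) = 0) :
    ∫ z in ball (0:ℂ) 1, F z = 0 := by
  obtain ⟨C, hC0, hC⟩ := exists_bound_kk'
  have hlim : Tendsto (fun n : ℕ => ∫ z in ball (0:ℂ) 1,
      (kk n z * F z + kk' n z * (‖z‖ ^ 2 * (1 - ‖z‖ ^ 2)) * H z)) atTop
      (𝓝 (∫ z in ball (0:ℂ) 1, F z)) := by
    apply tendsto_integral_of_dominated_convergence (fun z => |F z| + C * |H z|)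
    · intro n
      apply AEStronglyMeasurable.add
      · exact (continuous_kk n).aestronglyMeasurable.mul hF.1
      · apply AEStronglyMeasurable.mul _ hH.1
        apply Continuous.aestronglyMeasurable
        exact (continuous_kk' n).mul (by fun_prop)
    · exact (hF.abs).add ((hH.abs).const_mul C)
    · intro n
      filter_upwards [ae_restrict_mem measurableSet_ball] with z hz
      have hz1 : ‖z‖ < 1 := by simpa using hz
      rw [Real.norm_eq_abs]
      refine (abs_add_le _ _).trans ?_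
      rw [abs_mul, abs_mul (kk' n z * _)]
      apply add_le_add
      · exact mul_le_of_le_one_left (abs_nonneg _) (abs_kk_le n z)
      · exact mul_le_mul_of_nonneg_right (hC n z hz1) (abs_nonneg _)
    · filter_upwards [ae_restrict_mem measurableSet_ball, ae_ne_zero_disc] with z hz hz0
      have hz1 : ‖z‖ < 1 := by simpa using hz
      apply tendsto_const_nhds.congr'
      filter_upwards [eventually_kk hz0 hz1] with n hn
      simp [hn.1, hn.2]
  have h0 : Tendsto (fun n : ℕ => ∫ z in ball (0:ℂ) 1,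
      (kk n z * F z + kk' n z * (‖z‖ ^ 2 * (1 - ‖z‖ ^ 2)) * H z)) atTop (𝓝 0) := by
    simp_rw [h]
    exact tendsto_const_nhds
  exact tendsto_nhds_unique hlim h0

/-- punctured disc -/
def D0 : Set ℂ := ball (0:ℂ) 1 \ {0}

theorem isOpen_D0 : IsOpen D0 := isOpen_ball.sdiff isClosed_singleton

theorem mem_D0 {z : ℂ} : z ∈ D0 ↔ ‖z‖ < 1 ∧ z ≠ 0 := by simp [D0]

/-- the support of the cutoff is a compact subset of the punctured disc. -/
theorem kk_support (n : ℕ) : ∃ K : Set ℂ, IsCompact K ∧ K ⊆ D0 ∧ ∀ z, z ∉ K → kk n z = 0 := by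
  rcases Nat.eq_zero_or_pos n with rfl | hn
  · refine ⟨∅, isCompact_empty, empty_subset _, fun z _ => ?_⟩
    rw [kk, k0]
    rw [Real.smoothTransition.zero_of_nonpos (by simp)]
    simp
  have hn' : (0:ℝ) < n := by exact_mod_cast hn
  refine ⟨{z : ℂ | 1 / n ≤ ‖z‖ ^ 2 ∧ ‖z‖ ^ 2 ≤ 1 - 1 / n}, ?_, ?_, ?_⟩
  · apply IsCompact.of_isClosed_subset (isCompact_closedBall (0:ℂ) 1)
    · have hcn : Continuous (fun z : ℂ => ‖z‖ ^ 2) := by fun_prop
      exact (isClosed_le continuous_const hcn).inter (isClosed_le hcn continuous_const)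
    · intro z hz
      have h1 : ‖z‖ ^ 2 ≤ 1 - 1 / n := hz.2
      have h2 : 0 < 1 / (n:ℝ) := by positivity
      have h3 := norm_nonneg z
      simp only [mem_closedBall, dist_zero_right]
      nlinarith
  · intro z hz
    have h1 : ‖z‖ ^ 2 ≤ 1 - 1 / n := hz.2
    have h0 : 1 / (n:ℝ) ≤ ‖z‖ ^ 2 := hz.1
    have h2 : 0 < 1 / (n:ℝ) := by positivity
    have h3 := norm_nonneg z
    rw [mem_D0]
    refine ⟨by nlinarith, ?_⟩
    rintro rfl
    simp at h0
    linarith
  · intro z hz
    rw [mem_setOf_eq, not_and_or, not_le, not_le] at hz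
    rcases hz with hz | hz
    · have : k0 n (‖z‖ ^ 2) = 0 := by
        apply Real.smoothTransition.zero_of_nonpos
        rw [lt_div_iff₀ hn'] at hz
        linarith
      simp [kk, this]
    · have : k1 n (‖z‖ ^ 2) = 0 := by
        apply Real.smoothTransition.zero_of_nonpos
        have : 1 - ‖z‖ ^ 2 < 1 / n := by linarith
        rw [lt_div_iff₀ hn'] at this
        linarith
      simp [kk, this]

theorem tsupport_kk_mul_subset (n : ℕ) {E : Type*} [NormedAddCommGroup E] [NormedSpace ℝ E]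
    (G : ℂ → E) : tsupport (fun z => kk n z • G z) ⊆ D0 ∧
      HasCompactSupport (fun z => kk n z • G z) := by
  obtain ⟨K, hK, hKD, hz⟩ := kk_support n
  have hsub : Function.support (fun z => kk n z • G z) ⊆ K := by
    intro z h
    by_contra hzK
    apply h
    simp [hz z hzK]
  have ht : tsupport (fun z => kk n z • G z) ⊆ K := closure_minimal hsub hK.isClosed
  exact ⟨ht.trans hKD, HasCompactSupport.of_support_subset_isCompact hK hsub⟩

theorem contDiff_kk_smul (n : ℕ) {E : Type*} [NormedAddCommGroup E] [NormedSpace ℝ E]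
    {G : ℂ → E} {m : ℕ∞} (hG : ContDiffOn ℝ m G D0) : ContDiff ℝ m (fun z => kk n z • G z) := by
  rw [contDiff_iff_contDiffAt]
  intro x
  by_cases hx : x ∈ tsupport (fun z => kk n z • G z)
  swap
  · have he : (fun z => kk n z • G z) =ᶠ[𝓝 x] fun _ => 0 := by
      have := (isClosed_tsupport (fun z => kk n z • G z)).isOpen_compl.mem_nhds hx
      filter_upwards [this] with w hw
      exact image_eq_zero_of_notMem_tsupport (f := fun z => kk n z • G z) hw
    exact contDiffAt_const.congr_of_eventuallyEq he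
  have hx0 : x ∈ D0 := (tsupport_kk_mul_subset n G).1 hx
  have h1 : ContDiffAt ℝ m G x := hG.contDiffAt (isOpen_D0.mem_nhds hx0)
  have h2 : ContDiffAt ℝ m (kk n) x := ((contDiff_kk n).contDiffAt).of_le (by exact_mod_cast le_top)
  exact h2.smul h1

/-- Divergence lemma with singularity at `0` and only radial decay at the circle. -/
theorem integral_re_db_eq_zero {G : ℂ → ℂ} (hG : ContDiffOn ℝ 1 G D0)
    {H : ℂ → ℝ} (hH : IntegrableOn H (ball (0:ℂ) 1))
    (hGH : ∀ z ∈ D0, (G z * z).re = ‖z‖ ^ 2 * (1 - ‖z‖ ^ 2) * H z)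
    (hF : IntegrableOn (fun z => (db G z).re) (ball (0:ℂ) 1)) :
    ∫ z in ball (0:ℂ) 1, (db G z).re = 0 := by
  apply cutoff_limit hF (hH.const_mul 2)
  intro n
  have hc := tsupport_kk_mul_subset n G
  have hd : ContDiff ℝ 1 (fun z => kk n z • G z) := contDiff_kk_smul n (m := 1) hG
  have h0 := integral_db_eq_zero hd hc.2
  have hint := integrable_db hd hc.2
  have h1 : ∫ z, (db (fun z => kk n z • G z) z).re = 0 := by
    have := integral_re hint
    simp only [RCLike.re_to_complex] at this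
    rw [this, h0]; simp
  have h2 : ∫ z in ball (0:ℂ) 1, (db (fun z => kk n z • G z) z).re = 0 := by
    rw [setIntegral_eq_integral_of_forall_compl_eq_zero]
    · exact h1
    · intro z hz
      have hz' : z ∉ tsupport (fun z => kk n z • G z) := fun h => hz ((hc.1 h).1)
      have he : (fun z => kk n z • G z) =ᶠ[𝓝 z] fun _ => 0 := by
        have := (isClosed_tsupport (fun z => kk n z • G z)).isOpen_compl.mem_nhds hz'
        filter_upwards [this] with w hw
        exact image_eq_zero_of_notMem_tsupport (f := fun z => kk n z • G z) hw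
      rw [((hasDb_const 0 z).congr_eventuallyEq he).db_eq]
      simp
  rw [← h2]
  apply setIntegral_congr_ae measurableSet_ball
  have hae : ∀ᵐ z : ℂ, z ≠ 0 := by rw [ae_iff]; simp
  filter_upwards [hae] with z hz0 hz
  have hz1 : ‖z‖ < 1 := by simpa using hz
  have hzD : z ∈ D0 := mem_D0.2 ⟨hz1, hz0⟩
  have hGd : DifferentiableAt ℝ G z :=
    (hG.contDiffAt (isOpen_D0.mem_nhds hzD)).differentiableAt (by norm_num)
  have h3 := (hasDb_kk n z).mul (hasDb_of_differentiableAt hGd)
  have e : (fun z => kk n z • G z) = fun w => ((kk n w : ℝ) : ℂ) * G w := by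
    funext w; simp
  rw [e, h3.db_eq, add_re, re_ofReal_mul]
  have e2 : (G z * (2 * (kk' n z : ℂ) * z)).re = 2 * kk' n z * (G z * z).re := by
    have : G z * (2 * (kk' n z : ℂ) * z) = ((2 * kk' n z : ℝ) : ℂ) * (G z * z) := by
      push_cast; ring
    rw [this, re_ofReal_mul]
  rw [e2, hGH z hzD]
  ring

end Crest.Agent.R101.En
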