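import Crest.Agent.R101.EnA

/-! Row 101, part P5 (helper251): the cross-product lemma. -/

set_option autoImplicit false

open MeasureTheory Metric Set Filter Topology Complex
open scoped ContDiff ComplexConjugate

namespace Crest.Agent.R101.En

theorem hasDb_conj_gr {g : ℂ → ℝ} {z : ℂ} (hg : ContDiffAt ℝ 2 g z) :
    ∃ r : ℝ, HasDb (fun w => conj (gr g w)) (r : ℂ) z := by
  have h1 : ContDiffAt ℝ 1 (fderiv ℝ g) z := hg.fderiv_right (by norm_num)
  have h2 : HasFDerivAt (fderiv ℝ g) (fderiv ℝ (fderiv ℝ g) z) z :=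
    (h1.differentiableAt (by norm_num)).hasFDerivAt
  have hv : ∀ v : ℂ, HasFDerivAt (fun w => fderiv ℝ g w v)
      ((ContinuousLinearMap.apply ℝ ℝ v).comp (fderiv ℝ (fderiv ℝ g) z)) z := by
    intro v
    exact (ContinuousLinearMap.apply ℝ ℝ v).hasFDerivAt.comp z h2
  have hsymm : IsSymmSndFDerivAt ℝ g z := hg.isSymmSndFDerivAt (by simp)
  have hd1 := (hasDb_ofReal (hv 1).differentiableAt)
  have hd2 := (hasDb_ofReal (hv I).differentiableAt)
  have g1 : gr (fun w => fderiv ℝ g w 1) z = (fderiv ℝ (fderiv ℝ g) z 1 1 : ℝ) +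
      (fderiv ℝ (fderiv ℝ g) z I 1 : ℝ) * I := by
    rw [gr, (hv 1).fderiv]; simp
  have g2 : gr (fun w => fderiv ℝ g w I) z = (fderiv ℝ (fderiv ℝ g) z 1 I : ℝ) +
      (fderiv ℝ (fderiv ℝ g) z I I : ℝ) * I := by
    rw [gr, (hv I).fderiv]; simp
  refine ⟨fderiv ℝ (fderiv ℝ g) z 1 1 + fderiv ℝ (fderiv ℝ g) z I I, ?_⟩
  have h := hd1.sub (hd2.const_mul I)
  have e : (fun w => conj (gr g w)) = fun w => ((fderiv ℝ g w 1 : ℝ) : ℂ) - I * ((fderiv ℝ g w I : ℝ) : ℂ) := by
    funext w
    simp only [gr, map_add, map_mul, conj_ofReal, conj_I]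
    ring
  rw [e]
  convert h using 1
  rw [g1, g2, hsymm 1 I]
  push_cast
  have hI : I * I = -1 := I_mul_I
  linear_combination (((fderiv ℝ (fderiv ℝ g) z I I : ℝ) : ℂ)) * hI

theorem integral_cross_compact {W g : ℂ → ℝ} (hW : ContDiffOn ℝ 1 W D0) (hg : ContDiff ℝ 2 g)
    (hgs : tsupport g ⊆ D0) (hgc : HasCompactSupport g) :
    ∫ z in ball (0:ℂ) 1, (conj (gr W z) * gr g z).im = 0 := by
  have hgr0 : ∀ z, z ∉ tsupport g → gr g z = 0 := by
    intro z hz
    have he : g =ᶠ[𝓝 z] fun _ => 0 := by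
      have := (isClosed_tsupport g).isOpen_compl.mem_nhds hz
      filter_upwards [this] with w hw
      exact image_eq_zero_of_notMem_tsupport hw
    rw [gr, he.fderiv_eq]; simp
  have hgrC : ContDiff ℝ 1 (gr g) := by
    have h1 : ContDiff ℝ 1 (fderiv ℝ g) := hg.fderiv_right (by norm_num)
    have hv : ∀ v : ℂ, ContDiff ℝ 1 (fun w => fderiv ℝ g w v) := fun v =>
      h1.clm_apply contDiff_const
    unfold gr
    exact ((Complex.ofRealCLM.contDiff.comp (hv 1))).add
      ((Complex.ofRealCLM.contDiff.comp (hv I)).mul contDiff_const)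
  set G : ℂ → ℂ := fun z => I * ((W z : ℂ) * conj (gr g z)) with hGdef
  have hGsup : Function.support G ⊆ tsupport g := by
    intro z hz
    by_contra hzK
    apply hz
    simp [hGdef, hgr0 z hzK]
  have hGts : tsupport G ⊆ tsupport g := closure_minimal hGsup (isClosed_tsupport g)
  have hGc : HasCompactSupport G := HasCompactSupport.of_support_subset_isCompact hgc hGsup
  have hGC : ContDiff ℝ 1 G := by
    rw [contDiff_iff_contDiffAt]
    intro x
    by_cases hx : x ∈ tsupport g
    · have hx0 := hgs hx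
      have h1 : ContDiffAt ℝ 1 W x := hW.contDiffAt (isOpen_D0.mem_nhds hx0)
      have h2 : ContDiffAt ℝ 1 (fun z => (W z : ℂ)) x :=
        (Complex.ofRealCLM.contDiff.contDiffAt).comp x h1
      have h3 : ContDiffAt ℝ 1 (fun z => conj (gr g z)) x :=
        ((Complex.conjCLE.contDiff).comp hgrC).contDiffAt
      exact contDiffAt_const.mul (h2.mul h3)
    · have he : G =ᶠ[𝓝 x] fun _ => 0 := by
        have := (isClosed_tsupport g).isOpen_compl.mem_nhds hx
        filter_upwards [this] with w hw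
        by_contra hne
        exact hw (hGsup hne)
      exact contDiffAt_const.congr_of_eventuallyEq he
  have h0 := integral_db_eq_zero hGC hGc
  have hint := integrable_db hGC hGc
  have h1 : ∫ z, (db G z).re = 0 := by
    have := integral_re hint
    simp only [RCLike.re_to_complex] at this
    rw [this, h0]; simp
  have h2 : ∫ z in ball (0:ℂ) 1, (db G z).re = 0 := by
    rw [setIntegral_eq_integral_of_forall_compl_eq_zero]
    · exact h1
    · intro z hz
      have hz' : z ∉ tsupport G := fun h => hz ((hgs (hGts h)).1)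
      have he : G =ᶠ[𝓝 z] fun _ => 0 := by
        have := (isClosed_tsupport G).isOpen_compl.mem_nhds hz'
        filter_upwards [this] with w hw
        exact image_eq_zero_of_notMem_tsupport hw
      rw [((hasDb_const 0 z).congr_eventuallyEq he).db_eq]
      simp
  rw [← h2]
  apply setIntegral_congr_ae measurableSet_ball
  have hae : ∀ᵐ z : ℂ, z ≠ 0 := by rw [ae_iff]; simp
  filter_upwards [hae] with z hz0 hz
  have hz1 : ‖z‖ < 1 := by simpa using hz
  have hzD : z ∈ D0 := mem_D0.2 ⟨hz1, hz0⟩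
  have hWd : DifferentiableAt ℝ W z :=
    (hW.contDiffAt (isOpen_D0.mem_nhds hzD)).differentiableAt (by norm_num)
  obtain ⟨r, hr⟩ := hasDb_conj_gr (g := g) (z := z) hg.contDiffAt
  have h3 := ((hasDb_ofReal hWd).mul hr).const_mul I
  rw [h3.db_eq]
  have : I * ((W z : ℂ) * (r : ℂ) + conj (gr g z) * gr W z) =
    I * ((W z * r : ℝ) : ℂ) + I * (conj (gr g z) * gr W z) := by push_cast; ring
  rw [this, add_re]
  simp only [mul_re, mul_im, I_re, I_im, ofReal_re, ofReal_im, conj_re, conj_im]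
  ring

/-- `∫ {W, g} = 0` when `g` vanishes suitably at the circle and at `0`. -/
theorem integral_cross_eq_zero {W g : ℂ → ℝ} (hW : ContDiffOn ℝ 1 W D0) (hg : ContDiffOn ℝ 2 g D0)
    (hJ : IntegrableOn (fun z => (conj (gr W z) * gr g z).im) (ball (0:ℂ) 1))
    {H : ℂ → ℝ} (hH : IntegrableOn H (ball (0:ℂ) 1))
    (hgH : ∀ z ∈ D0, g z * (conj (gr W z) * z).im = ‖z‖ ^ 2 * (1 - ‖z‖ ^ 2) * H z) :
    ∫ z in ball (0:ℂ) 1, (conj (gr W z) * gr g z).im = 0 := by
  apply cutoff_limit hJ (hH.const_mul 2)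
  intro n
  have hc := tsupport_kk_mul_subset n g
  have hd : ContDiff ℝ 2 (fun z => kk n z • g z) := contDiff_kk_smul n (m := 2) hg
  have h2 := integral_cross_compact hW hd hc.1 hc.2
  rw [← h2]
  apply setIntegral_congr_ae measurableSet_ball
  have hae : ∀ᵐ z : ℂ, z ≠ 0 := by rw [ae_iff]; simp
  filter_upwards [hae] with z hz0 hz
  have hz1 : ‖z‖ < 1 := by simpa using hz
  have hzD : z ∈ D0 := mem_D0.2 ⟨hz1, hz0⟩
  have hgd : DifferentiableAt ℝ g z :=
    (hg.contDiffAt (isOpen_D0.mem_nhds hzD)).differentiableAt (by norm_num)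
  have hkd : DifferentiableAt ℝ (kk n) z := (contDiff_kk n).differentiable (by norm_num) z
  have e : gr (fun z => kk n z • g z) z = (kk n z : ℂ) * gr g z + (g z : ℂ) * (2 * (kk' n z : ℂ) * z) := by
    have := gr_mul hkd hgd
    rw [gr_kk] at this
    simpa [smul_eq_mul] using this
  rw [e, mul_add, add_im]
  have e1 : (conj (gr W z) * ((kk n z : ℂ) * gr g z)).im = kk n z * (conj (gr W z) * gr g z).im := by
    rw [← mul_assoc, mul_comm (conj (gr W z)) _, mul_assoc, im_ofReal_mul]
  have e2 : (conj (gr W z) * ((g z : ℂ) * (2 * (kk' n z : ℂ) * z))).im =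
      2 * kk' n z * (g z * (conj (gr W z) * z).im) := by
    have : conj (gr W z) * ((g z : ℂ) * (2 * (kk' n z : ℂ) * z)) =
      ((2 * kk' n z * g z : ℝ) : ℂ) * (conj (gr W z) * z) := by push_cast; ring
    rw [this, im_ofReal_mul]; ring
  rw [e1, e2, hgH z hzD]
  ring

end Crest.Agent.R101.En
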