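import Crest.Agent.R101.Defs

/-! Row 101, P5a: a `C¹` function of finite Dirichlet energy on the disc is square integrable. -/

set_option autoImplicit false

open MeasureTheory Metric Set Complex ComplexConjugate Filter Topology
open scoped ENNReal

namespace Crest.Agent.R101

namespace EnergyA

lemma g2_continuousOn {W : ℂ → ℝ} (hW : ContDiffOn ℝ 1 W (ball 0 1)) :
    ContinuousOn (g2 W) (ball 0 1) := by
  have h : ContinuousOn (fderiv ℝ W) (ball 0 1) :=
    hW.continuousOn_fderiv_of_isOpen isOpen_ball le_rfl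
  unfold g2 dx dy
  exact ((h.clm_apply continuousOn_const).pow 2).add ((h.clm_apply continuousOn_const).pow 2)

lemma sq_fderiv_le (W : ℂ → ℝ) (w z : ℂ) (hz : ‖z‖ ≤ 1) : (fderiv ℝ W w z) ^ 2 ≤ g2 W w := by
  have h1 : fderiv ℝ W w z = z.re * dx W w + z.im * dy W w := by
    have : z = (z.re : ℝ) • (1 : ℂ) + (z.im : ℝ) • I := by
      apply Complex.ext <;> simp
    conv_lhs => rw [this]
    rw [map_add, map_smul, map_smul]
    simp [dx, dy]
  rw [h1]
  have h2 : z.re ^ 2 + z.im ^ 2 ≤ 1 := by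
    have := Complex.sq_norm z
    rw [Complex.normSq_apply] at this
    nlinarith [norm_nonneg z]
  unfold g2
  nlinarith [sq_nonneg (z.re * dy W w - z.im * dx W w), sq_nonneg (dx W w), sq_nonneg (dy W w)]

lemma hasDerivAt_ray {W : ℂ → ℝ} (hW : ContDiffOn ℝ 1 W (ball 0 1)) {z : ℂ} (hz : z ∈ ball (0 : ℂ) 1)
    {t : ℝ} (ht0 : 0 ≤ t) (ht1 : t ≤ 1) :
    HasDerivAt (fun s : ℝ => W ((s : ℂ) * z)) (fderiv ℝ W ((t : ℂ) * z) z) t := by
  have hmem : (t : ℂ) * z ∈ ball (0 : ℂ) 1 := by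
    rw [mem_ball_zero_iff] at hz ⊢
    rw [norm_mul, Complex.norm_real, Real.norm_eq_abs, abs_of_nonneg ht0]
    nlinarith [norm_nonneg z]
  have h1 : HasFDerivAt W (fderiv ℝ W ((t : ℂ) * z)) ((t : ℂ) * z) :=
    ((hW.differentiableOn one_ne_zero).differentiableAt (isOpen_ball.mem_nhds hmem)).hasFDerivAt
  have h2 : HasDerivAt (fun s : ℝ => (s : ℂ) * z) z t := by
    have := (Complex.ofRealCLM.hasDerivAt (x := t)).mul_const z
    simpa using this
  exact h1.comp_hasDerivAt t h2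

/-- pointwise bound. -/
lemma pointwise {W : ℂ → ℝ} (hW : ContDiffOn ℝ 1 W (ball 0 1)) {z : ℂ} (hz : z ∈ ball (0 : ℂ) 1)
    {B : ℝ} (hB : ∀ w ∈ closedBall (0 : ℂ) (1 / 2), |W w| ≤ B) :
    W z ^ 2 ≤ 2 * B ^ 2 + ∫ t in (1 / 2 : ℝ)..1, g2 W ((t : ℂ) * z) := by
  have hmaps : ∀ t ∈ Icc (1 / 2 : ℝ) 1, (t : ℂ) * z ∈ ball (0 : ℂ) 1 := by
    intro t ht
    rw [mem_ball_zero_iff] at hz ⊢
    rw [norm_mul, Complex.norm_real, Real.norm_eq_abs, abs_of_nonneg (by linarith [ht.1])]
    nlinarith [norm_nonneg z, ht.1, ht.2]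
  have hcont : ContinuousOn (fun t : ℝ => (t : ℂ) * z) (Icc (1 / 2 : ℝ) 1) := by fun_prop
  have hf : ContinuousOn (fun t : ℝ => fderiv ℝ W ((t : ℂ) * z) z) (Icc (1 / 2 : ℝ) 1) := by
    have h : ContinuousOn (fderiv ℝ W) (ball 0 1) :=
      hW.continuousOn_fderiv_of_isOpen isOpen_ball le_rfl
    exact (h.comp hcont hmaps).clm_apply continuousOn_const
  have hg : ContinuousOn (fun t : ℝ => g2 W ((t : ℂ) * z)) (Icc (1 / 2 : ℝ) 1) :=
    (g2_continuousOn hW).comp hcont hmaps
  have hle : (1 / 2 : ℝ) ≤ 1 := by norm_num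
  have hf' : ContinuousOn (fun t : ℝ => fderiv ℝ W ((t : ℂ) * z) z) (uIcc (1 / 2 : ℝ) 1) := by
    rwa [uIcc_of_le hle]
  have hg' : ContinuousOn (fun t : ℝ => g2 W ((t : ℂ) * z)) (uIcc (1 / 2 : ℝ) 1) := by
    rwa [uIcc_of_le hle]
  have hftc : ∫ t in (1 / 2 : ℝ)..1, fderiv ℝ W ((t : ℂ) * z) z =
      W (((1 : ℝ) : ℂ) * z) - W (((1 / 2 : ℝ) : ℂ) * z) := by
    refine intervalIntegral.integral_eq_sub_of_hasDerivAt
      (f := fun t : ℝ => W ((t : ℂ) * z)) (f' := fun t : ℝ => fderiv ℝ W ((t : ℂ) * z) z) ?_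
      hf'.intervalIntegrable
    intro t ht
    rw [uIcc_of_le hle] at ht
    exact hasDerivAt_ray hW hz (by linarith [ht.1]) ht.2
  rw [Complex.ofReal_one, one_mul] at hftc
  have hWhalf : |W (((1 / 2 : ℝ) : ℂ) * z)| ≤ B := by
    apply hB
    rw [mem_closedBall_zero_iff, norm_mul, Complex.norm_real]
    rw [mem_ball_zero_iff] at hz
    norm_num
    linarith
  -- Cauchy-Schwarz
  set F := ∫ t in (1 / 2 : ℝ)..1, fderiv ℝ W ((t : ℂ) * z) z with hF
  set G := ∫ t in (1 / 2 : ℝ)..1, g2 W ((t : ℂ) * z) with hG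
  have hCS : F ^ 2 ≤ (1 / 2) * G := by
    have key : ∀ c : ℝ, 2 * c * F - c ^ 2 * (1 / 2) ≤ G := by
      intro c
      have h1 : 2 * c * F - c ^ 2 * (1 / 2) =
          ∫ t in (1 / 2 : ℝ)..1, (2 * c * (fderiv ℝ W ((t : ℂ) * z) z) - c ^ 2) := by
        rw [intervalIntegral.integral_sub, intervalIntegral.integral_const_mul,
          intervalIntegral.integral_const]
        · rw [← hF]; simp only [smul_eq_mul]; ring
        · exact (hf'.intervalIntegrable).const_mul _
        · exact intervalIntegrable_const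
      rw [h1, hG]
      refine intervalIntegral.integral_mono_on hle ?_ hg'.intervalIntegrable ?_
      · exact ((hf'.intervalIntegrable).const_mul _).sub intervalIntegrable_const
      · intro t ht
        have := sq_fderiv_le W ((t : ℂ) * z) z (by rw [mem_ball_zero_iff] at hz; exact hz.le)
        nlinarith [sq_nonneg (fderiv ℝ W ((t : ℂ) * z) z - c)]
    have := key (2 * F)
    nlinarith
  have hWz : W z = W (((1 / 2 : ℝ) : ℂ) * z) + F := by linarith
  have hb2 : (W (((1 / 2 : ℝ) : ℂ) * z)) ^ 2 ≤ B ^ 2 := by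
    rw [← sq_abs]
    exact pow_le_pow_left₀ (abs_nonneg _) hWhalf 2
  rw [hWz]
  nlinarith [sq_nonneg (W (((1 / 2 : ℝ) : ℂ) * z) - F)]

end EnergyA

open EnergyA in
/-- P5a (Poincare, file `EnergyA.lean`). -/
theorem sq_integrable {W : ℂ → ℝ} (hW : ContDiffOn ℝ 1 W (ball 0 1))
    (hen : IntegrableOn (g2 W) (ball 0 1)) : IntegrableOn (fun z => W z ^ 2) (ball 0 1) := by
  classical
  -- bound on the small ball
  obtain ⟨B, hB⟩ : ∃ B : ℝ, ∀ w ∈ closedBall (0 : ℂ) (1 / 2), |W w| ≤ B := by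
    have hsub : closedBall (0 : ℂ) (1 / 2) ⊆ ball 0 1 := closedBall_subset_ball (by norm_num)
    obtain ⟨B, hB⟩ := (isCompact_closedBall (0 : ℂ) (1 / 2)).exists_bound_of_continuousOn
      (hW.continuousOn.mono hsub)
    exact ⟨B, fun w hw => by simpa [Real.norm_eq_abs] using hB w hw⟩
  set G : ℂ → ℝ≥0∞ := (ball (0 : ℂ) 1).indicator (fun z => ENNReal.ofReal (g2 W z)) with hGdef
  have hGmeas : Measurable G := by
    have : ContinuousOn (fun z => ENNReal.ofReal (g2 W z)) (ball (0 : ℂ) 1) :=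
      ENNReal.continuous_ofReal.comp_continuousOn (g2_continuousOn hW)
    have h2 := this.measurable_piecewise (g := fun _ => (0 : ℝ≥0∞)) continuousOn_const
      measurableSet_ball
    rw [hGdef, ← Set.piecewise_eq_indicator]
    exact h2
  have hg0 : ∀ w, 0 ≤ g2 W w := fun w => by unfold g2; positivity
  have hGfin : ∫⁻ z, G z < ∞ := by
    rw [hGdef, lintegral_indicator measurableSet_ball]
    exact hen.lintegral_lt_top
  -- the main bound
  have hmain : ∀ z ∈ ball (0 : ℂ) 1, ENNReal.ofReal (W z ^ 2) ≤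
      ENNReal.ofReal (2 * B ^ 2) + ∫⁻ t in Icc (1 / 2 : ℝ) 1, G (t • z) := by
    intro z hz
    have h1 := pointwise hW hz hB
    have hle : (1 / 2 : ℝ) ≤ 1 := by norm_num
    have hmaps : ∀ t ∈ Icc (1 / 2 : ℝ) 1, (t : ℂ) * z ∈ ball (0 : ℂ) 1 := by
      intro t ht
      rw [mem_ball_zero_iff] at hz ⊢
      rw [norm_mul, Complex.norm_real, Real.norm_eq_abs, abs_of_nonneg (by linarith [ht.1])]
      nlinarith [norm_nonneg z, ht.1, ht.2]
    have hg : ContinuousOn (fun t : ℝ => g2 W ((t : ℂ) * z)) (Icc (1 / 2 : ℝ) 1) :=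
      (g2_continuousOn hW).comp (by fun_prop) hmaps
    refine (ENNReal.ofReal_le_ofReal h1).trans ?_
    rw [ENNReal.ofReal_add (by positivity)
      (intervalIntegral.integral_nonneg hle fun t _ => hg0 _)]
    gcongr
    rw [intervalIntegral.integral_of_le hle, ← integral_Icc_eq_integral_Ioc,
      ofReal_integral_eq_lintegral_ofReal (hg.integrableOn_Icc) (ae_of_all _ fun t => hg0 _)]
    refine le_of_eq (setLIntegral_congr_fun measurableSet_Icc fun t ht => ?_)
    simp only [hGdef]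
    rw [Complex.real_smul, indicator_of_mem (hmaps t ht)]
  have hfin : ∫⁻ z in ball (0 : ℂ) 1, ENNReal.ofReal (W z ^ 2) < ∞ := by
    calc ∫⁻ z in ball (0 : ℂ) 1, ENNReal.ofReal (W z ^ 2)
        ≤ ∫⁻ z in ball (0 : ℂ) 1, (ENNReal.ofReal (2 * B ^ 2) +
            ∫⁻ t in Icc (1 / 2 : ℝ) 1, G (t • z)) :=
          setLIntegral_mono' measurableSet_ball hmain
      _ = ENNReal.ofReal (2 * B ^ 2) * volume (ball (0 : ℂ) 1) +
            ∫⁻ z in ball (0 : ℂ) 1, ∫⁻ t in Icc (1 / 2 : ℝ) 1, G (t • z) := by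
          rw [lintegral_add_left measurable_const, setLIntegral_const]
      _ ≤ ENNReal.ofReal (2 * B ^ 2) * volume (ball (0 : ℂ) 1) +
            ∫⁻ t in Icc (1 / 2 : ℝ) 1, ∫⁻ z : ℂ, G (t • z) := by
          gcongr
          refine (setLIntegral_le_lintegral _ _).trans (le_of_eq ?_)
          rw [lintegral_lintegral_swap]
          refine (hGmeas.comp ?_).aemeasurable
          exact (measurable_snd.smul measurable_fst)
      _ ≤ ENNReal.ofReal (2 * B ^ 2) * volume (ball (0 : ℂ) 1) +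
            ∫⁻ t in Icc (1 / 2 : ℝ) 1, ENNReal.ofReal 4 * ∫⁻ z : ℂ, G z := by
          refine add_le_add le_rfl ?_
          refine setLIntegral_mono' measurableSet_Icc fun t ht => ?_
          have ht0 : t ≠ 0 := by have := ht.1; intro h; rw [h] at this; norm_num at this
          have hmap := Measure.map_addHaar_smul (volume : Measure ℂ) ht0
          have : ∫⁻ z : ℂ, G (t • z) = ∫⁻ z, G z ∂(Measure.map (fun z : ℂ => t • z) volume) := by
            rw [lintegral_map hGmeas (measurable_const_smul t)]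
          rw [this, hmap, lintegral_smul_measure, smul_eq_mul]
          gcongr
          rw [Complex.finrank_real_complex, abs_of_nonneg (by positivity)]
          have h14 : (1 / 2 : ℝ) ≤ t := ht.1
          rw [inv_le_comm₀ (by positivity) (by norm_num)]
          nlinarith
      _ < ∞ := by
          rw [setLIntegral_const, Real.volume_Icc]
          refine ENNReal.add_lt_top.2 ⟨ENNReal.mul_lt_top ENNReal.ofReal_lt_top measure_ball_lt_top, ?_⟩
          exact ENNReal.mul_lt_top (ENNReal.mul_lt_top ENNReal.ofReal_lt_top hGfin)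
            ENNReal.ofReal_lt_top
  refine ⟨((hW.continuousOn.pow 2).aestronglyMeasurable measurableSet_ball), ?_⟩
  rw [hasFiniteIntegral_iff_ofReal (ae_of_all _ fun z => sq_nonneg _)]
  exact hfin

end Crest.Agent.R101
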