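import Crest.Agent.R101.EnB
import Crest.Agent.R101.Defs
import Crest.Agent.R101.EnergyA
import Crest.Agent.Lib.InjHolo

/-! Row 101, part P5 (helper251): bounds, integrability on the disc, the `T` part and the cross
term of the energy identity. -/

set_option autoImplicit false

open MeasureTheory Metric Set Filter Topology Complex
open scoped ContDiff ComplexConjugate

namespace Crest.Agent.R101.En

open Crest.Agent.R101

theorem gr_eq (v : ℂ → ℝ) (z : ℂ) : gr v z = (dx v z : ℂ) + (dy v z : ℂ) * I := rfl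

theorem gr_re (v : ℂ → ℝ) (z : ℂ) : (gr v z).re = dx v z := by simp [gr_eq]
theorem gr_im (v : ℂ → ℝ) (z : ℂ) : (gr v z).im = dy v z := by simp [gr_eq]

theorem norm_gr_sq (v : ℂ → ℝ) (z : ℂ) : ‖gr v z‖ ^ 2 = g2 v z := by
  rw [← normSq_eq_norm_sq, normSq_apply, gr_re, gr_im, g2]; ring

theorem integrableOn_inv_norm : IntegrableOn (fun z : ℂ => ‖z‖⁻¹) (ball 0 1) := by
  have h := (integrableOn_fun_norm_addHaar (volume : Measure ℂ) (f := fun y : ℝ => y⁻¹) (r := 1)).2 ?_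
  · exact h
  · have : IntegrableOn (fun _ : ℝ => (1:ℝ)) (Ioo 0 1) := by
      apply integrableOn_const <;> simp
    apply this.congr_fun _ measurableSet_Ioo
    intro y hy
    have hy0 : y ≠ 0 := ne_of_gt hy.1
    simp [hy0]

theorem aesm_of_continuousOn {E : Type*} [NormedAddCommGroup E] {g : ℂ → E}
    (hg : ContinuousOn g D0) : AEStronglyMeasurable g (volume.restrict (ball (0:ℂ) 1)) := by
  have h1 : AEStronglyMeasurable g (volume.restrict D0) :=
    hg.aestronglyMeasurable isOpen_D0.measurableSet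
  have h2 : volume.restrict (ball (0:ℂ) 1) = volume.restrict D0 := by
    apply Measure.restrict_congr_set
    unfold D0
    exact (diff_null_ae_eq_self (by simp)).symm
  rw [h2]; exact h1

/-- integrability criterion on the disc. -/
theorem intOn {g H : ℂ → ℝ} (hg : ContinuousOn g D0) {r0 C : ℝ}
    (hH : IntegrableOn H (ball (0:ℂ) 1))
    (h0 : ∀ z ∈ D0, ‖z‖ < r0 → |g z| ≤ C / ‖z‖)
    (h1 : ∀ z ∈ D0, r0 ≤ ‖z‖ → |g z| ≤ H z) : IntegrableOn g (ball (0:ℂ) 1) := by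
  have hb : IntegrableOn (fun z : ℂ => |C| * ‖z‖⁻¹ + |H z|) (ball (0:ℂ) 1) :=
    (integrableOn_inv_norm.const_mul |C|).add hH.abs
  apply Integrable.mono' hb (aesm_of_continuousOn hg)
  filter_upwards [ae_restrict_mem measurableSet_ball, ae_ne_zero_disc] with z hz hz0
  have hz1 : ‖z‖ < 1 := by simpa using hz
  have hzD : z ∈ D0 := mem_D0.2 ⟨hz1, hz0⟩
  rw [Real.norm_eq_abs]
  have hzn : 0 < ‖z‖ := norm_pos_iff.2 hz0
  rcases lt_or_ge ‖z‖ r0 with h | h
  · have := h0 z hzD h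
    have h2 : C / ‖z‖ ≤ |C| * ‖z‖⁻¹ := by
      rw [div_eq_mul_inv]
      exact mul_le_mul_of_nonneg_right (le_abs_self C) (by positivity)
    have h3 := abs_nonneg (H z)
    linarith
  · have := h1 z hzD h
    have h2 := le_abs_self (H z)
    have h3 : 0 ≤ |C| * ‖z‖⁻¹ := by positivity
    linarith

/-! ### The function `M` -/

section M

variable {β z : ℂ}

theorem hasDerivAt_MM (hz : z ≠ 0) : HasDerivAt (MM β) (MM' β z) z := by
  have h1 : HasDerivAt (fun ζ : ℂ => β / ζ) (-β / z ^ 2) z := by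
    have h := (hasDerivAt_inv hz).const_mul β
    have e : β * -(z ^ 2)⁻¹ = -β / z ^ 2 := by rw [div_eq_mul_inv]; ring
    rw [e] at h
    simpa only [div_eq_mul_inv] using h
  have h2 : HasDerivAt (fun ζ : ℂ => conj β * ζ) (conj β) z := by
    simpa using (hasDerivAt_id z).const_mul (conj β)
  exact h1.add h2

theorem hasDerivAt_MM' (hz : z ≠ 0) : HasDerivAt (MM' β) (2 * β / z ^ 3) z := by
  have h1 : HasDerivAt (fun ζ : ℂ => -β / ζ ^ 2) (2 * β / z ^ 3) z := by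
    have h := (hasDerivAt_pow 2 z).fun_inv (pow_ne_zero 2 hz)
    have h' := h.const_mul (-β)
    have e : -β * (-((2:ℕ) * z ^ (2 - 1)) / (z ^ 2) ^ 2) = 2 * β / z ^ 3 := by
      field_simp
      push_cast
      ring
    rw [e] at h'
    simpa only [div_eq_mul_inv] using h'
  exact h1.add_const (conj β)

theorem RR_eq (hz : z ≠ 0) : RR β z = (β * conj z).im * ((1 - ‖z‖ ^ 2) / ‖z‖ ^ 2) := by
  have h1 : ‖z‖ ^ 2 = z.re * z.re + z.im * z.im := by
    rw [← normSq_eq_norm_sq, normSq_apply]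
  have h2 : z.re * z.re + z.im * z.im ≠ 0 := by
    rw [← normSq_apply]; simpa using hz
  rw [RR, MM, h1, add_im, div_im, normSq_apply]
  simp only [mul_im, conj_re, conj_im]
  generalize z.re * z.re + z.im * z.im = n at *
  field_simp
  ring

theorem norm_MM_le (hβ : ‖β‖ = 1) (hz : z ≠ 0) (hz1 : ‖z‖ ≤ 1) : ‖MM β z‖ ≤ 2 / ‖z‖ := by
  have hzn : 0 < ‖z‖ := norm_pos_iff.2 hz
  rw [MM]
  refine (norm_add_le _ _).trans ?_
  rw [norm_div, norm_mul, hβ, norm_conj, hβ, one_mul]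
  have : ‖z‖ ≤ 1 / ‖z‖ := by
    rw [le_div_iff₀ hzn]; nlinarith
  calc 1 / ‖z‖ + ‖z‖ ≤ 1 / ‖z‖ + 1 / ‖z‖ := by linarith
    _ = 2 / ‖z‖ := by ring

theorem norm_MM'_le (hβ : ‖β‖ = 1) (hz : z ≠ 0) (hz1 : ‖z‖ ≤ 1) : ‖MM' β z‖ ≤ 2 / ‖z‖ ^ 2 := by
  have hzn : 0 < ‖z‖ := norm_pos_iff.2 hz
  rw [MM']
  refine (norm_add_le _ _).trans ?_
  rw [norm_div, norm_neg, norm_pow, hβ, norm_conj, hβ]
  have : 1 ≤ 1 / ‖z‖ ^ 2 := by
    rw [le_div_iff₀ (by positivity)]
    have := pow_le_one₀ (n := 2) hzn.le hz1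
    linarith
  calc 1 / ‖z‖ ^ 2 + 1 ≤ 1 / ‖z‖ ^ 2 + 1 / ‖z‖ ^ 2 := by linarith
    _ = 2 / ‖z‖ ^ 2 := by ring

theorem abs_RR_le (hβ : ‖β‖ = 1) (hz : z ≠ 0) (hz1 : ‖z‖ ≤ 1) :
    |RR β z| ≤ (1 - ‖z‖ ^ 2) / ‖z‖ := by
  have hzn : 0 < ‖z‖ := norm_pos_iff.2 hz
  have h0 : 0 ≤ 1 - ‖z‖ ^ 2 := by
    have := pow_le_one₀ (n := 2) hzn.le hz1
    linarith
  rw [RR_eq hz, abs_mul, abs_of_nonneg (by positivity : 0 ≤ (1 - ‖z‖ ^ 2) / ‖z‖ ^ 2)]
  have h1 : |(β * conj z).im| ≤ ‖z‖ := by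
    refine (abs_im_le_norm _).trans ?_
    rw [norm_mul, hβ, norm_conj, one_mul]
  calc |(β * conj z).im| * ((1 - ‖z‖ ^ 2) / ‖z‖ ^ 2) ≤ ‖z‖ * ((1 - ‖z‖ ^ 2) / ‖z‖ ^ 2) :=
        mul_le_mul_of_nonneg_right h1 (by positivity)
    _ = (1 - ‖z‖ ^ 2) / ‖z‖ := by field_simp

theorem abs_RR_le' (hβ : ‖β‖ = 1) (hz : z ≠ 0) (hz1 : ‖z‖ ≤ 1) : |RR β z| ≤ 1 / ‖z‖ := by
  have hzn : 0 < ‖z‖ := norm_pos_iff.2 hz
  refine (abs_RR_le hβ hz hz1).trans ?_
  apply div_le_div_of_nonneg_right _ hzn.le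
  have : 0 ≤ ‖z‖ ^ 2 := by positivity
  linarith

theorem differentiableOn_MM : DifferentiableOn ℂ (MM β) D0 := fun _ hz =>
  (hasDerivAt_MM (mem_D0.1 hz).2).differentiableAt.differentiableWithinAt

theorem differentiableOn_MM' : DifferentiableOn ℂ (MM' β) D0 := fun _ hz =>
  (hasDerivAt_MM' (mem_D0.1 hz).2).differentiableAt.differentiableWithinAt

end M

/-- holomorphic functions on the punctured disc are real-smooth. -/
theorem contDiffOn_of_holo {F : ℂ → ℂ} (hF : DifferentiableOn ℂ F D0) (m : ℕ∞) :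
    ContDiffOn ℝ m F D0 :=
  (hF.contDiffOn isOpen_D0).restrict_scalars ℝ

theorem contDiffOn_RR (β : ℂ) (m : ℕ∞) : ContDiffOn ℝ m (RR β) D0 :=
  (Complex.imCLM.contDiff).comp_contDiffOn (contDiffOn_of_holo differentiableOn_MM m)

theorem contDiffOn_conj {F : ℂ → ℂ} {m : ℕ∞} (hF : ContDiffOn ℝ m F D0) :
    ContDiffOn ℝ m (fun z => conj (F z)) D0 :=
  (Complex.conjCLE.contDiff).comp_contDiffOn hF

theorem contDiffOn_ofReal {F : ℂ → ℝ} {m : ℕ∞} (hF : ContDiffOn ℝ m F D0) :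
    ContDiffOn ℝ m (fun z => (F z : ℂ)) D0 :=
  (Complex.ofRealCLM.contDiff).comp_contDiffOn hF

section conf

variable {φ : ℂ → ℂ}

theorem D0_sub : D0 ⊆ ball (0:ℂ) 1 := fun _ hz => hz.1

theorem conf_differentiableOn_D0 (h : Conf φ) : DifferentiableOn ℂ φ D0 := h.holo.mono D0_sub

theorem conf_deriv_differentiableOn (h : Conf φ) : DifferentiableOn ℂ (deriv φ) (ball 0 1) :=
  h.holo.deriv isOpen_ball

theorem conf_hasDerivAt (h : Conf φ) {z : ℂ} (hz : z ∈ ball (0:ℂ) 1) :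
    HasDerivAt φ (deriv φ z) z :=
  (h.holo.differentiableAt (isOpen_ball.mem_nhds hz)).hasDerivAt

theorem conf_hasDerivAt' (h : Conf φ) {z : ℂ} (hz : z ∈ ball (0:ℂ) 1) :
    HasDerivAt (deriv φ) (deriv (deriv φ) z) z :=
  ((conf_deriv_differentiableOn h).differentiableAt (isOpen_ball.mem_nhds hz)).hasDerivAt

theorem conf_norm_le (h : Conf φ) : ∃ C : ℝ, 0 < C ∧ ∀ z ∈ ball (0:ℂ) 1, ‖φ z‖ ≤ C * ‖z‖ := by
  obtain ⟨C, hC⟩ := h.bdd
  have hC0 : 0 ≤ C := (norm_nonneg _).trans (hC 0 (by simp))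
  refine ⟨C + 1, by linarith, fun z hz => ?_⟩
  have hm : MapsTo φ (ball 0 1) (closedBall (φ 0) (C + 1)) := by
    intro w hw
    rw [h.zero, mem_closedBall, dist_zero_right]
    have := hC w hw
    linarith
  have := Complex.dist_le_div_mul_dist_of_mapsTo_ball h.holo hm hz
  rw [h.zero] at this
  simpa using this

/-- near `0`, `φ'` is bounded. -/
theorem conf_deriv_bdd (h : Conf φ) {r : ℝ} (hr : r < 1) :
    ∃ C : ℝ, 0 < C ∧ ∀ z, ‖z‖ ≤ r → ‖deriv φ z‖ ≤ C := by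
  have hc : ContinuousOn (deriv φ) (closedBall 0 r) :=
    (conf_deriv_differentiableOn h).continuousOn.mono (closedBall_subset_ball hr)
  obtain ⟨C, hC⟩ := (isCompact_closedBall (0:ℂ) r).exists_bound_of_continuousOn hc
  refine ⟨|C| + 1, by positivity, fun z hz => ?_⟩
  have := hC z (by simpa using hz)
  linarith [le_abs_self C]

end conf

/-! ### The `T` part -/

section T

variable {φ : ℂ → ℂ} {β : ℂ}

/-- `T = i R conj(φ) φ'`. -/
noncomputable def TT (φ : ℂ → ℂ) (β z : ℂ) : ℂ := I * (RR β z : ℂ) * conj (φ z) * deriv φ z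

theorem hasDb_RR {z : ℂ} (hz : z ≠ 0) : HasDb (fun w => (RR β w : ℂ)) (I * conj (MM' β z)) z := by
  have h1 := hasDerivAt_MM (β := β) hz
  have hd : DifferentiableAt ℝ (RR β) z := by
    have := h1.differentiableAt.restrictScalars ℝ
    exact (Complex.imCLM.differentiableAt).comp z this
  have h2 := hasDb_ofReal hd
  have h3 := gr_im_of_hasDerivAt h1
  rw [show gr (RR β) z = gr (fun w => (MM β w).im) z from rfl, h3] at h2
  exact h2

theorem hasDb_TT (h : Conf φ) {z : ℂ} (hz : z ∈ D0) :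
    HasDb (TT φ β) (2 * I * (RR β z : ℂ) * (deriv φ z * conj (deriv φ z))
      - deriv φ z * conj (MM' β z * φ z)) z := by
  have hz0 := (mem_D0.1 hz).2
  have hzb : z ∈ ball (0:ℂ) 1 := hz.1
  have h1 := (hasDb_RR (β := β) hz0).const_mul I
  have h2 := h1.mul (hasDb_conj_of_hasDerivAt (conf_hasDerivAt h hzb))
  have h3 := h2.mul (hasDb_of_hasDerivAt (conf_hasDerivAt' h hzb))
  have hI : I * I = -1 := I_mul_I
  have e : I * (RR β z : ℂ) * conj (φ z) * 0 + deriv φ z * (I * (RR β z : ℂ) * (2 * conj (deriv φ z))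
      + conj (φ z) * (I * (I * conj (MM' β z)))) = 2 * I * (RR β z : ℂ) * (deriv φ z * conj (deriv φ z))
      - deriv φ z * conj (MM' β z * φ z) := by
    rw [map_mul]
    linear_combination (deriv φ z * conj (φ z) * conj (MM' β z)) * hI
  rw [← e]
  exact h3

theorem contDiffOn_phi (h : Conf φ) (m : ℕ∞) : ContDiffOn ℝ m φ D0 :=
  contDiffOn_of_holo (conf_differentiableOn_D0 h) m

theorem contDiffOn_dphi (h : Conf φ) (m : ℕ∞) : ContDiffOn ℝ m (deriv φ) D0 :=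
  contDiffOn_of_holo ((conf_deriv_differentiableOn h).mono D0_sub) m

theorem contDiffOn_TT (h : Conf φ) (m : ℕ∞) : ContDiffOn ℝ m (TT φ β) D0 := by
  unfold TT
  exact (((contDiffOn_const).mul (contDiffOn_ofReal (contDiffOn_RR β m))).mul
    (contDiffOn_conj (contDiffOn_phi h m))).mul (contDiffOn_dphi h m)

theorem norm_dphi_le (z : ℂ) : ‖deriv φ z‖ ≤ 1 + rho φ z := by
  rw [rho]
  nlinarith [sq_nonneg (‖deriv φ z‖ - 1), norm_nonneg (deriv φ z)]

theorem rho_nonneg (z : ℂ) : 0 ≤ rho φ z := by rw [rho]; positivity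

/-- bound for `T`. -/
theorem norm_TT_le (h : Conf φ) (hβ : ‖β‖ = 1) : ∃ C : ℝ, 0 < C ∧ ∀ z ∈ D0,
    ‖TT φ β z‖ ≤ C * ((1 - ‖z‖ ^ 2) * ‖deriv φ z‖) := by
  obtain ⟨C, hC, hb⟩ := conf_norm_le h
  refine ⟨C, hC, fun z hz => ?_⟩
  have hz0 := (mem_D0.1 hz).2
  have hz1 := (mem_D0.1 hz).1
  have hzn : 0 < ‖z‖ := norm_pos_iff.2 hz0
  have h1 := abs_RR_le hβ hz0 hz1.le
  have h2 := hb z hz.1
  rw [TT, norm_mul, norm_mul, norm_mul, norm_I, one_mul, norm_real, norm_conj, Real.norm_eq_abs]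
  have h3 : 0 ≤ (1 - ‖z‖ ^ 2) / ‖z‖ := (abs_nonneg _).trans h1
  calc |RR β z| * ‖φ z‖ * ‖deriv φ z‖ ≤ ((1 - ‖z‖ ^ 2) / ‖z‖ * (C * ‖z‖)) * ‖deriv φ z‖ :=
        mul_le_mul_of_nonneg_right (mul_le_mul h1 h2 (norm_nonneg _) h3) (norm_nonneg _)
    _ = C * ((1 - ‖z‖ ^ 2) * ‖deriv φ z‖) := by field_simp

theorem norm_dbT_le (h : Conf φ) (hβ : ‖β‖ = 1) : ∃ C : ℝ, 0 < C ∧ ∀ z ∈ D0,
    ‖2 * I * (RR β z : ℂ) * (deriv φ z * conj (deriv φ z)) - deriv φ z * conj (MM' β z * φ z)‖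
      ≤ C * ((rho φ z + ‖deriv φ z‖) / ‖z‖) := by
  obtain ⟨C, hC, hb⟩ := conf_norm_le h
  refine ⟨2 + 2 * C, by positivity, fun z hz => ?_⟩
  have hz0 := (mem_D0.1 hz).2
  have hz1 := (mem_D0.1 hz).1
  have hzn : 0 < ‖z‖ := norm_pos_iff.2 hz0
  have h1 := abs_RR_le' hβ hz0 hz1.le
  have h2 := hb z hz.1
  have h3 := norm_MM'_le hβ hz0 hz1.le
  have hρ : 0 ≤ rho φ z := rho_nonneg z
  refine (norm_sub_le _ _).trans ?_
  have e1 : ‖2 * I * (RR β z : ℂ) * (deriv φ z * conj (deriv φ z))‖ = 2 * |RR β z| * rho φ z := by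
    rw [norm_mul, norm_mul, norm_mul, norm_mul, norm_I, norm_real, norm_conj, rho, Real.norm_eq_abs,
      Complex.norm_two]
    ring
  have e2 : ‖deriv φ z * conj (MM' β z * φ z)‖ = ‖deriv φ z‖ * (‖MM' β z‖ * ‖φ z‖) := by
    rw [norm_mul, norm_conj, norm_mul]
  rw [e1, e2]
  have h4 : 2 * |RR β z| * rho φ z ≤ 2 * (1 / ‖z‖) * rho φ z :=
    mul_le_mul_of_nonneg_right (by linarith) hρ
  have h5 : ‖deriv φ z‖ * (‖MM' β z‖ * ‖φ z‖) ≤ ‖deriv φ z‖ * (2 / ‖z‖ ^ 2 * (C * ‖z‖)) :=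
    mul_le_mul_of_nonneg_left (mul_le_mul h3 h2 (norm_nonneg _) (by positivity)) (norm_nonneg _)
  have h6 : ‖deriv φ z‖ * (2 / ‖z‖ ^ 2 * (C * ‖z‖)) = 2 * C * (‖deriv φ z‖ / ‖z‖) := by
    field_simp
  have h7 : 2 * (1 / ‖z‖) * rho φ z = 2 * (rho φ z / ‖z‖) := by ring
  have h8 : 0 ≤ rho φ z / ‖z‖ := by positivity
  have h9 : 0 ≤ ‖deriv φ z‖ / ‖z‖ := by positivity
  rw [add_div]
  nlinarith [mul_nonneg hC.le h8]

/-- weighted divergence lemma used for both parts: `v` smooth, `c` a constant (`1` or `-I`). -/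
theorem TT_weak (h : Conf φ) (hβ : ‖β‖ = 1) {v : ℂ → ℝ} (hv : ContDiff ℝ ∞ v) {c : ℂ} (hc : ‖c‖ = 1) :
    IntegrableOn (fun z => (c * (TT φ β z * gr v z)).re) (ball (0:ℂ) 1) ∧
    IntegrableOn (fun z => (c * ((2 * I * (RR β z : ℂ) * (deriv φ z * conj (deriv φ z))
      - deriv φ z * conj (MM' β z * φ z)) * (v z : ℂ))).re) (ball (0:ℂ) 1) ∧
    ∫ z in ball (0:ℂ) 1, (c * (TT φ β z * gr v z)).re =
      - ∫ z in ball (0:ℂ) 1, (c * ((2 * I * (RR β z : ℂ) * (deriv φ z * conj (deriv φ z))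
      - deriv φ z * conj (MM' β z * φ z)) * (v z : ℂ))).re := by
  obtain ⟨C1, hC1, hT⟩ := norm_TT_le h hβ
  obtain ⟨C2, hC2, hdT⟩ := norm_dbT_le h hβ
  obtain ⟨C3, hC3, hd⟩ := conf_deriv_bdd h (r := 1 / 2) (by norm_num)
  -- bounds for `v` on the closed disc
  obtain ⟨V, hV⟩ := (isCompact_closedBall (0:ℂ) 1).exists_bound_of_continuousOn
    hv.continuous.continuousOn
  have hfc : Continuous (fderiv ℝ v) := hv.continuous_fderiv (by norm_num)
  have hgc : Continuous (gr v) := by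
    unfold gr
    exact (Complex.continuous_ofReal.comp (hfc.clm_apply continuous_const)).add
      ((Complex.continuous_ofReal.comp (hfc.clm_apply continuous_const)).mul continuous_const)
  obtain ⟨G, hG⟩ := (isCompact_closedBall (0:ℂ) 1).exists_bound_of_continuousOn hgc.continuousOn
  have hV0 : 0 ≤ V := (norm_nonneg _).trans (hV 0 (by simp))
  have hG0 : 0 ≤ G := (norm_nonneg _).trans (hG 0 (by simp))
  have hmem : ∀ z ∈ D0, z ∈ closedBall (0:ℂ) 1 := fun z hz => ball_subset_closedBall hz.1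
  have hTc : ContinuousOn (TT φ β) D0 := (contDiffOn_TT h 0).continuousOn
  have hdTc : ContinuousOn (fun z => 2 * I * (RR β z : ℂ) * (deriv φ z * conj (deriv φ z))
      - deriv φ z * conj (MM' β z * φ z)) D0 := by
    have h1 := (contDiffOn_dphi h 0).continuousOn
    have h2 := (contDiffOn_phi h 0).continuousOn
    have h3 := (contDiffOn_ofReal (contDiffOn_RR β 0)).continuousOn
    have h4 : ContinuousOn (MM' β) D0 := differentiableOn_MM'.continuousOn
    exact ((continuousOn_const.mul h3).mul (h1.mul (Complex.continuous_conj.comp_continuousOn h1))).sub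
      (h1.mul (Complex.continuous_conj.comp_continuousOn (h4.mul h2)))
  have hρi : IntegrableOn (fun z => 1 + rho φ z) (ball (0:ℂ) 1) := by
    apply Integrable.add _ h.rho_int
    apply integrableOn_const
    · exact measure_ball_lt_top.ne
    · simp
  have hrho : ∀ z ∈ D0, ‖z‖ < 1 / 2 → rho φ z ≤ C3 ^ 2 := by
    intro z _ hz
    rw [rho]
    exact pow_le_pow_left₀ (norm_nonneg _) (hd z hz.le) 2
  -- first integrand
  have i1 : IntegrableOn (fun z => (c * (TT φ β z * gr v z)).re) (ball (0:ℂ) 1) := by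
    refine intOn (H := fun z => C1 * G * (1 + rho φ z)) (r0 := 1 / 2) (C := C1 * C3 * G)
      ?_ ?_ ?_ ?_
    · exact Complex.continuous_re.comp_continuousOn
        (continuousOn_const.mul (hTc.mul hgc.continuousOn))
    · exact hρi.const_mul _
    · intro z hz hz2
      have hzn : 0 < ‖z‖ := norm_pos_iff.2 (mem_D0.1 hz).2
      have hz1 := (mem_D0.1 hz).1
      refine (abs_re_le_norm _).trans ?_
      rw [norm_mul, hc, one_mul, norm_mul]
      have a1 := hT z hz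
      have a2 := hG z (hmem z hz)
      have a3 := hd z hz2.le
      have a4 : (1 - ‖z‖ ^ 2) * ‖deriv φ z‖ ≤ 1 * C3 :=
        mul_le_mul (by nlinarith [sq_nonneg ‖z‖]) a3 (norm_nonneg _) (by norm_num)
      have a5 : ‖TT φ β z‖ ≤ C1 * C3 := by
        refine a1.trans ?_
        nlinarith
      rw [le_div_iff₀ hzn]
      have a6 : ‖TT φ β z‖ * ‖gr v z‖ ≤ C1 * C3 * G := mul_le_mul a5 a2 (norm_nonneg _) (by positivity)
      have a7 : 0 ≤ ‖TT φ β z‖ * ‖gr v z‖ := by positivity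
      nlinarith
    · intro z hz _
      have hz1 := (mem_D0.1 hz).1
      refine (abs_re_le_norm _).trans ?_
      rw [norm_mul, hc, one_mul, norm_mul]
      have a1 := hT z hz
      have a2 := hG z (hmem z hz)
      have a4 : (1 - ‖z‖ ^ 2) * ‖deriv φ z‖ ≤ 1 * (1 + rho φ z) :=
        mul_le_mul (by nlinarith [sq_nonneg ‖z‖]) (norm_dphi_le z) (norm_nonneg _) (by norm_num)
      have hρ0 := rho_nonneg (φ := φ) z
      have a5 : ‖TT φ β z‖ ≤ C1 * (1 + rho φ z) := by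
        refine a1.trans ?_
        nlinarith
      calc ‖TT φ β z‖ * ‖gr v z‖ ≤ C1 * (1 + rho φ z) * G :=
            mul_le_mul a5 a2 (norm_nonneg _) (by positivity)
        _ = C1 * G * (1 + rho φ z) := by ring
  have i2 : IntegrableOn (fun z => (c * ((2 * I * (RR β z : ℂ) * (deriv φ z * conj (deriv φ z))
      - deriv φ z * conj (MM' β z * φ z)) * (v z : ℂ))).re) (ball (0:ℂ) 1) := by
    refine intOn (H := fun z => 4 * C2 * V * (1 + rho φ z)) (r0 := 1 / 2)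
      (C := C2 * V * (C3 ^ 2 + C3)) ?_ ?_ ?_ ?_
    · exact Complex.continuous_re.comp_continuousOn
        (continuousOn_const.mul (hdTc.mul
          (Complex.continuous_ofReal.comp hv.continuous).continuousOn))
    · exact hρi.const_mul _
    · intro z hz hz2
      have hzn : 0 < ‖z‖ := norm_pos_iff.2 (mem_D0.1 hz).2
      refine (abs_re_le_norm _).trans ?_
      rw [norm_mul, hc, one_mul, norm_mul, norm_real]
      have a1 := hdT z hz
      have a2 := hV z (hmem z hz)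
      have a3 := hd z hz2.le
      have a4 := hrho z hz hz2
      have a5 : (rho φ z + ‖deriv φ z‖) / ‖z‖ ≤ (C3 ^ 2 + C3) / ‖z‖ :=
        div_le_div_of_nonneg_right (by linarith) hzn.le
      have a6 : C2 * ((rho φ z + ‖deriv φ z‖) / ‖z‖) ≤ C2 * ((C3 ^ 2 + C3) / ‖z‖) :=
        mul_le_mul_of_nonneg_left a5 hC2.le
      have a7 := a1.trans a6
      calc _ ≤ C2 * ((C3 ^ 2 + C3) / ‖z‖) * V := mul_le_mul a7 a2 (norm_nonneg _) (by positivity)
        _ = C2 * V * (C3 ^ 2 + C3) / ‖z‖ := by ring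
    · intro z hz hz2
      have hzn : 0 < ‖z‖ := norm_pos_iff.2 (mem_D0.1 hz).2
      refine (abs_re_le_norm _).trans ?_
      rw [norm_mul, hc, one_mul, norm_mul, norm_real]
      have a1 := hdT z hz
      have a2 := hV z (hmem z hz)
      have hρ0 := rho_nonneg (φ := φ) z
      have a3 := norm_dphi_le (φ := φ) z
      have a5 : (rho φ z + ‖deriv φ z‖) / ‖z‖ ≤ 4 * (1 + rho φ z) := by
        rw [div_le_iff₀ hzn]
        nlinarith [norm_nonneg (deriv φ z)]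
      have a6 : C2 * ((rho φ z + ‖deriv φ z‖) / ‖z‖) ≤ C2 * (4 * (1 + rho φ z)) :=
        mul_le_mul_of_nonneg_left a5 hC2.le
      have a7 := a1.trans a6
      calc _ ≤ C2 * (4 * (1 + rho φ z)) * V := mul_le_mul a7 a2 (norm_nonneg _) (by positivity)
        _ = 4 * C2 * V * (1 + rho φ z) := by ring
  refine ⟨i1, i2, ?_⟩
  -- the divergence lemma
  have hvd : ∀ z, DifferentiableAt ℝ v z := fun z => hv.differentiable (by norm_num) z
  have hdb : ∀ z ∈ D0, db (fun w => c * (TT φ β w * (v w : ℂ))) z =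
      c * (TT φ β z * gr v z) + c * ((2 * I * (RR β z : ℂ) * (deriv φ z * conj (deriv φ z))
      - deriv φ z * conj (MM' β z * φ z)) * (v z : ℂ)) := by
    intro z hz
    have := ((hasDb_TT (β := β) h hz).mul (hasDb_ofReal (hvd z))).const_mul c
    rw [this.db_eq]; ring
  have hae : ∀ᵐ z ∂(volume.restrict (ball (0:ℂ) 1)), z ∈ D0 := by
    filter_upwards [ae_restrict_mem measurableSet_ball, ae_ne_zero_disc] with z hz hz0
    exact ⟨hz, by simpa using hz0⟩
  have hsum : IntegrableOn (fun z => (db (fun w => c * (TT φ β w * (v w : ℂ))) z).re)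
      (ball (0:ℂ) 1) := by
    apply (i1.add i2).congr
    filter_upwards [hae] with z hz
    rw [hdb z hz, add_re]; rfl
  have hGC : ContDiffOn ℝ 1 (fun w => c * (TT φ β w * (v w : ℂ))) D0 :=
    contDiffOn_const.mul ((contDiffOn_TT h 1).mul
      (contDiffOn_ofReal ((hv.of_le (by norm_num)).contDiffOn)))
  have key := integral_re_db_eq_zero hGC
    (H := fun z => (c * (TT φ β z * (v z : ℂ)) * z).re / (‖z‖ ^ 2 * (1 - ‖z‖ ^ 2))) ?_ ?_ hsum
  · have e : ∫ z in ball (0:ℂ) 1, (db (fun w => c * (TT φ β w * (v w : ℂ))) z).re =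
        (∫ z in ball (0:ℂ) 1, (c * (TT φ β z * gr v z)).re) +
        ∫ z in ball (0:ℂ) 1, (c * ((2 * I * (RR β z : ℂ) * (deriv φ z * conj (deriv φ z))
      - deriv φ z * conj (MM' β z * φ z)) * (v z : ℂ))).re := by
      rw [← integral_add i1 i2]
      apply integral_congr_ae
      filter_upwards [hae] with z hz
      rw [hdb z hz, add_re]
    rw [e] at key
    linarith
  · refine intOn (H := fun z => 2 * C1 * V * (1 + rho φ z)) (r0 := 1 / 2) (C := C1 * V * C3)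
      ?_ ?_ ?_ ?_
    · apply ContinuousOn.div
      · exact Complex.continuous_re.comp_continuousOn
          ((continuousOn_const.mul (hTc.mul
            (Complex.continuous_ofReal.comp hv.continuous).continuousOn)).mul continuousOn_id)
      · fun_prop
      · intro z hz
        have hzn : 0 < ‖z‖ := norm_pos_iff.2 (mem_D0.1 hz).2
        have hz1 := (mem_D0.1 hz).1
        have : 0 < 1 - ‖z‖ ^ 2 := by nlinarith
        positivity
    · exact hρi.const_mul _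
    · intro z hz hz2
      have hzn : 0 < ‖z‖ := norm_pos_iff.2 (mem_D0.1 hz).2
      have hz1 := (mem_D0.1 hz).1
      have h1z : 0 < 1 - ‖z‖ ^ 2 := by nlinarith
      rw [abs_div, abs_of_pos (show 0 < ‖z‖ ^ 2 * (1 - ‖z‖ ^ 2) by positivity),
        div_le_div_iff₀ (by positivity) hzn]
      have b1 : |(c * (TT φ β z * (v z : ℂ)) * z).re| ≤ ‖TT φ β z‖ * ‖v z‖ * ‖z‖ := by
        refine (abs_re_le_norm _).trans ?_
        rw [norm_mul, norm_mul, hc, one_mul, norm_mul, norm_real]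
      have a1 := hT z hz
      have a2 := hV z (hmem z hz)
      have a3 := hd z hz2.le
      have a4 : ‖TT φ β z‖ ≤ C1 * ((1 - ‖z‖ ^ 2) * C3) :=
        a1.trans (mul_le_mul_of_nonneg_left (mul_le_mul_of_nonneg_left a3 h1z.le) hC1.le)
      have a5 : ‖TT φ β z‖ * ‖v z‖ ≤ C1 * ((1 - ‖z‖ ^ 2) * C3) * V :=
        mul_le_mul a4 a2 (norm_nonneg _) (by positivity)
      calc |(c * (TT φ β z * (v z : ℂ)) * z).re| * ‖z‖ ≤ ‖TT φ β z‖ * ‖v z‖ * ‖z‖ * ‖z‖ :=
            mul_le_mul_of_nonneg_right b1 hzn.le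
        _ ≤ C1 * ((1 - ‖z‖ ^ 2) * C3) * V * ‖z‖ * ‖z‖ := by gcongr
        _ = C1 * V * C3 * (‖z‖ ^ 2 * (1 - ‖z‖ ^ 2)) := by ring
    · intro z hz hz2
      have hzn : 0 < ‖z‖ := norm_pos_iff.2 (mem_D0.1 hz).2
      have hz1 := (mem_D0.1 hz).1
      have h1z : 0 < 1 - ‖z‖ ^ 2 := by nlinarith
      have hρ0 := rho_nonneg (φ := φ) z
      rw [abs_div, abs_of_pos (show 0 < ‖z‖ ^ 2 * (1 - ‖z‖ ^ 2) by positivity),
        div_le_iff₀ (by positivity)]
      have b1 : |(c * (TT φ β z * (v z : ℂ)) * z).re| ≤ ‖TT φ β z‖ * ‖v z‖ * ‖z‖ := by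
        refine (abs_re_le_norm _).trans ?_
        rw [norm_mul, norm_mul, hc, one_mul, norm_mul, norm_real]
      have a1 := hT z hz
      have a2 := hV z (hmem z hz)
      have a4 : ‖TT φ β z‖ ≤ C1 * ((1 - ‖z‖ ^ 2) * (1 + rho φ z)) :=
        a1.trans (mul_le_mul_of_nonneg_left (mul_le_mul_of_nonneg_left (norm_dphi_le z) h1z.le)
          hC1.le)
      have a5 : ‖TT φ β z‖ * ‖v z‖ ≤ C1 * ((1 - ‖z‖ ^ 2) * (1 + rho φ z)) * V :=
        mul_le_mul a4 a2 (norm_nonneg _) (by positivity)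
      calc |(c * (TT φ β z * (v z : ℂ)) * z).re| ≤ ‖TT φ β z‖ * ‖v z‖ * ‖z‖ := b1
        _ ≤ C1 * ((1 - ‖z‖ ^ 2) * (1 + rho φ z)) * V * ‖z‖ := by gcongr
        _ ≤ C1 * ((1 - ‖z‖ ^ 2) * (1 + rho φ z)) * V * (2 * ‖z‖ ^ 2) := by
            gcongr
            nlinarith
        _ = 2 * C1 * V * (1 + rho φ z) * (‖z‖ ^ 2 * (1 - ‖z‖ ^ 2)) := by ring
  · intro z hz
    have hzn : 0 < ‖z‖ := norm_pos_iff.2 (mem_D0.1 hz).2
    have hz1 := (mem_D0.1 hz).1
    have h1z : 0 < 1 - ‖z‖ ^ 2 := by nlinarith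
    field_simp

end T

end Crest.Agent.R101.En
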