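import Crest.Agent.R101.EnC

/-! Row 101, part P5 (helper251): the cross term of the energy identity. -/

set_option autoImplicit false

open MeasureTheory Metric Set Filter Topology Complex
open scoped ContDiff ComplexConjugate

namespace Crest.Agent.R101.En

open Crest.Agent.R101

variable {φ : ℂ → ℂ} {W : ℂ → ℝ} {μ c0 : ℝ} {β : ℂ}

/-- near-zero bounds. -/
theorem near (h : Conf φ) (hW : WSet φ W μ c0) : ∃ C r : ℝ, 0 < C ∧ 0 < r ∧ r < 1 ∧
    (∀ z ∈ ball (0:ℂ) 1, ‖φ z‖ ≤ C * ‖z‖) ∧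
    (∀ z : ℂ, ‖z‖ < r → ‖deriv φ z‖ ≤ C) ∧
    (∀ z : ℂ, ‖z‖ < r → |W z| ≤ C * ‖z‖ ^ 2) ∧
    (∀ z : ℂ, ‖z‖ < r → ‖gr W z‖ ≤ C * ‖z‖) := by
  obtain ⟨C1, hC1, h1⟩ := conf_norm_le h
  obtain ⟨C2, r, hr, hr1, h2⟩ := hW.growth
  obtain ⟨C3, hC3, h3⟩ := conf_deriv_bdd h hr1
  refine ⟨C1 + C3 + 2 * |C2|, r, by positivity, hr, hr1, ?_, ?_, ?_, ?_⟩
  · intro z hz
    refine (h1 z hz).trans (mul_le_mul_of_nonneg_right ?_ (norm_nonneg _))
    have := abs_nonneg C2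
    linarith
  · intro z hz
    refine (h3 z hz.le).trans ?_
    have := abs_nonneg C2
    linarith
  · intro z hz
    have := (h2 z (by simpa using hz)).1
    refine this.trans (mul_le_mul_of_nonneg_right ?_ (by positivity))
    have := abs_nonneg C2
    linarith [le_abs_self C2]
  · intro z hz
    obtain ⟨_, hx, hy⟩ := h2 z (by simpa using hz)
    have e : ‖gr W z‖ ≤ |dx W z| + |dy W z| := by
      have := Complex.norm_le_abs_re_add_abs_im (gr W z)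
      rwa [gr_re, gr_im] at this
    refine e.trans ?_
    have h4 : C2 * ‖z‖ ≤ |C2| * ‖z‖ := mul_le_mul_of_nonneg_right (le_abs_self _) (norm_nonneg _)
    have h5 : 0 ≤ (C1 + C3) * ‖z‖ := by positivity
    nlinarith

theorem Wcont (hW : WSet φ W μ c0) : ContinuousOn W D0 := hW.adm.c1.continuousOn.mono D0_sub

theorem grcont (hW : WSet φ W μ c0) : ContinuousOn (gr W) D0 := by
  have h1 : ContinuousOn (fderiv ℝ W) (ball 0 1) :=
    hW.adm.c1.continuousOn_fderiv_of_isOpen isOpen_ball le_rfl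
  have h2 : ContinuousOn (fderiv ℝ W) D0 := h1.mono D0_sub
  unfold gr
  exact (Complex.continuous_ofReal.comp_continuousOn (h2.clm_apply continuousOn_const)).add
    ((Complex.continuous_ofReal.comp_continuousOn (h2.clm_apply continuousOn_const)).mul
      continuousOn_const)

theorem intW (h : Conf φ) (hW : WSet φ W μ c0) (hL2 : IntegrableOn (fun z => W z ^ 2) (ball 0 1))
    {g : ℂ → ℝ} (hg : ContinuousOn g D0) {K : ℝ} (hK : 0 ≤ K)
    (hb : ∀ z ∈ D0, |g z| ≤ K * (|W z| * (‖deriv φ z‖ + rho φ z) / ‖z‖ ^ 2)) :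
    IntegrableOn g (ball (0:ℂ) 1) := by
  obtain ⟨C, r, hC, hr, hr1, h1, h2, h3, h4⟩ := near h hW
  refine intOn (H := fun z => K / r ^ 2 * (2 * rho φ z + (W z ^ 2 + rho φ z * W z ^ 2)))
    (r0 := r) (C := K * (C * (C + C ^ 2))) hg ?_ ?_ ?_
  · exact ((h.rho_int.const_mul 2).add (hL2.add hW.adm.l2)).const_mul _
  · intro z hz hz2
    have hzn : 0 < ‖z‖ := norm_pos_iff.2 (mem_D0.1 hz).2
    have hz1 := (mem_D0.1 hz).1
    refine (hb z hz).trans ?_
    have a1 := h3 z hz2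
    have a2 := h2 z hz2
    have a3 : rho φ z ≤ C ^ 2 := by rw [rho]; exact pow_le_pow_left₀ (norm_nonneg _) a2 2
    have a4 : |W z| * (‖deriv φ z‖ + rho φ z) ≤ C * ‖z‖ ^ 2 * (C + C ^ 2) :=
      mul_le_mul a1 (by linarith) (add_nonneg (norm_nonneg _) (rho_nonneg z)) (by positivity)
    have a5 : |W z| * (‖deriv φ z‖ + rho φ z) / ‖z‖ ^ 2 ≤ C * (C + C ^ 2) := by
      rw [div_le_iff₀ (by positivity)]
      calc _ ≤ _ := a4
        _ = _ := by ring
    calc _ ≤ K * (C * (C + C ^ 2)) := mul_le_mul_of_nonneg_left a5 hK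
      _ ≤ K * (C * (C + C ^ 2)) / ‖z‖ := by
          rw [le_div_iff₀ hzn]
          have : 0 ≤ K * (C * (C + C ^ 2)) := by positivity
          nlinarith
  · intro z hz hz2
    have hzn : 0 < ‖z‖ := norm_pos_iff.2 (mem_D0.1 hz).2
    refine (hb z hz).trans ?_
    have hρ := rho_nonneg (φ := φ) z
    have a1 : |W z| * ‖deriv φ z‖ ≤ rho φ z + W z ^ 2 := by
      rw [rho, ← sq_abs (W z)]
      nlinarith [sq_nonneg (|W z| - ‖deriv φ z‖), sq_nonneg (|W z|), sq_nonneg ‖deriv φ z‖]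
    have a2 : |W z| * rho φ z ≤ rho φ z + rho φ z * W z ^ 2 := by
      rw [← sq_abs (W z)]
      nlinarith [sq_nonneg (|W z| - 1), abs_nonneg (W z),
        mul_nonneg hρ (sq_nonneg (|W z| - 1)), mul_nonneg hρ (abs_nonneg (W z)),
        mul_nonneg hρ (sq_nonneg (|W z|))]
    have a3 : |W z| * (‖deriv φ z‖ + rho φ z) ≤ 2 * rho φ z + (W z ^ 2 + rho φ z * W z ^ 2) := by
      rw [mul_add]; linarith
    have a4 : r ^ 2 ≤ ‖z‖ ^ 2 := pow_le_pow_left₀ hr.le hz2 2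
    have a5 : 0 ≤ |W z| * (‖deriv φ z‖ + rho φ z) := by positivity
    calc K * (|W z| * (‖deriv φ z‖ + rho φ z) / ‖z‖ ^ 2)
        ≤ K * ((2 * rho φ z + (W z ^ 2 + rho φ z * W z ^ 2)) / r ^ 2) := by
          apply mul_le_mul_of_nonneg_left _ hK
          exact div_le_div₀ (a5.trans a3) a3 (by positivity) a4
      _ = K / r ^ 2 * (2 * rho φ z + (W z ^ 2 + rho φ z * W z ^ 2)) := by ring

/-- crude bound for `h'`. -/
theorem norm_hp_le (h : Conf φ) (hβ : ‖β‖ = 1) : ∃ C : ℝ, 0 < C ∧ ∀ z ∈ D0,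
    ‖hp φ β z‖ ≤ C * ((1 + ‖deriv φ z‖) / ‖z‖) := by
  obtain ⟨C, hC, hb⟩ := conf_norm_le h
  refine ⟨2 * C + 2, by positivity, fun z hz => ?_⟩
  have hz0 := (mem_D0.1 hz).2
  have hz1 := (mem_D0.1 hz).1
  have hzn : 0 < ‖z‖ := norm_pos_iff.2 hz0
  rw [hp]
  refine (norm_add_le _ _).trans ?_
  rw [norm_mul, norm_mul]
  have h1 : ‖MM' β z‖ * ‖φ z‖ ≤ 2 / ‖z‖ ^ 2 * (C * ‖z‖) :=
    mul_le_mul (norm_MM'_le hβ hz0 hz1.le) (hb z hz.1) (norm_nonneg _) (by positivity)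
  have h2 : ‖MM β z‖ * ‖deriv φ z‖ ≤ 2 / ‖z‖ * ‖deriv φ z‖ :=
    mul_le_mul_of_nonneg_right (norm_MM_le hβ hz0 hz1.le) (norm_nonneg _)
  have e : 2 / ‖z‖ ^ 2 * (C * ‖z‖) = 2 * C * (1 / ‖z‖) := by field_simp
  rw [e] at h1
  have h3 : 0 ≤ 1 / ‖z‖ := by positivity
  have h4 : 0 ≤ ‖deriv φ z‖ * (1 / ‖z‖) := by positivity
  have e2 : 2 / ‖z‖ * ‖deriv φ z‖ = 2 * (‖deriv φ z‖ * (1 / ‖z‖)) := by ring
  have e3 : (1 + ‖deriv φ z‖) / ‖z‖ = 1 / ‖z‖ + ‖deriv φ z‖ * (1 / ‖z‖) := by ring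
  rw [e2] at h2
  rw [e3]
  nlinarith [mul_nonneg hC.le h4]

theorem hasDerivAt_Mphi (h : Conf φ) {z : ℂ} (hz : z ∈ D0) :
    HasDerivAt (fun w => MM β w * φ w) (hp φ β z) z := by
  have := (hasDerivAt_MM (β := β) (mem_D0.1 hz).2).mul (conf_hasDerivAt h hz.1)
  rw [hp]
  exact this

theorem contDiffOn_MM (β : ℂ) (m : ℕ∞) : ContDiffOn ℝ m (MM β) D0 :=
  contDiffOn_of_holo differentiableOn_MM m

theorem contDiffOn_MM' (β : ℂ) (m : ℕ∞) : ContDiffOn ℝ m (MM' β) D0 :=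
  contDiffOn_of_holo differentiableOn_MM' m

theorem contDiffOn_hp (h : Conf φ) (β : ℂ) (m : ℕ∞) : ContDiffOn ℝ m (hp φ β) D0 := by
  unfold hp
  exact ((contDiffOn_MM' β m).mul (contDiffOn_phi h m)).add
    ((contDiffOn_MM β m).mul (contDiffOn_dphi h m))

/-- the cross density `X = conj(φ') R (M φ) (W_x - i W_y)`. -/
noncomputable def XX (φ : ℂ → ℂ) (W : ℂ → ℝ) (β z : ℂ) : ℂ :=
  conj (deriv φ z) * (RR β z : ℂ) * (MM β z * φ z) * conj (gr W z)

theorem intX (h : Conf φ) (hW : WSet φ W μ c0) (hβ : ‖β‖ = 1) :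
    IntegrableOn (fun z => (XX φ W β z).im) (ball (0:ℂ) 1) := by
  obtain ⟨C, r, hC, hr, hr1, h1, h2, h3, h4⟩ := near h hW
  have hb : ∀ z ∈ D0, |(XX φ W β z).im| ≤ 2 * C * (‖deriv φ z‖ * ‖gr W z‖ / ‖z‖) := by
    intro z hz
    have hz0 := (mem_D0.1 hz).2
    have hz1 := (mem_D0.1 hz).1
    have hzn : 0 < ‖z‖ := norm_pos_iff.2 hz0
    refine (abs_im_le_norm _).trans ?_
    rw [XX, norm_mul, norm_mul, norm_mul, norm_mul, norm_conj, norm_conj, norm_real,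
      Real.norm_eq_abs]
    have a1 := abs_RR_le' hβ hz0 hz1.le
    have a2 : ‖MM β z‖ * ‖φ z‖ ≤ 2 / ‖z‖ * (C * ‖z‖) :=
      mul_le_mul (norm_MM_le hβ hz0 hz1.le) (h1 z hz.1) (norm_nonneg _) (by positivity)
    have a3 : |RR β z| * (‖MM β z‖ * ‖φ z‖) ≤ 1 / ‖z‖ * (2 / ‖z‖ * (C * ‖z‖)) :=
      mul_le_mul a1 a2 (by positivity) (by positivity)
    have a4 : ‖deriv φ z‖ * ‖gr W z‖ * (|RR β z| * (‖MM β z‖ * ‖φ z‖)) ≤
        ‖deriv φ z‖ * ‖gr W z‖ * (1 / ‖z‖ * (2 / ‖z‖ * (C * ‖z‖))) :=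
      mul_le_mul_of_nonneg_left a3 (by positivity)
    calc ‖deriv φ z‖ * |RR β z| * (‖MM β z‖ * ‖φ z‖) * ‖gr W z‖
        = ‖deriv φ z‖ * ‖gr W z‖ * (|RR β z| * (‖MM β z‖ * ‖φ z‖)) := by ring
      _ ≤ _ := a4
      _ = 2 * C * (‖deriv φ z‖ * ‖gr W z‖ / ‖z‖) := by field_simp
  refine intOn (H := fun z => 2 * C / r * (rho φ z + g2 W z)) (r0 := r) (C := 2 * C * (C * C))
    ?_ ?_ ?_ ?_
  · unfold XX
    have h1 := (contDiffOn_dphi h 0).continuousOn
    have h2 := (contDiffOn_phi h 0).continuousOn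
    have h3 := (contDiffOn_ofReal (contDiffOn_RR β 0)).continuousOn
    have h4 := (contDiffOn_MM β 0).continuousOn
    exact Complex.continuous_im.comp_continuousOn
      ((((Complex.continuous_conj.comp_continuousOn h1).mul h3).mul (h4.mul h2)).mul
      (Complex.continuous_conj.comp_continuousOn (grcont hW)))
  · exact (h.rho_int.add hW.adm.en).const_mul _
  · intro z hz hz2
    have hzn : 0 < ‖z‖ := norm_pos_iff.2 (mem_D0.1 hz).2
    refine (hb z hz).trans ?_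
    have a1 : ‖deriv φ z‖ * ‖gr W z‖ ≤ C * (C * ‖z‖) :=
      mul_le_mul (h2 z hz2) (h4 z hz2) (norm_nonneg _) hC.le
    rw [← mul_div_assoc]
    apply div_le_div_of_nonneg_right _ hzn.le
    have hz1 := (mem_D0.1 hz).1
    calc 2 * C * (‖deriv φ z‖ * ‖gr W z‖) ≤ 2 * C * (C * (C * ‖z‖)) :=
          mul_le_mul_of_nonneg_left a1 (by positivity)
      _ ≤ 2 * C * (C * C) := by
          have : 0 < 2 * C * (C * C) := by positivity
          nlinarith
  · intro z hz hz2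
    have hzn : 0 < ‖z‖ := norm_pos_iff.2 (mem_D0.1 hz).2
    refine (hb z hz).trans ?_
    have a1 : ‖deriv φ z‖ * ‖gr W z‖ ≤ rho φ z + g2 W z := by
      rw [rho, ← norm_gr_sq]
      nlinarith [sq_nonneg (‖deriv φ z‖ - ‖gr W z‖), sq_nonneg (‖gr W z‖), sq_nonneg ‖deriv φ z‖]
    calc 2 * C * (‖deriv φ z‖ * ‖gr W z‖ / ‖z‖) ≤ 2 * C * ((rho φ z + g2 W z) / r) := by
          apply mul_le_mul_of_nonneg_left _ (by positivity)
          exact div_le_div₀ ((by positivity : 0 ≤ ‖deriv φ z‖ * ‖gr W z‖).trans a1) a1 hr hz2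
      _ = 2 * C / r * (rho φ z + g2 W z) := by ring

theorem int2 (h : Conf φ) (hW : WSet φ W μ c0) (hβ : ‖β‖ = 1)
    (hL2 : IntegrableOn (fun z => W z ^ 2) (ball 0 1)) :
    IntegrableOn (fun z => W z * (conj (deriv φ z) * MM' β z * (MM β z * φ z)).re)
      (ball (0:ℂ) 1) := by
  obtain ⟨C, hC, hb⟩ := conf_norm_le h
  refine intW h hW hL2 ?_ (K := 4 * C) (by positivity) ?_
  · have h1 := (contDiffOn_dphi h 0).continuousOn
    have h2 := (contDiffOn_phi h 0).continuousOn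
    have h4 := (contDiffOn_MM β 0).continuousOn
    have h5 := (contDiffOn_MM' β 0).continuousOn
    exact (Wcont hW).mul (Complex.continuous_re.comp_continuousOn
      (((Complex.continuous_conj.comp_continuousOn h1).mul h5).mul (h4.mul h2)))
  · intro z hz
    have hz0 := (mem_D0.1 hz).2
    have hz1 := (mem_D0.1 hz).1
    have hzn : 0 < ‖z‖ := norm_pos_iff.2 hz0
    have hρ := rho_nonneg (φ := φ) z
    rw [abs_mul]
    have a0 : |(conj (deriv φ z) * MM' β z * (MM β z * φ z)).re| ≤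
        ‖deriv φ z‖ * (‖MM' β z‖ * (‖MM β z‖ * ‖φ z‖)) := by
      refine (abs_re_le_norm _).trans ?_
      rw [norm_mul, norm_mul, norm_mul, norm_conj]
      exact le_of_eq (by ring)
    have a2 : ‖MM β z‖ * ‖φ z‖ ≤ 2 / ‖z‖ * (C * ‖z‖) :=
      mul_le_mul (norm_MM_le hβ hz0 hz1.le) (hb z hz.1) (norm_nonneg _) (by positivity)
    have a3 : ‖MM' β z‖ * (‖MM β z‖ * ‖φ z‖) ≤ 2 / ‖z‖ ^ 2 * (2 / ‖z‖ * (C * ‖z‖)) :=
      mul_le_mul (norm_MM'_le hβ hz0 hz1.le) a2 (by positivity) (by positivity)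
    have a4 : 2 / ‖z‖ ^ 2 * (2 / ‖z‖ * (C * ‖z‖)) = 4 * C / ‖z‖ ^ 2 := by field_simp; ring
    rw [a4] at a3
    calc |W z| * |(conj (deriv φ z) * MM' β z * (MM β z * φ z)).re|
        ≤ |W z| * (‖deriv φ z‖ * (4 * C / ‖z‖ ^ 2)) :=
          mul_le_mul_of_nonneg_left (a0.trans (mul_le_mul_of_nonneg_left a3 (norm_nonneg _)))
            (abs_nonneg _)
      _ = 4 * C * (|W z| * ‖deriv φ z‖ / ‖z‖ ^ 2) := by ring
      _ ≤ 4 * C * (|W z| * (‖deriv φ z‖ + rho φ z) / ‖z‖ ^ 2) := by gcongr; linarith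

theorem int3 (h : Conf φ) (hW : WSet φ W μ c0) (hβ : ‖β‖ = 1)
    (hL2 : IntegrableOn (fun z => W z ^ 2) (ball 0 1)) :
    IntegrableOn (fun z => W z * (RR β z * (conj (deriv φ z) * hp φ β z).im))
      (ball (0:ℂ) 1) := by
  obtain ⟨C, hC, hb⟩ := norm_hp_le h hβ
  refine intW h hW hL2 ?_ (K := C) (by positivity) ?_
  · have h1 := (contDiffOn_dphi h 0).continuousOn
    have h3 := (contDiffOn_RR β 0).continuousOn
    have h4 := (contDiffOn_hp h β 0).continuousOn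
    exact (Wcont hW).mul (h3.mul (Complex.continuous_im.comp_continuousOn
      ((Complex.continuous_conj.comp_continuousOn h1).mul h4)))
  · intro z hz
    have hz0 := (mem_D0.1 hz).2
    have hz1 := (mem_D0.1 hz).1
    have hzn : 0 < ‖z‖ := norm_pos_iff.2 hz0
    rw [abs_mul, abs_mul]
    have a0 : |(conj (deriv φ z) * hp φ β z).im| ≤
        ‖deriv φ z‖ * (C * ((1 + ‖deriv φ z‖) / ‖z‖)) := by
      refine (abs_im_le_norm _).trans ?_
      rw [norm_mul, norm_conj]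
      exact mul_le_mul_of_nonneg_left (hb z hz) (norm_nonneg _)
    have a1 := abs_RR_le' hβ hz0 hz1.le
    have a2 : |RR β z| * |(conj (deriv φ z) * hp φ β z).im| ≤
        1 / ‖z‖ * (‖deriv φ z‖ * (C * ((1 + ‖deriv φ z‖) / ‖z‖))) :=
      mul_le_mul a1 a0 (abs_nonneg _) (by positivity)
    calc |W z| * (|RR β z| * |(conj (deriv φ z) * hp φ β z).im|)
        ≤ |W z| * (1 / ‖z‖ * (‖deriv φ z‖ * (C * ((1 + ‖deriv φ z‖) / ‖z‖)))) :=
          mul_le_mul_of_nonneg_left a2 (abs_nonneg _)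
      _ = C * (|W z| * (‖deriv φ z‖ + rho φ z) / ‖z‖ ^ 2) := by rw [rho]; field_simp

/-- **Cross term.** -/
theorem cross_term (h : Conf φ) (hW : WSet φ W μ c0) (hβ : ‖β‖ = 1)
    (hL2 : IntegrableOn (fun z => W z ^ 2) (ball 0 1)) :
    ∫ z in ball (0:ℂ) 1, (XX φ W β z).im =
      (∫ z in ball (0:ℂ) 1, W z * (conj (deriv φ z) * MM' β z * (MM β z * φ z)).re)
      - 2 * ∫ z in ball (0:ℂ) 1, W z * (RR β z * (conj (deriv φ z) * hp φ β z).im) := by
  have i1 := intX h hW hβ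
  have i2 := int2 h hW hβ hL2
  have i3 := int3 h hW hβ hL2
  set G : ℂ → ℂ := fun z => I * (((RR β z : ℂ) * conj (MM β z * φ z)) * deriv φ z * (W z : ℂ))
    with hG
  have hdb : ∀ z ∈ D0, (db G z).re = (XX φ W β z).im
      - W z * (conj (deriv φ z) * MM' β z * (MM β z * φ z)).re
      + 2 * (W z * (RR β z * (conj (deriv φ z) * hp φ β z).im)) := by
    intro z hz
    have hz0 := (mem_D0.1 hz).2
    have hWd : DifferentiableAt ℝ W z :=
      (hW.adm.c1.contDiffAt (isOpen_ball.mem_nhds hz.1)).differentiableAt (by norm_num)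
    have h1 := ((((hasDb_RR (β := β) hz0).mul (hasDb_conj_of_hasDerivAt
      (hasDerivAt_Mphi (β := β) h hz))).mul (hasDb_of_hasDerivAt (conf_hasDerivAt' h hz.1))).mul
      (hasDb_ofReal hWd)).const_mul I
    rw [h1.db_eq, XX]
    simp only [mul_re, mul_im, add_re, add_im, conj_re, conj_im, I_re, I_im, ofReal_re, ofReal_im,
      zero_re, zero_im, re_ofNat, im_ofNat]
    ring
  have hae : ∀ᵐ z ∂(volume.restrict (ball (0:ℂ) 1)), z ∈ D0 := by
    filter_upwards [ae_restrict_mem measurableSet_ball, ae_ne_zero_disc] with z hz hz0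
    exact ⟨hz, by simpa using hz0⟩
  have hsum : IntegrableOn (fun z => (db G z).re) (ball (0:ℂ) 1) := by
    apply ((i1.sub i2).add (i3.const_mul 2)).congr
    filter_upwards [hae] with z hz
    rw [hdb z hz]; rfl
  have hGC : ContDiffOn ℝ 1 G D0 :=
    contDiffOn_const.mul ((((contDiffOn_ofReal (contDiffOn_RR β 1)).mul
      (contDiffOn_conj ((contDiffOn_MM β 1).mul (contDiffOn_phi h 1)))).mul
      (contDiffOn_dphi h 1)).mul (contDiffOn_ofReal (hW.adm.c1.mono D0_sub)))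
  have key := integral_re_db_eq_zero hGC
    (H := fun z => (G z * z).re / (‖z‖ ^ 2 * (1 - ‖z‖ ^ 2))) ?_ ?_ hsum
  · have e : ∫ z in ball (0:ℂ) 1, (db G z).re = (∫ z in ball (0:ℂ) 1, (XX φ W β z).im)
        - (∫ z in ball (0:ℂ) 1, W z * (conj (deriv φ z) * MM' β z * (MM β z * φ z)).re)
        + 2 * ∫ z in ball (0:ℂ) 1, W z * (RR β z * (conj (deriv φ z) * hp φ β z).im) := by
      have i12 : IntegrableOn (fun z => (XX φ W β z).im
          - W z * (conj (deriv φ z) * MM' β z * (MM β z * φ z)).re) (ball (0:ℂ) 1) := i1.sub i2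
      have i3' : IntegrableOn (fun z => 2 * (W z * (RR β z * (conj (deriv φ z) * hp φ β z).im)))
          (ball (0:ℂ) 1) := i3.const_mul 2
      rw [← integral_const_mul, ← integral_sub i1 i2, ← integral_add i12 i3']
      apply integral_congr_ae
      filter_upwards [hae] with z hz
      rw [hdb z hz]
    rw [e] at key
    linarith
  · obtain ⟨C, hC, hb⟩ := conf_norm_le h
    refine intW h hW hL2 ?_ (K := 2 * C) (by positivity) ?_
    · apply ContinuousOn.div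
      · exact Complex.continuous_re.comp_continuousOn (hGC.continuousOn.mul continuousOn_id)
      · fun_prop
      · intro z hz
        have hzn : 0 < ‖z‖ := norm_pos_iff.2 (mem_D0.1 hz).2
        have hz1 := (mem_D0.1 hz).1
        have : 0 < 1 - ‖z‖ ^ 2 := by nlinarith
        positivity
    · intro z hz
      have hz0 := (mem_D0.1 hz).2
      have hz1 := (mem_D0.1 hz).1
      have hzn : 0 < ‖z‖ := norm_pos_iff.2 hz0
      have h1z : 0 < 1 - ‖z‖ ^ 2 := by nlinarith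
      have hρ := rho_nonneg (φ := φ) z
      rw [abs_div, abs_of_pos (show 0 < ‖z‖ ^ 2 * (1 - ‖z‖ ^ 2) by positivity),
        div_le_iff₀ (by positivity)]
      refine (abs_re_le_norm _).trans ?_
      rw [hG]
      simp only [norm_mul, norm_I, norm_real, norm_conj, Real.norm_eq_abs, one_mul]
      have a1 := abs_RR_le hβ hz0 hz1.le
      have a2 : ‖MM β z‖ * ‖φ z‖ ≤ 2 / ‖z‖ * (C * ‖z‖) :=
        mul_le_mul (norm_MM_le hβ hz0 hz1.le) (hb z hz.1) (norm_nonneg _) (by positivity)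
      have a3 : |RR β z| * (‖MM β z‖ * ‖φ z‖) ≤ (1 - ‖z‖ ^ 2) / ‖z‖ * (2 / ‖z‖ * (C * ‖z‖)) :=
        mul_le_mul a1 a2 (by positivity) (by positivity)
      calc |RR β z| * (‖MM β z‖ * ‖φ z‖) * ‖deriv φ z‖ * |W z| * ‖z‖
          ≤ (1 - ‖z‖ ^ 2) / ‖z‖ * (2 / ‖z‖ * (C * ‖z‖)) * ‖deriv φ z‖ * |W z| * ‖z‖ := by gcongr
        _ = 2 * C * (|W z| * ‖deriv φ z‖ / ‖z‖ ^ 2) * (‖z‖ ^ 2 * (1 - ‖z‖ ^ 2)) := by
            field_simp
        _ ≤ 2 * C * (|W z| * (‖deriv φ z‖ + rho φ z) / ‖z‖ ^ 2) * (‖z‖ ^ 2 * (1 - ‖z‖ ^ 2)) := by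
            gcongr
            linarith
  · intro z hz
    have hzn : 0 < ‖z‖ := norm_pos_iff.2 (mem_D0.1 hz).2
    have hz1 := (mem_D0.1 hz).1
    have h1z : 0 < 1 - ‖z‖ ^ 2 := by nlinarith
    field_simp

end Crest.Agent.R101.En
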