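import Crest.Agent.R101.Defs
import Crest.Agent.Lib.InjHolo

/-! Row 101: the Dirichlet eigenvalue of the disc with weight `ρ` is at least the first positive
Neumann eigenvalue `μ` (Friedlander / Filonov trick with plane waves `e^{i √μ Re φ}`). -/

set_option autoImplicit false

open MeasureTheory Metric Set Complex ComplexConjugate Filter Topology
open scoped ContDiff

namespace Crest.Agent.R101

namespace FR

/-! ### Integration by parts on the disc -/

theorem continuous_of_mul {B G : ℂ → ℝ} (hB : Continuous B) (hs : tsupport B ⊆ ball 0 1)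
    (hG : ContinuousOn G (ball 0 1)) : Continuous (fun z => B z * G z) := by
  refine continuous_iff_continuousAt.2 fun z => ?_
  by_cases hz : z ∈ tsupport B
  · exact hB.continuousAt.mul (hG.continuousAt (isOpen_ball.mem_nhds (hs hz)))
  · have h1 : (fun z => B z * G z) =ᶠ[𝓝 z] fun _ => 0 := by
      have h2 : (tsupport B)ᶜ ∈ 𝓝 z := (isClosed_tsupport B).isOpen_compl.mem_nhds hz
      filter_upwards [h2] with w hw
      rw [image_eq_zero_of_notMem_tsupport hw, zero_mul]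
    exact (continuousAt_const (y := (0 : ℝ))).congr h1.symm

theorem integrable_mul {B G : ℂ → ℝ} (hB : Continuous B) (hc : HasCompactSupport B)
    (hs : tsupport B ⊆ ball 0 1)
    (hG : ContinuousOn G (ball 0 1)) : Integrable (fun z => B z * G z) :=
  (continuous_of_mul hB hs hG).integrable_of_hasCompactSupport hc.mul_right

theorem integral_ball_eq {B G : ℂ → ℝ} (hs : tsupport B ⊆ ball 0 1) :
    ∫ z in ball (0 : ℂ) 1, B z * G z = ∫ z, B z * G z := by
  refine setIntegral_eq_integral_of_forall_compl_eq_zero fun z hz => ?_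
  rw [image_eq_zero_of_notMem_tsupport (fun h => hz (hs h)), zero_mul]

/-- integration by parts: `B` compactly supported in the disc, `G` is `C¹` on the disc. -/
theorem ibp {B G : ℂ → ℝ} (hB : ContDiff ℝ 1 B) (hc : HasCompactSupport B)
    (hs : tsupport B ⊆ ball 0 1) (hG : ContDiffOn ℝ 1 G (ball 0 1)) (v : ℂ) :
    ∫ z in ball (0 : ℂ) 1, fderiv ℝ B z v * G z = - ∫ z in ball (0 : ℂ) 1, B z * fderiv ℝ G z v := by
  have hBc : Continuous B := hB.continuous
  have hdB : Continuous (fun z => fderiv ℝ B z v) :=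
    (hB.continuous_fderiv one_ne_zero).clm_apply continuous_const
  have hdBs : tsupport (fun z => fderiv ℝ B z v) ⊆ tsupport B :=
    (tsupport_fderiv_apply_subset ℝ v)
  have hdBc : HasCompactSupport (fun z => fderiv ℝ B z v) := hc.fderiv_apply ℝ v
  have hdG : ContinuousOn (fun z => fderiv ℝ G z v) (ball 0 1) :=
    (hG.continuousOn_fderiv_of_isOpen isOpen_ball le_rfl).clm_apply continuousOn_const
  rw [integral_ball_eq hs, integral_ball_eq (hdBs.trans hs)]
  have := integral_mul_fderiv_eq_neg_fderiv_mul_of_integrable (μ := (volume : Measure ℂ))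
    (f := B) (g := G) (v := v)
    (integrable_mul hdB hdBc (hdBs.trans hs) hG.continuousOn)
    (integrable_mul hBc hc hs hdG) (integrable_mul hBc hc hs hG.continuousOn)
    (fun x _ => (hB.differentiable one_ne_zero).differentiableAt)
    (fun x hx => (hG.differentiableOn one_ne_zero).differentiableAt (isOpen_ball.mem_nhds (hs hx)))
  linarith

/-! ### The energy form -/

theorem dx_lin {v w : ℂ → ℝ} {z : ℂ} (hv : DifferentiableAt ℝ v z) (hw : DifferentiableAt ℝ w z)
    (a b : ℝ) : dx (fun z => a * v z + b * w z) z = a * dx v z + b * dx w z := by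
  have := ((hv.hasFDerivAt.const_mul a).add (hw.hasFDerivAt.const_mul b)).fderiv
  simp only [dx]
  rw [show (fun z => a * v z + b * w z) = ((fun z => a * v z) + fun z => b * w z) from rfl]
  rw [show ((fun z => a * v z) + fun z => b * w z) = (fun z => a * v z) + fun z => b * w z from rfl]
    at this
  rw [this]; simp

theorem dy_lin {v w : ℂ → ℝ} {z : ℂ} (hv : DifferentiableAt ℝ v z) (hw : DifferentiableAt ℝ w z)
    (a b : ℝ) : dy (fun z => a * v z + b * w z) z = a * dy v z + b * dy w z := by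
  have := ((hv.hasFDerivAt.const_mul a).add (hw.hasFDerivAt.const_mul b)).fderiv
  simp only [dy]
  rw [show (fun z => a * v z + b * w z) = ((fun z => a * v z) + fun z => b * w z) from rfl]
  rw [this]; simp

theorem cont_rho {φ : ℂ → ℂ} (h : Conf φ) : ContinuousOn (rho φ) (ball 0 1) := by
  have h1 : ContinuousOn (deriv φ) (ball 0 1) := (h.holo.deriv isOpen_ball).continuousOn
  exact (h1.norm).pow 2

theorem cont_dx {v : ℂ → ℝ} (h : ContDiffOn ℝ 1 v (ball 0 1)) : ContinuousOn (dx v) (ball 0 1) :=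
  (h.continuousOn_fderiv_of_isOpen isOpen_ball le_rfl).clm_apply continuousOn_const

theorem cont_dy {v : ℂ → ℝ} (h : ContDiffOn ℝ 1 v (ball 0 1)) : ContinuousOn (dy v) (ball 0 1) :=
  (h.continuousOn_fderiv_of_isOpen isOpen_ball le_rfl).clm_apply continuousOn_const

theorem cont_g2 {v : ℂ → ℝ} (h : ContDiffOn ℝ 1 v (ball 0 1)) : ContinuousOn (g2 v) (ball 0 1) :=
  ((cont_dx h).pow 2).add ((cont_dy h).pow 2)

theorem cont_ip {v w : ℂ → ℝ} (hv : ContDiffOn ℝ 1 v (ball 0 1))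
    (hw : ContDiffOn ℝ 1 w (ball 0 1)) : ContinuousOn (ip v w) (ball 0 1) :=
  ((cont_dx hv).mul (cont_dx hw)).add ((cont_dy hv).mul (cont_dy hw))

theorem diffAt {v : ℂ → ℝ} (h : ContDiffOn ℝ 1 v (ball 0 1)) {z : ℂ} (hz : z ∈ ball (0 : ℂ) 1) :
    DifferentiableAt ℝ v z :=
  (h.differentiableOn one_ne_zero).differentiableAt (isOpen_ball.mem_nhds hz)

theorem int_ip {φ : ℂ → ℂ} {v w : ℂ → ℝ} (hv : Adm φ v) (hw : Adm φ w) :
    IntegrableOn (ip v w) (ball 0 1) := by
  refine Integrable.mono' (hv.en.add hw.en)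
    ((cont_ip hv.c1 hw.c1).aestronglyMeasurable measurableSet_ball) ?_
  refine ae_of_all _ fun z => ?_
  simp only [ip, Pi.add_apply, g2, Real.norm_eq_abs]
  rw [abs_le]
  constructor <;>
    nlinarith [sq_nonneg (dx v z + dx w z), sq_nonneg (dy v z + dy w z),
      sq_nonneg (dx v z - dx w z), sq_nonneg (dy v z - dy w z), sq_nonneg (dx v z),
      sq_nonneg (dy v z), sq_nonneg (dx w z), sq_nonneg (dy w z)]

theorem rho_nonneg (φ : ℂ → ℂ) (z : ℂ) : 0 ≤ rho φ z := sq_nonneg _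

theorem int_rho {φ : ℂ → ℂ} (hφ : Conf φ) {v w : ℂ → ℝ} (hv : Adm φ v) (hw : Adm φ w) :
    IntegrableOn (fun z => rho φ z * v z * w z) (ball 0 1) := by
  refine Integrable.mono' (hv.l2.add hw.l2)
    ((((cont_rho hφ).mul hv.c1.continuousOn).mul hw.c1.continuousOn).aestronglyMeasurable
      measurableSet_ball) ?_
  refine ae_of_all _ fun z => ?_
  have h0 := rho_nonneg φ z
  simp only [Pi.add_apply, Real.norm_eq_abs]
  rw [mul_assoc, abs_mul, abs_of_nonneg h0, ← mul_add]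
  refine mul_le_mul_of_nonneg_left ?_ h0
  rw [abs_le]
  constructor <;> nlinarith [sq_nonneg (v z + w z), sq_nonneg (v z - w z), sq_nonneg (v z),
    sq_nonneg (w z)]

theorem g2_lin {v w : ℂ → ℝ} (hv : ContDiffOn ℝ 1 v (ball 0 1))
    (hw : ContDiffOn ℝ 1 w (ball 0 1)) (a b : ℝ) {z : ℂ} (hz : z ∈ ball (0 : ℂ) 1) :
    g2 (fun z => a * v z + b * w z) z = a ^ 2 * g2 v z + 2 * (a * b) * ip v w z + b ^ 2 * g2 w z := by
  simp only [g2, ip, dx_lin (diffAt hv hz) (diffAt hw hz), dy_lin (diffAt hv hz) (diffAt hw hz)]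
  ring

theorem Adm_lin {φ : ℂ → ℂ} (hφ : Conf φ) {v w : ℂ → ℝ} (hv : Adm φ v) (hw : Adm φ w) (a b : ℝ) :
    Adm φ (fun z => a * v z + b * w z) where
  c1 := (contDiffOn_const.mul hv.c1).add (contDiffOn_const.mul hw.c1)
  l2 := by
    have h1 : IntegrableOn (fun z => a ^ 2 * (rho φ z * v z ^ 2) +
        2 * (a * b) * (rho φ z * v z * w z) + b ^ 2 * (rho φ z * w z ^ 2)) (ball 0 1) :=
      ((hv.l2.const_mul _).add ((int_rho hφ hv hw).const_mul _)).add (hw.l2.const_mul _)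
    refine h1.congr_fun (fun z _ => ?_) measurableSet_ball
    simp only; ring
  en := by
    have h1 : IntegrableOn (fun z => a ^ 2 * g2 v z + 2 * (a * b) * ip v w z + b ^ 2 * g2 w z)
        (ball 0 1) :=
      ((hv.en.const_mul _).add ((int_ip hv hw).const_mul _)).add (hw.en.const_mul _)
    exact h1.congr_fun (fun z hz => (g2_lin hv.c1 hw.c1 a b hz).symm) measurableSet_ball

/-- the quadratic form. -/
noncomputable def EE (φ : ℂ → ℂ) (μ : ℝ) (v w : ℂ → ℝ) : ℝ :=
  (∫ z in ball (0 : ℂ) 1, ip v w z) - μ * ∫ z in ball (0 : ℂ) 1, rho φ z * v z * w z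

theorem EE_self (φ : ℂ → ℂ) (μ : ℝ) (v : ℂ → ℝ) :
    EE φ μ v v = (∫ z in ball (0 : ℂ) 1, g2 v z) - μ * ∫ z in ball (0 : ℂ) 1, rho φ z * v z ^ 2 := by
  simp only [EE]
  congr 3
  · ext z; simp only [ip, g2]; ring
  · ext z; ring

theorem EE_comm (φ : ℂ → ℂ) (μ : ℝ) (v w : ℂ → ℝ) : EE φ μ v w = EE φ μ w v := by
  simp only [EE]
  congr 3
  · ext z; simp only [ip]; ring
  · ext z; ring

theorem EE_lin {φ : ℂ → ℂ} (hφ : Conf φ) (μ : ℝ) {v w u : ℂ → ℝ} (hv : Adm φ v) (hw : Adm φ w)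
    (hu : Adm φ u) (a b : ℝ) :
    EE φ μ (fun z => a * v z + b * w z) u = a * EE φ μ v u + b * EE φ μ w u := by
  have h1 : ∫ z in ball (0 : ℂ) 1, ip (fun z => a * v z + b * w z) u z =
      a * (∫ z in ball (0 : ℂ) 1, ip v u z) + b * ∫ z in ball (0 : ℂ) 1, ip w u z := by
    rw [← integral_const_mul, ← integral_const_mul, ← integral_add
      ((int_ip hv hu).const_mul _) ((int_ip hw hu).const_mul _)]
    refine setIntegral_congr_fun measurableSet_ball fun z hz => ?_
    simp only [ip, dx_lin (diffAt hv.c1 hz) (diffAt hw.c1 hz),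
      dy_lin (diffAt hv.c1 hz) (diffAt hw.c1 hz)]
    ring
  have h2 : ∫ z in ball (0 : ℂ) 1, rho φ z * (a * v z + b * w z) * u z =
      a * (∫ z in ball (0 : ℂ) 1, rho φ z * v z * u z) +
        b * ∫ z in ball (0 : ℂ) 1, rho φ z * w z * u z := by
    rw [← integral_const_mul, ← integral_const_mul, ← integral_add
      ((int_rho hφ hv hu).const_mul _) ((int_rho hφ hw hu).const_mul _)]
    refine setIntegral_congr_fun measurableSet_ball fun z hz => ?_
    ring
  simp only [EE]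
  rw [h1, h2]; ring

theorem EE_quad {φ : ℂ → ℂ} (hφ : Conf φ) (μ : ℝ) {v w : ℂ → ℝ} (hv : Adm φ v) (hw : Adm φ w)
    (a b : ℝ) :
    EE φ μ (fun z => a * v z + b * w z) (fun z => a * v z + b * w z) =
      a ^ 2 * EE φ μ v v + 2 * (a * b) * EE φ μ v w + b ^ 2 * EE φ μ w w := by
  have h := Adm_lin hφ hv hw a b
  rw [EE_lin hφ μ hv hw h, EE_comm φ μ v, EE_comm φ μ w, EE_lin hφ μ hv hw hv,
    EE_lin hφ μ hv hw hw, EE_comm φ μ w v]
  ring

/-! ### Waves `P (Re φ)` -/

/-- `X = Re φ`. -/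
noncomputable def XX (φ : ℂ → ℂ) (z : ℂ) : ℝ := (φ z).re

theorem hasFDerivAt_XX {φ : ℂ → ℂ} (h : DifferentiableOn ℂ φ (ball 0 1)) {z : ℂ}
    (hz : z ∈ ball (0 : ℂ) 1) :
    HasFDerivAt (XX φ) (reCLM.comp ((deriv φ z) • (1 : ℂ →L[ℝ] ℂ))) z := by
  have h1 : HasDerivAt φ (deriv φ z) z :=
    (h.differentiableAt (isOpen_ball.mem_nhds hz)).hasDerivAt
  exact reCLM.hasFDerivAt.comp z h1.complexToReal_fderiv

theorem contDiffOn_of_holo {f : ℂ → ℂ} (h : DifferentiableOn ℂ f (ball 0 1)) :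
    ContDiffOn ℝ 1 f (ball 0 1) :=
  ((h.contDiffOn isOpen_ball (n := 1)).restrict_scalars ℝ)

theorem contDiffOn_XX {φ : ℂ → ℂ} (h : DifferentiableOn ℂ φ (ball 0 1)) :
    ContDiffOn ℝ 1 (XX φ) (ball 0 1) :=
  reCLM.contDiff.comp_contDiffOn (contDiffOn_of_holo h)

theorem hasFDerivAt_wave {φ : ℂ → ℂ} (h : DifferentiableOn ℂ φ (ball 0 1)) {P : ℝ → ℝ} {P' : ℝ}
    {z : ℂ} (hz : z ∈ ball (0 : ℂ) 1) (hP : HasDerivAt P P' (XX φ z)) :
    HasFDerivAt (fun z => P (XX φ z)) (P' • reCLM.comp ((deriv φ z) • (1 : ℂ →L[ℝ] ℂ))) z :=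
  hP.comp_hasFDerivAt z (hasFDerivAt_XX h hz)

theorem dx_wave {φ : ℂ → ℂ} (h : DifferentiableOn ℂ φ (ball 0 1)) {P : ℝ → ℝ} {P' : ℝ}
    {z : ℂ} (hz : z ∈ ball (0 : ℂ) 1) (hP : HasDerivAt P P' (XX φ z)) :
    dx (fun z => P (XX φ z)) z = P' * (deriv φ z).re := by
  rw [dx, (hasFDerivAt_wave h hz hP).fderiv]; simp

theorem dy_wave {φ : ℂ → ℂ} (h : DifferentiableOn ℂ φ (ball 0 1)) {P : ℝ → ℝ} {P' : ℝ}
    {z : ℂ} (hz : z ∈ ball (0 : ℂ) 1) (hP : HasDerivAt P P' (XX φ z)) :
    dy (fun z => P (XX φ z)) z = - (P' * (deriv φ z).im) := by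
  rw [dy, (hasFDerivAt_wave h hz hP).fderiv]; simp

theorem rho_eq (φ : ℂ → ℂ) (z : ℂ) : rho φ z = (deriv φ z).re ^ 2 + (deriv φ z).im ^ 2 := by
  rw [rho, ← Complex.normSq_eq_norm_sq, Complex.normSq_apply]; ring

theorem ip_wave {φ : ℂ → ℂ} (h : DifferentiableOn ℂ φ (ball 0 1)) {P Q : ℝ → ℝ} {P' Q' : ℝ}
    {z : ℂ} (hz : z ∈ ball (0 : ℂ) 1) (hP : HasDerivAt P P' (XX φ z))
    (hQ : HasDerivAt Q Q' (XX φ z)) :
    ip (fun z => P (XX φ z)) (fun z => Q (XX φ z)) z = P' * Q' * rho φ z := by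
  rw [ip, dx_wave h hz hP, dy_wave h hz hP, dx_wave h hz hQ, dy_wave h hz hQ, rho_eq]; ring

theorem g2_wave {φ : ℂ → ℂ} (h : DifferentiableOn ℂ φ (ball 0 1)) {P : ℝ → ℝ} {P' : ℝ}
    {z : ℂ} (hz : z ∈ ball (0 : ℂ) 1) (hP : HasDerivAt P P' (XX φ z)) :
    g2 (fun z => P (XX φ z)) z = P' ^ 2 * rho φ z := by
  rw [g2, dx_wave h hz hP, dy_wave h hz hP, rho_eq]; ring

theorem int_rho_cont {φ : ℂ → ℂ} (hφ : Conf φ) {Q : ℝ → ℝ} (hQ : Continuous Q) :
    IntegrableOn (fun z => Q (XX φ z) * rho φ z) (ball 0 1) := by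
  obtain ⟨C, hC⟩ := hφ.bdd
  obtain ⟨K, hK⟩ := (isCompact_Icc (a := -C) (b := C)).exists_bound_of_continuousOn hQ.continuousOn
  have hX : ContinuousOn (XX φ) (ball 0 1) := (contDiffOn_XX hφ.holo).continuousOn
  refine Integrable.mono' (hφ.rho_int.const_mul K)
    (((hQ.comp_continuousOn hX).mul (cont_rho hφ)).aestronglyMeasurable measurableSet_ball) ?_
  refine (ae_restrict_iff' measurableSet_ball).2 (ae_of_all _ fun z hz => ?_)
  have h1 : XX φ z ∈ Icc (-C) C := by
    have := (Complex.abs_re_le_norm (φ z)).trans (hC z hz)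
    exact abs_le.1 this
  rw [norm_mul, Real.norm_eq_abs (rho φ z), abs_of_nonneg (rho_nonneg φ z)]
  exact mul_le_mul_of_nonneg_right (hK _ h1) (rho_nonneg φ z)

theorem Adm_wave {φ : ℂ → ℂ} (hφ : Conf φ) {P : ℝ → ℝ} (hP : ContDiff ℝ 1 P) :
    Adm φ (fun z => P (XX φ z)) where
  c1 := hP.comp_contDiffOn (contDiffOn_XX hφ.holo)
  l2 := by
    refine (int_rho_cont hφ (hP.continuous.pow 2)).congr_fun (fun z _ => ?_) measurableSet_ball
    simp only [Pi.pow_apply]; ring
  en := by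
    refine (int_rho_cont hφ ((hP.continuous_deriv le_rfl).pow 2)).congr_fun (fun z hz => ?_)
      measurableSet_ball
    exact (g2_wave hφ.holo hz
      ((hP.differentiable one_ne_zero).differentiableAt.hasDerivAt)).symm

theorem ip_B_wave {φ : ℂ → ℂ} (h : DifferentiableOn ℂ φ (ball 0 1)) {B : ℂ → ℝ}
    (hB : ContDiff ℝ 1 B) (hc : HasCompactSupport B)
    (hs : tsupport B ⊆ ball 0 1) {P P' P'' : ℝ → ℝ} (hP : ∀ t, HasDerivAt P (P' t) t)
    (hP' : ∀ t, HasDerivAt P' (P'' t) t) (hP'' : Continuous P'') :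
    ∫ z in ball (0 : ℂ) 1, ip B (fun z => P (XX φ z)) z =
      - ∫ z in ball (0 : ℂ) 1, B z * (P'' (XX φ z) * rho φ z) := by
  have hd : DifferentiableOn ℂ (deriv φ) (ball 0 1) := h.deriv isOpen_ball
  have hX : ContDiffOn ℝ 1 (XX φ) (ball 0 1) := contDiffOn_XX h
  have hP1 : ContDiff ℝ 1 P' := by
    rw [contDiff_one_iff_deriv]
    refine ⟨fun t => (hP' t).differentiableAt, ?_⟩
    rw [show deriv P' = P'' from funext fun t => (hP' t).deriv]
    exact hP''
  have hre : ContDiffOn ℝ 1 (fun z => (deriv φ z).re) (ball 0 1) :=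
    reCLM.contDiff.comp_contDiffOn (contDiffOn_of_holo hd)
  have him : ContDiffOn ℝ 1 (fun z => (deriv φ z).im) (ball 0 1) :=
    imCLM.contDiff.comp_contDiffOn (contDiffOn_of_holo hd)
  have hG1 : ContDiffOn ℝ 1 (fun z => P' (XX φ z) * (deriv φ z).re) (ball 0 1) :=
    (hP1.comp_contDiffOn hX).mul hre
  have hG2 : ContDiffOn ℝ 1 (fun z => -(P' (XX φ z) * (deriv φ z).im)) (ball 0 1) :=
    ((hP1.comp_contDiffOn hX).mul him).neg
  have e1 := ibp hB hc hs hG1 1
  have e2 := ibp hB hc hs hG2 I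
  have hdB1 : Continuous (fun z => fderiv ℝ B z 1) :=
    (hB.continuous_fderiv one_ne_zero).clm_apply continuous_const
  have hdB2 : Continuous (fun z => fderiv ℝ B z I) :=
    (hB.continuous_fderiv one_ne_zero).clm_apply continuous_const
  have i1 : IntegrableOn (fun z => fderiv ℝ B z 1 * (P' (XX φ z) * (deriv φ z).re)) (ball 0 1) :=
    (integrable_mul hdB1 (hc.fderiv_apply ℝ 1) ((tsupport_fderiv_apply_subset ℝ 1).trans hs)
      hG1.continuousOn).integrableOn
  have i2 : IntegrableOn (fun z => fderiv ℝ B z I * (-(P' (XX φ z) * (deriv φ z).im)))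
      (ball 0 1) :=
    (integrable_mul hdB2 (hc.fderiv_apply ℝ I) ((tsupport_fderiv_apply_subset ℝ I).trans hs)
      hG2.continuousOn).integrableOn
  have j1 : IntegrableOn (fun z => B z * fderiv ℝ (fun z => P' (XX φ z) * (deriv φ z).re) z 1)
      (ball 0 1) :=
    (integrable_mul hB.continuous hc hs
      ((hG1.continuousOn_fderiv_of_isOpen isOpen_ball le_rfl).clm_apply
        continuousOn_const)).integrableOn
  have j2 : IntegrableOn (fun z => B z * fderiv ℝ (fun z => -(P' (XX φ z) * (deriv φ z).im)) z I)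
      (ball 0 1) :=
    (integrable_mul hB.continuous hc hs
      ((hG2.continuousOn_fderiv_of_isOpen isOpen_ball le_rfl).clm_apply
        continuousOn_const)).integrableOn
  have e3 : ∫ z in ball (0 : ℂ) 1, ip B (fun z => P (XX φ z)) z =
      (∫ z in ball (0 : ℂ) 1, fderiv ℝ B z 1 * (P' (XX φ z) * (deriv φ z).re)) +
      ∫ z in ball (0 : ℂ) 1, fderiv ℝ B z I * (-(P' (XX φ z) * (deriv φ z).im)) := by
    rw [← integral_add i1 i2]
    refine setIntegral_congr_fun measurableSet_ball fun z hz => ?_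
    rw [ip, dx_wave h hz (hP _), dy_wave h hz (hP _), dx, dy]
  rw [e3, e1, e2, ← neg_add, ← integral_add j1 j2]
  congr 1
  refine setIntegral_congr_fun measurableSet_ball fun z hz => ?_
  have hd2 : HasDerivAt (deriv φ) (deriv (deriv φ) z) z :=
    (hd.differentiableAt (isOpen_ball.mem_nhds hz)).hasDerivAt
  have f1 := (hasFDerivAt_wave h hz (hP' (XX φ z))).mul
    (reCLM.hasFDerivAt.comp z hd2.complexToReal_fderiv)
  have f2 := ((hasFDerivAt_wave h hz (hP' (XX φ z))).mul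
    (imCLM.hasFDerivAt.comp z hd2.complexToReal_fderiv)).neg
  have g1 : fderiv ℝ (fun z => P' (XX φ z) * (deriv φ z).re) z 1 =
      P' (XX φ z) * (deriv (deriv φ) z).re + (deriv φ z).re * (P'' (XX φ z) * (deriv φ z).re) := by
    have : HasFDerivAt (fun z => P' (XX φ z) * (deriv φ z).re) _ z := f1
    rw [this.fderiv]; simp
  have g2 : fderiv ℝ (fun z => -(P' (XX φ z) * (deriv φ z).im)) z I =
      -(P' (XX φ z) * (deriv (deriv φ) z).re) + (deriv φ z).im * (P'' (XX φ z) * (deriv φ z).im) := by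
    have : HasFDerivAt (fun z => -(P' (XX φ z) * (deriv φ z).im)) _ z := f2
    rw [this.fderiv]; simp; ring
  rw [g1, g2, rho_eq]; ring

theorem rho_integral_pos {φ : ℂ → ℂ} (hφ : Conf φ) : 0 < ∫ z in ball (0 : ℂ) 1, rho φ z := by
  rw [setIntegral_pos_iff_support_of_nonneg_ae
    (ae_of_all _ fun z => rho_nonneg φ z) hφ.rho_int]
  have h1 : Function.support (rho φ) ∩ ball (0 : ℂ) 1 = ball 0 1 := by
    refine inter_eq_right.2 fun z hz => ?_
    have := Lib.deriv_ne_zero_of_injOn isOpen_ball hφ.holo hφ.inj hz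
    simp only [Function.mem_support, rho]
    positivity
  rw [h1]
  exact measure_ball_pos _ _ one_pos

theorem Adm_compact {φ : ℂ → ℂ} (hφ : Conf φ) {B : ℂ → ℝ}
    (hB : ContDiff ℝ 1 B) (hc : HasCompactSupport B) (hs : tsupport B ⊆ ball 0 1) : Adm φ B where
  c1 := hB.contDiffOn
  l2 := by
    have h1 := (integrable_mul hB.continuous hc hs
      ((cont_rho hφ).mul hB.continuous.continuousOn)).integrableOn (s := ball (0 : ℂ) 1)
    refine h1.congr_fun (fun z _ => ?_) measurableSet_ball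
    simp only [Pi.mul_apply]; ring
  en := by
    have hdB1 : Continuous (fun z => fderiv ℝ B z 1) :=
      (hB.continuous_fderiv one_ne_zero).clm_apply continuous_const
    have hdB2 : Continuous (fun z => fderiv ℝ B z I) :=
      (hB.continuous_fderiv one_ne_zero).clm_apply continuous_const
    have i1 := (integrable_mul hdB1 (hc.fderiv_apply ℝ 1)
      ((tsupport_fderiv_apply_subset ℝ 1).trans hs)
      hdB1.continuousOn).integrableOn (s := ball (0 : ℂ) 1)
    have i2 := (integrable_mul hdB2 (hc.fderiv_apply ℝ I)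
      ((tsupport_fderiv_apply_subset ℝ I).trans hs)
      hdB2.continuousOn).integrableOn (s := ball (0 : ℂ) 1)
    refine (i1.add i2).congr_fun (fun z _ => ?_) measurableSet_ball
    simp only [g2, dx, dy, Pi.add_apply]; ring

theorem EE_nonneg {φ : ℂ → ℂ} {U : ℂ → ℝ} {μ : ℝ} (h : Setting φ U μ) {v : ℂ → ℝ} (hv : Adm φ v)
    (h0 : ∫ z in ball (0 : ℂ) 1, rho φ z * v z = 0) : 0 ≤ EE φ μ v v := by
  rw [EE_self]; linarith [h.ray v hv h0]

theorem int_rho1 {φ : ℂ → ℂ} (hφ : Conf φ) {v : ℂ → ℝ} (hv : Adm φ v) :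
    IntegrableOn (fun z => rho φ z * v z) (ball 0 1) := by
  have h1 := int_rho hφ hv (Adm_wave hφ (P := fun _ => 1) contDiff_const)
  refine h1.congr_fun (fun z _ => ?_) measurableSet_ball
  simp

theorem hd_cos (k t : ℝ) : HasDerivAt (fun t => Real.cos (k * t)) (-(k * Real.sin (k * t))) t := by
  have h1 : HasDerivAt (fun t => k * t) k t := by
    simpa using (hasDerivAt_id' t).const_mul k
  have := h1.cos
  convert this using 1
  ring

theorem hd_sin (k t : ℝ) : HasDerivAt (fun t => Real.sin (k * t)) (k * Real.cos (k * t)) t := by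
  have h1 : HasDerivAt (fun t => k * t) k t := by
    simpa using (hasDerivAt_id' t).const_mul k
  have := h1.sin
  convert this using 1
  ring

/-- plane waves. -/
noncomputable def cc (φ : ℂ → ℂ) (k : ℝ) (z : ℂ) : ℝ := Real.cos (k * XX φ z)
/-- plane waves. -/
noncomputable def ss (φ : ℂ → ℂ) (k : ℝ) (z : ℂ) : ℝ := Real.sin (k * XX φ z)

theorem Adm_cc {φ : ℂ → ℂ} (hφ : Conf φ) (k : ℝ) : Adm φ (cc φ k) :=
  Adm_wave hφ (P := fun t => Real.cos (k * t)) (Real.contDiff_cos.comp (contDiff_const.mul contDiff_id))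

theorem Adm_ss {φ : ℂ → ℂ} (hφ : Conf φ) (k : ℝ) : Adm φ (ss φ k) :=
  Adm_wave hφ (P := fun t => Real.sin (k * t)) (Real.contDiff_sin.comp (contDiff_const.mul contDiff_id))

theorem EE_cc_add_ss {φ : ℂ → ℂ} (hφ : Conf φ) (k : ℝ) :
    EE φ (k ^ 2) (cc φ k) (cc φ k) + EE φ (k ^ 2) (ss φ k) (ss φ k) = 0 := by
  have hc := Adm_cc hφ k
  have hs := Adm_ss hφ k
  simp only [EE_self]
  rw [sub_add_sub_comm, ← mul_add, ← integral_add hc.en hs.en, ← integral_add hc.l2 hs.l2,
    ← integral_const_mul, sub_eq_zero]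
  refine setIntegral_congr_fun measurableSet_ball fun z hz => ?_
  have e1 : g2 (cc φ k) z = _ := g2_wave hφ.holo hz (hd_cos k (XX φ z))
  have e2 : g2 (ss φ k) z = _ := g2_wave hφ.holo hz (hd_sin k (XX φ z))
  simp only [e1, e2, cc, ss]
  ring

theorem EE_B_cc {φ : ℂ → ℂ} (hφ : Conf φ) (k : ℝ) {B : ℂ → ℝ}
    (hB : ContDiff ℝ 1 B) (hc : HasCompactSupport B) (hs : tsupport B ⊆ ball 0 1) :
    EE φ (k ^ 2) B (cc φ k) = 0 := by
  have h1 := ip_B_wave hφ.holo hB hc hs (P := fun t => Real.cos (k * t))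
    (P' := fun t => -(k * Real.sin (k * t))) (P'' := fun t => -(k * (k * Real.cos (k * t))))
    (fun t => hd_cos k t) (fun t => ((hd_sin k t).const_mul k).neg) (by fun_prop)
  rw [EE, show (∫ z in ball (0 : ℂ) 1, ip B (cc φ k) z) = _ from h1, ← integral_neg,
    ← integral_const_mul, sub_eq_zero]
  refine setIntegral_congr_fun measurableSet_ball fun z hz => ?_
  simp only [cc]; ring

theorem EE_B_ss {φ : ℂ → ℂ} (hφ : Conf φ) (k : ℝ) {B : ℂ → ℝ}
    (hB : ContDiff ℝ 1 B) (hc : HasCompactSupport B) (hs : tsupport B ⊆ ball 0 1) :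
    EE φ (k ^ 2) B (ss φ k) = 0 := by
  have h1 := ip_B_wave hφ.holo hB hc hs (P := fun t => Real.sin (k * t))
    (P' := fun t => (k * Real.cos (k * t))) (P'' := fun t => (k * (-(k * Real.sin (k * t)))))
    (fun t => hd_sin k t) (fun t => ((hd_cos k t).const_mul k)) (by fun_prop)
  rw [EE, show (∫ z in ball (0 : ℂ) 1, ip B (ss φ k) z) = _ from h1, ← integral_neg,
    ← integral_const_mul, sub_eq_zero]
  refine setIntegral_congr_fun measurableSet_ball fun z hz => ?_
  simp only [ss]; ring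

theorem EE_twist {φ : ℂ → ℂ} (hφ : Conf φ) (k : ℝ) :
    EE φ (k ^ 2) (ss φ k) (fun z => XX φ z * cc φ k z) -
      EE φ (k ^ 2) (cc φ k) (fun z => XX φ z * ss φ k z) = k * ∫ z in ball (0 : ℂ) 1, rho φ z := by
  have hc := Adm_cc hφ k
  have hs := Adm_ss hφ k
  have hxc : Adm φ (fun z => XX φ z * cc φ k z) :=
    Adm_wave hφ (P := fun t => t * Real.cos (k * t))
      (contDiff_id.mul (Real.contDiff_cos.comp (contDiff_const.mul contDiff_id)))
  have hxs : Adm φ (fun z => XX φ z * ss φ k z) :=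
    Adm_wave hφ (P := fun t => t * Real.sin (k * t))
      (contDiff_id.mul (Real.contDiff_sin.comp (contDiff_const.mul contDiff_id)))
  have i1 := int_ip hs hxc
  have i2 := int_ip hc hxs
  have j1 := int_rho hφ hs hxc
  have j2 := int_rho hφ hc hxs
  have e1 : ∫ z in ball (0 : ℂ) 1, rho φ z * ss φ k z * (XX φ z * cc φ k z) =
      ∫ z in ball (0 : ℂ) 1, rho φ z * cc φ k z * (XX φ z * ss φ k z) := by
    congr 1; ext z; ring
  simp only [EE]
  rw [e1, sub_sub_sub_cancel_right, ← integral_sub i1 i2, ← integral_const_mul]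
  refine setIntegral_congr_fun measurableSet_ball fun z hz => ?_
  have d1 : HasDerivAt (fun t => t * Real.cos (k * t))
      (1 * Real.cos (k * XX φ z) + XX φ z * -(k * Real.sin (k * XX φ z))) (XX φ z) :=
    (hasDerivAt_id' (XX φ z)).fun_mul (hd_cos k (XX φ z))
  have d2 : HasDerivAt (fun t => t * Real.sin (k * t))
      (1 * Real.sin (k * XX φ z) + XX φ z * (k * Real.cos (k * XX φ z))) (XX φ z) :=
    (hasDerivAt_id' (XX φ z)).fun_mul (hd_sin k (XX φ z))
  have f1 : ip (ss φ k) (fun z => XX φ z * cc φ k z) z = _ :=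
    ip_wave hφ.holo hz (hd_sin k (XX φ z)) d1
  have f2 : ip (cc φ k) (fun z => XX φ z * ss φ k z) z = _ :=
    ip_wave hφ.holo hz (hd_cos k (XX φ z)) d2
  simp only [f1, f2]
  have := Real.sin_sq_add_cos_sq (k * XX φ z)
  linear_combination (k * rho φ z) * this

end FR

open FR in
/-- the Dirichlet eigenvalue is at least `μ`. -/
theorem dirichlet_ge {φ : ℂ → ℂ} {U : ℂ → ℝ} {μ : ℝ} (h : Setting φ U μ) {B : ℂ → ℝ}
    (hB : ContDiff ℝ ∞ B) (hc : HasCompactSupport B) (hs : tsupport B ⊆ ball 0 1) :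
    μ * ∫ z in ball (0 : ℂ) 1, rho φ z * B z ^ 2 ≤ ∫ z in ball (0 : ℂ) 1, g2 B z := by
  have hφ := h.conf
  have hB1 : ContDiff ℝ 1 B := hB.of_le (by exact_mod_cast le_top)
  set k := Real.sqrt μ with hk
  have hk0 : 0 < k := Real.sqrt_pos.2 h.μpos
  have hk2 : k ^ 2 = μ := Real.sq_sqrt h.μpos.le
  have aB := Adm_compact hφ hB1 hc hs
  have ac := Adm_cc hφ k
  have as := Adm_ss hφ k
  have hsum := EE_cc_add_ss hφ k
  have hBc := EE_B_cc hφ k hB1 hc hs
  have hBs := EE_B_ss hφ k hB1 hc hs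
  rw [hk2] at hsum hBc hBs
  suffices hE : 0 ≤ EE φ μ B B by rw [EE_self] at hE; linarith
  set Ic := ∫ z in ball (0 : ℂ) 1, rho φ z * cc φ k z with hIc
  set Is := ∫ z in ball (0 : ℂ) 1, rho φ z * ss φ k z with hIs
  set IB := ∫ z in ball (0 : ℂ) 1, rho φ z * B z with hIB
  have lin : ∀ {v w : ℂ → ℝ} (_ : Adm φ v) (_ : Adm φ w) (a b : ℝ),
      ∫ z in ball (0 : ℂ) 1, rho φ z * (a * v z + b * w z) =
        a * (∫ z in ball (0 : ℂ) 1, rho φ z * v z) + b * ∫ z in ball (0 : ℂ) 1, rho φ z * w z := by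
    intro v w hv hw a b
    rw [← integral_const_mul, ← integral_const_mul, ← integral_add
      ((int_rho1 hφ hv).const_mul _) ((int_rho1 hφ hw).const_mul _)]
    congr 1; ext z; ring
  by_cases hI : Ic ^ 2 + Is ^ 2 = 0
  · exfalso
    have hIc0 : Ic = 0 := by nlinarith [sq_nonneg Ic, sq_nonneg Is]
    have hIs0 : Is = 0 := by nlinarith [sq_nonneg Ic, sq_nonneg Is]
    have hEc := EE_nonneg h ac hIc0
    have hEs := EE_nonneg h as hIs0
    have hEc0 : EE φ μ (cc φ k) (cc φ k) = 0 := by linarith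
    have hEs0 : EE φ μ (ss φ k) (ss φ k) = 0 := by linarith
    have a1 : Adm φ (fun _ => (1 : ℝ)) := Adm_wave hφ (P := fun _ => (1 : ℝ)) contDiff_const
    have hρ := rho_integral_pos hφ
    -- minimisers satisfy the weak equation
    have key : ∀ {e : ℂ → ℝ} (_ : Adm φ e) (_ : ∫ z in ball (0 : ℂ) 1, rho φ z * e z = 0)
        (_ : EE φ μ e e = 0) {v : ℂ → ℝ} (_ : Adm φ v), EE φ μ e v = 0 := by
      intro e ae he he0 v av
      set m := (∫ z in ball (0 : ℂ) 1, rho φ z * v z) / ∫ z in ball (0 : ℂ) 1, rho φ z with hm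
      have av0 : Adm φ (fun z => 1 * v z + (-m) * 1) := Adm_lin hφ av a1 1 (-m)
      have hv0 : ∫ z in ball (0 : ℂ) 1, rho φ z * (1 * v z + (-m) * 1) = 0 := by
        rw [lin av a1]
        simp only [mul_one, one_mul]
        rw [hm]; field_simp; ring
      have hE1 : EE φ μ e (fun _ => (1 : ℝ)) = 0 := by
        rw [EE]
        have t1 : ∫ z in ball (0 : ℂ) 1, ip e (fun _ => (1 : ℝ)) z = 0 := by
          have : ∀ z, ip e (fun _ => (1 : ℝ)) z = 0 := by
            intro z; simp [ip, dx, dy]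
          simp [this]
        have t2 : ∫ z in ball (0 : ℂ) 1, rho φ z * e z * 1 = 0 := by
          simpa using he
        rw [t1, t2]; ring
      have hEv : EE φ μ e (fun z => 1 * v z + (-m) * 1) = EE φ μ e v := by
        rw [EE_comm, EE_lin hφ μ av a1 ae, EE_comm, EE_comm φ μ _ e, hE1]; ring
      rw [← hEv]
      set v0 := (fun z => 1 * v z + (-m) * 1) with hv0'
      have hq : ∀ t : ℝ, 0 ≤ 2 * t * EE φ μ e v0 + t ^ 2 * EE φ μ v0 v0 := by
        intro t
        have a2 := Adm_lin hφ ae av0 1 t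
        have := EE_nonneg h a2 (by rw [lin ae av0, he, hv0]; ring)
        rw [EE_quad hφ μ ae av0, he0] at this
        linarith
      by_contra hne
      set x := EE φ μ e v0
      set y := EE φ μ v0 v0
      have hy : 0 ≤ y := EE_nonneg h av0 hv0
      have := hq (-x / (y + 1))
      have hy1 : 0 < y + 1 := by linarith
      have hx2 : 0 < x ^ 2 := by positivity
      have e1 : 2 * (-x / (y + 1)) * x + (-x / (y + 1)) ^ 2 * y =
          - (x ^ 2 * (y + 2)) / (y + 1) ^ 2 := by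
        field_simp; ring
      rw [e1] at this
      have : - (x ^ 2 * (y + 2)) / (y + 1) ^ 2 < 0 := by
        apply div_neg_of_neg_of_pos
        · nlinarith
        · positivity
      linarith
    have hxc : Adm φ (fun z => XX φ z * cc φ k z) :=
      Adm_wave hφ (P := fun t => t * Real.cos (k * t))
        (contDiff_id.mul (Real.contDiff_cos.comp (contDiff_const.mul contDiff_id)))
    have hxs : Adm φ (fun z => XX φ z * ss φ k z) :=
      Adm_wave hφ (P := fun t => t * Real.sin (k * t))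
        (contDiff_id.mul (Real.contDiff_sin.comp (contDiff_const.mul contDiff_id)))
    have t := EE_twist hφ k
    rw [hk2, key as hIs0 hEs0 hxc, key ac hIc0 hEc0 hxs] at t
    have : 0 < k * ∫ z in ball (0 : ℂ) 1, rho φ z := mul_pos hk0 hρ
    linarith
  · set N := Ic ^ 2 + Is ^ 2 with hN
    set a := -(IB * Ic) / N with ha
    set b := (IB * Is) / N with hb
    have aw1 := Adm_lin hφ ac as a (-b)
    have aw2 := Adm_lin hφ ac as b a
    have av1 := Adm_lin hφ aB aw1 1 1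
    have z1 : ∫ z in ball (0 : ℂ) 1, rho φ z * (1 * B z + 1 * (a * cc φ k z + (-b) * ss φ k z)) = 0 := by
      rw [lin aB aw1, lin ac as, ← hIc, ← hIs, ← hIB, ha, hb]
      field_simp
      rw [hN]; ring
    have z2 : ∫ z in ball (0 : ℂ) 1, rho φ z * (b * cc φ k z + a * ss φ k z) = 0 := by
      rw [lin ac as, ← hIc, ← hIs, ha, hb]
      field_simp
      ring
    have p1 := EE_nonneg h av1 z1
    have p2 := EE_nonneg h aw2 z2
    have hBw : EE φ μ B (fun z => a * cc φ k z + (-b) * ss φ k z) = 0 := by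
      rw [EE_comm, EE_lin hφ μ ac as aB, EE_comm φ μ (cc φ k), EE_comm φ μ (ss φ k), hBc, hBs]
      ring
    rw [EE_quad hφ μ aB aw1, EE_quad hφ μ ac as, hBw] at p1
    rw [EE_quad hφ μ ac as] at p2
    have hEs : EE φ μ (ss φ k) (ss φ k) = - EE φ μ (cc φ k) (cc φ k) := by linarith
    rw [hEs] at p1 p2
    nlinarith

end Crest.Agent.R101
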