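import Mathlib

/-! Row 101: abstract Hodge-type inequality in a real Hilbert space (helper157). -/

set_option autoImplicit false

open scoped InnerProductSpace

namespace Crest.Agent.R101

theorem hodge_abstract {H : Type*} [NormedAddCommGroup H] [InnerProductSpace ℝ H]
    [CompleteSpace H] (G K : Submodule ℝ H)
    (hGK : ∀ g ∈ G, ∀ k ∈ K, ⟪g, k⟫_ℝ = 0)
    (hperp : ∀ x : H, (∀ g ∈ G, ⟪g, x⟫_ℝ = 0) → (∀ k ∈ K, ⟪k, x⟫_ℝ = 0) → x = 0)
    (V : H) (A B : ℝ) (hA : 0 ≤ A) (hB : 0 ≤ B)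
    (h1 : ∀ g ∈ G, ⟪V, g⟫_ℝ ≤ A * ‖g‖) (h2 : ∀ k ∈ K, ⟪V, k⟫_ℝ ≤ B * ‖k‖) :
    ‖V‖ ^ 2 ≤ A ^ 2 + B ^ 2 := by
  set S := Real.sqrt (A ^ 2 + B ^ 2) with hS
  have hS0 : 0 ≤ S := Real.sqrt_nonneg _
  have hS2 : S ^ 2 = A ^ 2 + B ^ 2 := Real.sq_sqrt (by positivity)
  have hdense : (G ⊔ K).topologicalClosure = ⊤ := by
    rw [Submodule.topologicalClosure_eq_top_iff, Submodule.eq_bot_iff]
    intro x hx
    rw [Submodule.mem_orthogonal] at hx
    exact hperp x (fun g hg => hx g (Submodule.mem_sup_left hg))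
      (fun k hk => hx k (Submodule.mem_sup_right hk))
  have hmem : V ∈ closure ((G ⊔ K : Submodule ℝ H) : Set H) := by
    have : V ∈ (G ⊔ K).topologicalClosure := by rw [hdense]; trivial
    rw [← Submodule.topologicalClosure_coe]
    exact this
  -- the approximate inequality
  have key : ∀ ε : ℝ, 0 < ε → ‖V‖ ^ 2 ≤ S * (‖V‖ + ε) + ε * ‖V‖ := by
    intro ε hε
    obtain ⟨y, hy, hyV⟩ := Metric.mem_closure_iff.1 hmem ε hε
    obtain ⟨g, hg, k, hk, rfl⟩ := Submodule.mem_sup.1 hy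
    have hVy : ‖V - (g + k)‖ ≤ ε := by rw [← dist_eq_norm]; exact hyV.le
    have hgk : ⟪g, k⟫_ℝ = 0 := hGK g hg k hk
    have hn : ‖g + k‖ ^ 2 = ‖g‖ ^ 2 + ‖k‖ ^ 2 := by
      rw [norm_add_sq_real, hgk]; ring
    have e1 : ‖V‖ ^ 2 = ⟪V, g⟫_ℝ + ⟪V, k⟫_ℝ + ⟪V, V - (g + k)⟫_ℝ := by
      rw [← real_inner_self_eq_norm_sq, ← inner_add_right, ← inner_add_right]
      congr 1; abel
    have e2 : A * ‖g‖ + B * ‖k‖ ≤ S * ‖g + k‖ := by
      apply (pow_le_pow_iff_left₀ (by positivity) (by positivity) two_ne_zero).1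
      rw [mul_pow, hS2, hn]
      nlinarith [sq_nonneg (A * ‖k‖ - B * ‖g‖)]
    have e3 : ‖g + k‖ ≤ ‖V‖ + ε := by
      have : ‖g + k‖ ≤ ‖V‖ + ‖V - (g + k)‖ := by
        have h := norm_sub_le V (V - (g + k))
        simpa using h
      linarith
    have e4 : ⟪V, V - (g + k)⟫_ℝ ≤ ‖V‖ * ε :=
      (real_inner_le_norm _ _).trans (mul_le_mul_of_nonneg_left hVy (norm_nonneg _))
    have := h1 g hg
    have := h2 k hk
    have := mul_le_mul_of_nonneg_left e3 hS0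
    nlinarith
  have lim : ‖V‖ ^ 2 ≤ S * ‖V‖ := by
    apply le_of_forall_pos_le_add
    intro δ hδ
    have hpos : 0 < S + ‖V‖ + 1 := by positivity
    have := key (δ / (S + ‖V‖ + 1)) (by positivity)
    have h3 : δ / (S + ‖V‖ + 1) * (S + ‖V‖) ≤ δ := by
      rw [div_mul_eq_mul_div, div_le_iff₀ hpos]; nlinarith [norm_nonneg V]
    nlinarith
  rcases eq_or_lt_of_le (norm_nonneg V) with h0 | h0
  · rw [← h0]; nlinarith [sq_nonneg A, sq_nonneg B]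
  · have : ‖V‖ ≤ S := by
      have : ‖V‖ * ‖V‖ ≤ S * ‖V‖ := by nlinarith
      exact le_of_mul_le_mul_right this h0
    rw [← hS2]
    exact pow_le_pow_left₀ (norm_nonneg V) this 2

end Crest.Agent.R101
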