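import Mathlib

/-! Row 101 (helper157): an integrable function on the disc all of whose moments
`∫ F z^n conj(z)^m` vanish is zero a.e. -/

set_option autoImplicit false

open MeasureTheory Metric Set Complex ComplexConjugate Filter Topology
open scoped ContDiff

namespace Crest.Agent.R101

section dense

/-- extension by zero of a continuous function on the closed disc -/
noncomputable def ext0 (h : C(closedBall (0 : ℂ) 1, ℂ)) : ℂ → ℂ :=
  Function.extend Subtype.val h 0

theorem ext0_apply (h : C(closedBall (0 : ℂ) 1, ℂ)) {z : ℂ} (hz : z ∈ closedBall (0 : ℂ) 1) :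
    ext0 h z = h ⟨z, hz⟩ := by
  have := Subtype.val_injective.extend_apply (h : closedBall (0 : ℂ) 1 → ℂ) 0 ⟨z, hz⟩
  exact this

theorem ext0_continuousOn (h : C(closedBall (0 : ℂ) 1, ℂ)) :
    ContinuousOn (ext0 h) (closedBall 0 1) := by
  rw [continuousOn_iff_continuous_domRestrict]
  have : (closedBall (0 : ℂ) 1).domRestrict (ext0 h) = h := by
    ext z
    exact ext0_apply h z.2
  rw [this]
  exact h.continuous

theorem ext0_bound (h : C(closedBall (0 : ℂ) 1, ℂ)) {z : ℂ} (hz : z ∈ closedBall (0 : ℂ) 1) :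
    ‖ext0 h z‖ ≤ ‖h‖ := by
  rw [ext0_apply h hz]; exact h.norm_coe_le_norm _

variable {F : ℂ → ℂ}

theorem mul_ext0_integrable (hF : IntegrableOn F (ball 0 1)) (h : C(closedBall (0 : ℂ) 1, ℂ))
    (n m : ℕ) :
    IntegrableOn (fun z => F z * (z ^ n * conj z ^ m * ext0 h z)) (ball 0 1) := by
  refine Integrable.mul_bdd (c := ‖h‖) hF ?_ ?_
  · apply ContinuousOn.aestronglyMeasurable _ measurableSet_ball
    refine ContinuousOn.mul ?_ ((ext0_continuousOn h).mono ball_subset_closedBall)
    exact (by fun_prop : Continuous fun z : ℂ => z ^ n * conj z ^ m).continuousOn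
  · refine (ae_restrict_iff' measurableSet_ball).2 (Eventually.of_forall fun z hz => ?_)
    have hz1 : ‖z‖ ≤ 1 := by simpa using (ball_subset_closedBall hz : z ∈ closedBall (0:ℂ) 1)
    have h1 : ‖z ^ n * conj z ^ m‖ ≤ 1 := by
      rw [norm_mul, norm_pow, norm_pow, RCLike.norm_conj]
      exact mul_le_one₀ (pow_le_one₀ (norm_nonneg _) hz1) (by positivity)
        (pow_le_one₀ (norm_nonneg _) hz1)
    rw [norm_mul]
    calc ‖z ^ n * conj z ^ m‖ * ‖ext0 h z‖ ≤ 1 * ‖h‖ := by
          gcongr
          exact ext0_bound h (ball_subset_closedBall hz)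
      _ = ‖h‖ := one_mul _

/-- the functional -/
noncomputable def Lam (F : ℂ → ℂ) (n m : ℕ) (h : C(closedBall (0 : ℂ) 1, ℂ)) : ℂ :=
  ∫ z in ball (0 : ℂ) 1, F z * (z ^ n * conj z ^ m * ext0 h z)

theorem Lam_add (hF : IntegrableOn F (ball 0 1)) (n m : ℕ) (f g : C(closedBall (0 : ℂ) 1, ℂ)) :
    Lam F n m (f + g) = Lam F n m f + Lam F n m g := by
  unfold Lam
  rw [← integral_add (mul_ext0_integrable hF f n m) (mul_ext0_integrable hF g n m)]
  refine setIntegral_congr_fun measurableSet_ball fun z hz => ?_
  have hz' := ball_subset_closedBall hz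
  simp only [ext0_apply _ hz', ContinuousMap.add_apply]
  ring

theorem Lam_sub (hF : IntegrableOn F (ball 0 1)) (n m : ℕ) (f g : C(closedBall (0 : ℂ) 1, ℂ)) :
    Lam F n m (f - g) = Lam F n m f - Lam F n m g := by
  unfold Lam
  rw [← integral_sub (mul_ext0_integrable hF f n m) (mul_ext0_integrable hF g n m)]
  refine setIntegral_congr_fun measurableSet_ball fun z hz => ?_
  have hz' := ball_subset_closedBall hz
  simp only [ext0_apply _ hz', ContinuousMap.sub_apply]
  ring

theorem Lam_bound (hF : IntegrableOn F (ball 0 1)) (n m : ℕ) (f : C(closedBall (0 : ℂ) 1, ℂ)) :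
    ‖Lam F n m f‖ ≤ (∫ z in ball (0 : ℂ) 1, ‖F z‖) * ‖f‖ := by
  unfold Lam
  refine (norm_integral_le_integral_norm _).trans ?_
  rw [← integral_mul_const]
  refine setIntegral_mono_on (mul_ext0_integrable hF f n m).norm (hF.norm.mul_const _)
    measurableSet_ball fun z hz => ?_
  have hz1 : ‖z‖ ≤ 1 := by simpa using (ball_subset_closedBall hz : z ∈ closedBall (0:ℂ) 1)
  have h1 : ‖z ^ n * conj z ^ m‖ ≤ 1 := by
    rw [norm_mul, norm_pow, norm_pow, RCLike.norm_conj]
    exact mul_le_one₀ (pow_le_one₀ (norm_nonneg _) hz1) (by positivity)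
      (pow_le_one₀ (norm_nonneg _) hz1)
  rw [norm_mul, norm_mul]
  calc ‖F z‖ * (‖z ^ n * conj z ^ m‖ * ‖ext0 f z‖) ≤ ‖F z‖ * (1 * ‖f‖) := by
        gcongr
        exact ext0_bound f (ball_subset_closedBall hz)
    _ = ‖F z‖ * ‖f‖ := by rw [one_mul]

theorem Lam_zero_of_moments (hF : IntegrableOn F (ball 0 1))
    (hm : ∀ n m : ℕ, ∫ z in ball (0 : ℂ) 1, F z * (z ^ n * conj z ^ m) = 0)
    (f : C(closedBall (0 : ℂ) 1, ℂ)) : Lam F 0 0 f = 0 := by
  -- property: multiplication by `f` preserves the common kernel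
  have key : ∀ f : C(closedBall (0 : ℂ) 1, ℂ), ∀ h : C(closedBall (0 : ℂ) 1, ℂ),
      (∀ n m, Lam F n m h = 0) → ∀ n m, Lam F n m (f * h) = 0 := by
    intro f
    induction f using ContinuousMap.induction_on_of_compact with
    | const r =>
      intro h hh n m
      have : Lam F n m (ContinuousMap.const _ r * h) = r * Lam F n m h := by
        unfold Lam
        rw [← integral_const_mul]
        refine setIntegral_congr_fun measurableSet_ball fun z hz => ?_
        have hz' := ball_subset_closedBall hz
        simp only [ext0_apply _ hz', ContinuousMap.mul_apply, ContinuousMap.const_apply]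
        ring
      rw [this, hh, mul_zero]
    | id =>
      intro h hh n m
      refine Eq.trans ?_ (hh (n + 1) m)
      unfold Lam
      refine setIntegral_congr_fun measurableSet_ball fun z hz => ?_
      have hz' := ball_subset_closedBall hz
      simp only [ext0_apply _ hz', ContinuousMap.mul_apply, ContinuousMap.restrict_apply,
        ContinuousMap.id_apply]
      ring
    | star_id =>
      intro h hh n m
      refine Eq.trans ?_ (hh n (m + 1))
      unfold Lam
      refine setIntegral_congr_fun measurableSet_ball fun z hz => ?_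
      have hz' := ball_subset_closedBall hz
      simp only [ext0_apply _ hz', ContinuousMap.mul_apply, ContinuousMap.star_apply,
        ContinuousMap.restrict_apply, ContinuousMap.id_apply, RCLike.star_def]
      ring
    | add f g hf hg =>
      intro h hh n m
      rw [add_mul, Lam_add hF, hf h hh, hg h hh, add_zero]
    | mul f g hf hg =>
      intro h hh n m
      rw [mul_assoc]
      exact hf _ (hg h hh) n m
    | frequently f hf =>
      intro h hh n m
      by_contra hne
      set C := ∫ z in ball (0 : ℂ) 1, ‖F z‖ with hC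
      have hC0 : 0 ≤ C := integral_nonneg fun z => norm_nonneg _
      set δ := ‖Lam F n m (f * h)‖ with hδ
      have hδ0 : 0 < δ := norm_pos_iff.2 hne
      have hpos : 0 < C * ‖h‖ + 1 := by positivity
      have hball : ball f (δ / (C * ‖h‖ + 1)) ∈ 𝓝 f := ball_mem_nhds _ (by positivity)
      obtain ⟨g, hg, hgf⟩ := (hf.and_eventually hball).exists
      have e1 : Lam F n m (f * h) = Lam F n m ((f - g) * h) := by
        rw [sub_mul, Lam_sub hF, hg h hh n m, sub_zero]
      have e2 : δ ≤ C * (‖f - g‖ * ‖h‖) := by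
        rw [hδ, e1]
        refine (Lam_bound hF n m _).trans ?_
        exact mul_le_mul_of_nonneg_left (norm_mul_le _ _) hC0
      have e3 : ‖f - g‖ < δ / (C * ‖h‖ + 1) := by
        rw [← dist_eq_norm, dist_comm]; exact hgf
      rw [lt_div_iff₀ hpos] at e3
      nlinarith [norm_nonneg (f - g), norm_nonneg h]
  have h1 : ∀ n m, Lam F n m 1 = 0 := by
    intro n m
    refine Eq.trans ?_ (hm n m)
    unfold Lam
    refine setIntegral_congr_fun measurableSet_ball fun z hz => ?_
    have hz' := ball_subset_closedBall hz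
    simp only [ext0_apply _ hz', ContinuousMap.one_apply]
    ring
  have := key f 1 h1 0 0
  rwa [mul_one] at this

theorem ae_zero_of_moments (hF : IntegrableOn F (ball 0 1))
    (hm : ∀ n m : ℕ, ∫ z in ball (0 : ℂ) 1, F z * (z ^ n * conj z ^ m) = 0) :
    ∀ᵐ z ∂(volume.restrict (ball (0 : ℂ) 1)), F z = 0 := by
  rw [ae_restrict_iff' measurableSet_ball]
  refine isOpen_ball.ae_eq_zero_of_integral_contDiff_smul_eq_zero
    (hF.locallyIntegrableOn) fun g hg hgc hgs => ?_
  have h1 : ∫ z, g z • F z = ∫ z in ball (0 : ℂ) 1, g z • F z := by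
    symm
    refine setIntegral_eq_integral_of_forall_compl_eq_zero fun z hz => ?_
    have : g z = 0 := by
      by_contra hne
      exact hz (hgs (subset_tsupport _ hne))
    rw [this, zero_smul]
  rw [h1]
  let f : C(closedBall (0 : ℂ) 1, ℂ) :=
    ⟨fun z => (g z : ℂ), by
      have := hg.continuous
      fun_prop⟩
  refine Eq.trans ?_ (Lam_zero_of_moments hF hm f)
  unfold Lam
  refine setIntegral_congr_fun measurableSet_ball fun z hz => ?_
  have hz' := ball_subset_closedBall hz
  simp only [ext0_apply _ hz', f, ContinuousMap.coe_mk, pow_zero, one_mul, real_smul]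
  ring

end dense

end Crest.Agent.R101
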