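import Mathlib
import Crest.Agent.R101.Defs
import Crest.Agent.R101.HolDense

/-! Row 101 (helper157): an integrable weakly holomorphic field on the disc which is orthogonal to
all `conj z ^ k` vanishes. -/

set_option autoImplicit false

open MeasureTheory Metric Set Complex ComplexConjugate Filter Topology
open scoped ContDiff

namespace Crest.Agent.R101

/-- `2 ∂̄` -/
noncomputable def Lop (B : ℂ → ℂ) (z : ℂ) : ℂ := fderiv ℝ B z 1 + fderiv ℝ B z I * I

theorem Lop_mul {A B : ℂ → ℂ} {z : ℂ} (hA : DifferentiableAt ℝ A z) (hB : DifferentiableAt ℝ B z) :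
    Lop (fun z => A z * B z) z = A z * Lop B z + B z * Lop A z := by
  unfold Lop
  rw [fderiv_fun_mul hA hB]
  simp only [add_apply, smul_apply, smul_eq_mul]
  ring

theorem Lop_sub {A B : ℂ → ℂ} {z : ℂ} (hA : DifferentiableAt ℝ A z) (hB : DifferentiableAt ℝ B z) :
    Lop (fun z => A z - B z) z = Lop A z - Lop B z := by
  unfold Lop
  rw [fderiv_fun_sub hA hB]
  simp only [sub_apply]
  ring

theorem Lop_holo {A : ℂ → ℂ} {z : ℂ} (hA : DifferentiableAt ℂ A z) : Lop A z = 0 := by
  unfold Lop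
  rw [hA.fderiv_restrictScalars ℝ]
  simp only [ContinuousLinearMap.coe_restrictScalars']
  have : fderiv ℂ A z I = I * fderiv ℂ A z 1 := by
    simp
  rw [this]
  linear_combination (fderiv ℂ A z 1) * I_mul_I

theorem Lop_conj_comp {A : ℂ → ℂ} {z : ℂ} (hA : DifferentiableAt ℂ A (conj z)) :
    Lop (fun z => A (conj z)) z = 2 * deriv A (conj z) := by
  unfold Lop
  have h1 : HasFDerivAt A ((fderiv ℂ A (conj z)).restrictScalars ℝ) (conj z) :=
    hA.hasFDerivAt.restrictScalars ℝ
  have h2 : HasFDerivAt (fun z : ℂ => conj z) (conjCLE : ℂ →L[ℝ] ℂ) z := conjCLE.hasFDerivAt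
  have h3 := (h1.comp z h2).fderiv
  have h4 : (A ∘ fun z : ℂ => conj z) = fun z => A (conj z) := rfl
  rw [h4] at h3
  rw [h3]
  simp only [ContinuousLinearMap.comp_apply, ContinuousLinearEquiv.coe_coe, conjCLE_apply,
    map_one, conj_I, ContinuousLinearMap.coe_restrictScalars']
  have e1 : fderiv ℂ A (conj z) (-I) = -(I * fderiv ℂ A (conj z) 1) := by
    simp
  rw [e1, ← fderiv_apply_one_eq_deriv]
  linear_combination (-(fderiv ℂ A (conj z) 1)) * I_mul_I

theorem Lop_mono (a b : ℕ) (z : ℂ) :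
    Lop (fun z => z ^ a * conj z ^ b) z = 2 * b * (z ^ a * conj z ^ (b - 1)) := by
  have h2 : Lop (fun z => conj z ^ b) z = 2 * (b * conj z ^ (b - 1)) := by
    have := Lop_conj_comp (A := fun z => z ^ b) (z := z) (by fun_prop)
    rw [this]; simp
  have h1 : Lop (fun z => z ^ a) z = 0 := Lop_holo (by fun_prop)
  have hd1 : DifferentiableAt ℝ (fun z : ℂ => z ^ a) z := by fun_prop
  have hd2 : DifferentiableAt ℝ (fun z : ℂ => conj z ^ b) z := by
    have : DifferentiableAt ℝ (fun z : ℂ => conj z) z := conjCLE.differentiableAt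
    exact this.pow b
  rw [Lop_mul hd1 hd2, h1, h2]
  ring

theorem Lop_ofReal {b : ℂ → ℝ} {z : ℂ} (hb : DifferentiableAt ℝ b z) :
    Lop (fun z => (b z : ℂ)) z = (dx b z : ℂ) + dy b z * I := by
  unfold Lop dx dy
  have h := (ofRealCLM.hasFDerivAt.comp z hb.hasFDerivAt).fderiv
  have h4 : (ofRealCLM ∘ b) = fun z => (b z : ℂ) := rfl
  rw [h4] at h
  rw [h]
  simp

section

variable {F : ℂ → ℂ}

theorem Lop_split {B : ℂ → ℂ} {z : ℂ} (hB : DifferentiableAt ℝ B z) :
    Lop B z = ((dx (fun z => (B z).re) z : ℂ) + dy (fun z => (B z).re) z * I) +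
      I * ((dx (fun z => (B z).im) z : ℂ) + dy (fun z => (B z).im) z * I) := by
  have hr : DifferentiableAt ℝ (fun z => (B z).re) z := reCLM.differentiableAt.comp z hB
  have hi : DifferentiableAt ℝ (fun z => (B z).im) z := imCLM.differentiableAt.comp z hB
  have h1 := (reCLM.hasFDerivAt.comp z hB.hasFDerivAt).fderiv
  have h2 := (imCLM.hasFDerivAt.comp z hB.hasFDerivAt).fderiv
  have h1' : (reCLM ∘ B) = fun z => (B z).re := rfl
  have h2' : (imCLM ∘ B) = fun z => (B z).im := rfl
  rw [h1'] at h1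
  rw [h2'] at h2
  unfold Lop dx dy
  rw [h1, h2]
  simp only [ContinuousLinearMap.comp_apply, reCLM_apply, imCLM_apply]
  have a1 := re_add_im (fderiv ℝ B z 1)
  have a2 := re_add_im (fderiv ℝ B z I)
  linear_combination -a1 - I * a2

theorem int_Lop_compact (hF : IntegrableOn F (ball 0 1))
    (H1 : ∀ B : ℂ → ℝ, ContDiff ℝ ∞ B → HasCompactSupport B → tsupport B ⊆ ball 0 1 →
      ∫ z in ball (0 : ℂ) 1, F z * ((dx B z : ℂ) + dy B z * I) = 0)
    {B : ℂ → ℂ} (hB : ContDiff ℝ ∞ B) (hc : HasCompactSupport B) (hs : tsupport B ⊆ ball 0 1) :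
    ∫ z in ball (0 : ℂ) 1, F z * Lop B z = 0 := by
  have hre : ContDiff ℝ ∞ fun z => (B z).re := reCLM.contDiff.comp hB
  have him : ContDiff ℝ ∞ fun z => (B z).im := imCLM.contDiff.comp hB
  have hrc : HasCompactSupport fun z => (B z).re := hc.comp_left (g := Complex.re) rfl
  have hic : HasCompactSupport fun z => (B z).im := hc.comp_left (g := Complex.im) rfl
  have hrs : tsupport (fun z => (B z).re) ⊆ ball 0 1 := by
    refine (closure_mono ?_).trans hs
    intro z hz
    rw [Function.mem_support] at hz ⊢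
    intro h; exact hz (by rw [h]; rfl)
  have his : tsupport (fun z => (B z).im) ⊆ ball 0 1 := by
    refine (closure_mono ?_).trans hs
    intro z hz
    rw [Function.mem_support] at hz ⊢
    intro h; exact hz (by rw [h]; rfl)
  have bint : ∀ b : ℂ → ℝ, ContDiff ℝ ∞ b → HasCompactSupport b →
      IntegrableOn (fun z => F z * ((dx b z : ℂ) + dy b z * I)) (ball 0 1) := by
    intro b hb hbc
    have hcont : Continuous (fderiv ℝ b) := hb.continuous_fderiv (by simp)
    have hcs : HasCompactSupport (fderiv ℝ b) := hbc.fderiv ℝ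
    obtain ⟨C, hC⟩ := hcs.exists_bound_of_continuous hcont
    refine Integrable.mul_bdd (c := C + C) hF ?_ ?_
    · apply Continuous.aestronglyMeasurable
      unfold dx dy
      fun_prop
    · refine Eventually.of_forall fun z => ?_
      have e1 : |dx b z| ≤ C := by
        have := (fderiv ℝ b z).le_opNorm 1
        rw [norm_one, mul_one] at this
        exact this.trans (hC z)
      have e2 : |dy b z| ≤ C := by
        have := (fderiv ℝ b z).le_opNorm I
        rw [norm_I, mul_one] at this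
        exact this.trans (hC z)
      refine (norm_add_le _ _).trans ?_
      rw [norm_mul, norm_I, mul_one, norm_real, norm_real, Real.norm_eq_abs, Real.norm_eq_abs]
      linarith
  have e : ∀ z, F z * Lop B z = F z * ((dx (fun z => (B z).re) z : ℂ) +
      dy (fun z => (B z).re) z * I) + I * (F z * ((dx (fun z => (B z).im) z : ℂ) +
      dy (fun z => (B z).im) z * I)) := by
    intro z
    rw [Lop_split (hB.differentiable (by simp) z)]
    ring
  simp_rw [e]
  rw [integral_add (bint _ hre hrc) ((bint _ him hic).const_mul I), integral_const_mul,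
    H1 _ hre hrc hrs, H1 _ him hic his]
  simp

/-- smooth cut-off on the line: `0` for `t ≤ 1`, `1` for `t ≥ 2`. -/
noncomputable def Sst (t : ℝ) : ℝ := Real.smoothTransition (t - 1)

theorem Sst_contDiff : ContDiff ℝ ∞ Sst := by
  unfold Sst
  exact Real.smoothTransition.contDiff.comp (contDiff_id.sub contDiff_const)

theorem Sst_nonneg (t : ℝ) : 0 ≤ Sst t := Real.smoothTransition.nonneg _

theorem Sst_le_one (t : ℝ) : Sst t ≤ 1 := Real.smoothTransition.le_one _

theorem Sst_zero {t : ℝ} (ht : t ≤ 1) : Sst t = 0 :=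
  Real.smoothTransition.zero_of_nonpos (by linarith)

theorem Sst_one {t : ℝ} (ht : 2 ≤ t) : Sst t = 1 :=
  Real.smoothTransition.one_of_one_le (by linarith)

theorem Sst_deriv_zero {t : ℝ} (ht : 2 < t) : deriv Sst t = 0 := by
  have : Sst =ᶠ[𝓝 t] fun _ => 1 := by
    filter_upwards [eventually_gt_nhds ht] with s hs
    exact Sst_one hs.le
  rw [this.deriv_eq]
  simp

theorem Sst_deriv_zero' {t : ℝ} (ht : t < 1) : deriv Sst t = 0 := by
  have : Sst =ᶠ[𝓝 t] fun _ => 0 := by
    filter_upwards [eventually_lt_nhds ht] with s hs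
    exact Sst_zero hs.le
  rw [this.deriv_eq]
  simp

theorem Sst_bound : ∃ C : ℝ, ∀ t : ℝ, |t * deriv Sst t| ≤ C := by
  have hcont : Continuous fun t => t * deriv Sst t :=
    continuous_id.mul (Sst_contDiff.continuous_deriv (by simp))
  have hcs : HasCompactSupport fun t => t * deriv Sst t := by
    refine HasCompactSupport.of_support_subset_isCompact (isCompact_Icc (a := (1 : ℝ)) (b := 2)) ?_
    intro t ht
    rw [Function.mem_support] at ht
    by_contra hne
    rw [mem_Icc, not_and_or, not_le, not_le] at hne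
    rcases hne with h | h
    · exact ht (by rw [Sst_deriv_zero' h, mul_zero])
    · exact ht (by rw [Sst_deriv_zero h, mul_zero])
  obtain ⟨C, hC⟩ := hcs.exists_bound_of_continuous hcont
  exact ⟨C, fun t => hC t⟩

/-- `|z|²` as a polynomial. -/
noncomputable def Nsq (z : ℂ) : ℝ := z.re ^ 2 + z.im ^ 2

theorem Nsq_eq (z : ℂ) : (Nsq z : ℂ) = z * conj z := by
  rw [mul_conj, normSq_apply]; unfold Nsq; push_cast; ring

theorem Nsq_norm (z : ℂ) : Nsq z = ‖z‖ ^ 2 := by
  rw [← normSq_eq_norm_sq, normSq_apply]; unfold Nsq; ring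

theorem Nsq_contDiff : ContDiff ℝ ∞ Nsq := by
  unfold Nsq
  exact (reCLM.contDiff.pow 2).add (imCLM.contDiff.pow 2)

/-- the disc cut-off -/
noncomputable def chi (n : ℕ) (z : ℂ) : ℝ := Sst ((n + 1) * (1 - Nsq z))

theorem chi_contDiff (n : ℕ) : ContDiff ℝ ∞ (chi n) := by
  unfold chi
  exact Sst_contDiff.comp (contDiff_const.mul (contDiff_const.sub Nsq_contDiff))

theorem chi_Lop (n : ℕ) (z : ℂ) :
    Lop (fun z => (chi n z : ℂ)) z =
      ((deriv Sst ((n + 1) * (1 - Nsq z)) * (n + 1) : ℝ) : ℂ) * (-2 * z) := by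
  rw [Lop_ofReal ((chi_contDiff n).differentiable (by simp) z)]
  have hN : HasFDerivAt Nsq ((2 * z.re) • reCLM + (2 * z.im) • imCLM) z := by
    unfold Nsq
    have h1 := (reCLM.hasFDerivAt (x := z)).pow 2
    have h2 := (imCLM.hasFDerivAt (x := z)).pow 2
    refine (h1.add h2).congr_fderiv ?_
    ext w <;> simp
  have h3 : HasFDerivAt (fun z => (n + 1 : ℝ) * (1 - Nsq z))
      ((n + 1 : ℝ) • (-((2 * z.re) • reCLM + (2 * z.im) • imCLM))) z :=
    (hN.const_sub 1).const_mul _
  have h4 : HasDerivAt Sst (deriv Sst ((n + 1) * (1 - Nsq z))) ((n + 1) * (1 - Nsq z)) :=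
    ((Sst_contDiff.differentiable (by simp)) _).hasDerivAt
  have h5 := (h4.comp_hasFDerivAt z h3).fderiv
  have h6 : (Sst ∘ fun z => (n + 1 : ℝ) * (1 - Nsq z)) = chi n := rfl
  rw [h6] at h5
  unfold dx dy
  rw [h5]
  have hz : z = z.re + z.im * I := (re_add_im z).symm
  simp only [smul_apply, neg_apply, add_apply, reCLM_apply, imCLM_apply, one_re, one_im, I_re,
    I_im, smul_eq_mul]
  generalize deriv Sst ((n + 1) * (1 - Nsq z)) = d
  push_cast
  linear_combination (2 * (d : ℂ) * (n + 1)) * hz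

theorem chi_support (n : ℕ) {z : ℂ} (hz : chi n z ≠ 0) : ‖z‖ ^ 2 ≤ 1 - 1 / (n + 1 : ℝ) := by
  have h1 : ¬ ((n + 1 : ℝ) * (1 - Nsq z) ≤ 1) := fun h => hz (Sst_zero h)
  rw [not_le] at h1
  have hn : (0 : ℝ) < n + 1 := by positivity
  have h2 : 1 / (n + 1 : ℝ) ≤ 1 - Nsq z := by
    rw [div_le_iff₀ hn]; nlinarith
  rw [← Nsq_norm]; linarith

theorem int_Lop_vanishing (hF : IntegrableOn F (ball 0 1))
    (H1 : ∀ B : ℂ → ℝ, ContDiff ℝ ∞ B → HasCompactSupport B → tsupport B ⊆ ball 0 1 →
      ∫ z in ball (0 : ℂ) 1, F z * ((dx B z : ℂ) + dy B z * I) = 0)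
    {P Q : ℂ → ℂ} (hP : ContDiff ℝ ∞ P) (hQ : Continuous Q)
    (hPQ : ∀ z, P z = ((1 - Nsq z : ℝ) : ℂ) * Q z) :
    ∫ z in ball (0 : ℂ) 1, F z * Lop P z = 0 := by
  obtain ⟨C, hC⟩ := Sst_bound
  have hC0 : 0 ≤ C := (abs_nonneg _).trans (hC 0)
  have hLP : Continuous (Lop P) := by
    have : Continuous (fderiv ℝ P) := hP.continuous_fderiv (by simp)
    unfold Lop
    fun_prop
  obtain ⟨CP, hCP⟩ := (isCompact_closedBall (0 : ℂ) 1).exists_bound_of_continuousOn
    hLP.continuousOn
  obtain ⟨CQ, hCQ⟩ := (isCompact_closedBall (0 : ℂ) 1).exists_bound_of_continuousOn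
    hQ.continuousOn
  have hzero : ∀ n : ℕ, ∫ z in ball (0 : ℂ) 1, F z * Lop (fun z => (chi n z : ℂ) * P z) z = 0 := by
    intro n
    have hsub : Function.support (fun z => (chi n z : ℂ) * P z) ⊆
        {z : ℂ | ‖z‖ ^ 2 ≤ 1 - 1 / (n + 1 : ℝ)} := by
      intro z hz
      rw [Function.mem_support] at hz
      refine chi_support n ?_
      intro h; exact hz (by rw [h]; simp)
    have hclosed : IsClosed {z : ℂ | ‖z‖ ^ 2 ≤ 1 - 1 / (n + 1 : ℝ)} :=
      isClosed_le (by fun_prop) continuous_const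
    have hsubset : {z : ℂ | ‖z‖ ^ 2 ≤ 1 - 1 / (n + 1 : ℝ)} ⊆ ball 0 1 := by
      intro z hz
      rw [mem_ofPred_eq] at hz
      have hn : (0 : ℝ) < 1 / (n + 1) := by positivity
      rw [mem_ball_zero_iff]
      nlinarith [norm_nonneg z]
    have hts : tsupport (fun z => (chi n z : ℂ) * P z) ⊆ {z : ℂ | ‖z‖ ^ 2 ≤ 1 - 1 / (n + 1 : ℝ)} :=
      closure_minimal hsub hclosed
    refine int_Lop_compact hF H1 ?_ ?_ (hts.trans hsubset)
    · exact (ofRealCLM.contDiff.comp (chi_contDiff n)).mul hP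
    · refine HasCompactSupport.of_support_subset_isCompact
        (isCompact_closedBall (0 : ℂ) 1) ?_
      exact (hsub.trans hsubset).trans ball_subset_closedBall
  have hform : ∀ n : ℕ, ∀ z, Lop (fun z => (chi n z : ℂ) * P z) z =
      chi n z * Lop P z + Q z * (-2 * z) *
        (((n + 1) * (1 - Nsq z) * deriv Sst ((n + 1) * (1 - Nsq z)) : ℝ) : ℂ) := by
    intro n z
    rw [Lop_mul (A := fun z => (chi n z : ℂ)) (B := P), chi_Lop, hPQ z]
    · push_cast; ring
    · exact (ofRealCLM.contDiff.comp (chi_contDiff n)).differentiable (by simp) z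
    · exact hP.differentiable (by simp) z
  have hlim : Tendsto (fun n : ℕ => ∫ z in ball (0 : ℂ) 1,
      F z * Lop (fun z => (chi n z : ℂ) * P z) z) atTop
      (𝓝 (∫ z in ball (0 : ℂ) 1, F z * Lop P z)) := by
    refine tendsto_integral_of_dominated_convergence
      (fun z => ‖F z‖ * (CP + CQ * 2 * C)) ?_ ?_ ?_ ?_
    · intro n
      refine hF.aestronglyMeasurable.mul ?_
      apply Continuous.aestronglyMeasurable
      have h1 : ContDiff ℝ ∞ fun z => (chi n z : ℂ) * P z :=
        (ofRealCLM.contDiff.comp (chi_contDiff n)).mul hP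
      have h2 : Continuous (fderiv ℝ fun z => (chi n z : ℂ) * P z) :=
        h1.continuous_fderiv (by simp)
      unfold Lop
      fun_prop
    · exact hF.norm.mul_const _
    · intro n
      refine (ae_restrict_iff' measurableSet_ball).2 (Eventually.of_forall fun z hz => ?_)
      rw [norm_mul]
      refine mul_le_mul_of_nonneg_left ?_ (norm_nonneg _)
      rw [hform n z]
      have hz' : z ∈ closedBall (0 : ℂ) 1 := ball_subset_closedBall hz
      have hz1 : ‖z‖ ≤ 1 := by simpa using hz'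
      refine (norm_add_le _ _).trans ?_
      have e1 : ‖(chi n z : ℂ) * Lop P z‖ ≤ CP := by
        rw [norm_mul, norm_real, Real.norm_eq_abs,
          abs_of_nonneg (show 0 ≤ chi n z from Sst_nonneg _)]
        calc chi n z * ‖Lop P z‖ ≤ 1 * ‖Lop P z‖ :=
              mul_le_mul_of_nonneg_right (Sst_le_one _) (norm_nonneg _)
          _ = ‖Lop P z‖ := one_mul _
          _ ≤ CP := hCP z hz'
      have e2 : ‖Q z * (-2 * z) *
          (((n + 1) * (1 - Nsq z) * deriv Sst ((n + 1) * (1 - Nsq z)) : ℝ) : ℂ)‖ ≤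
          CQ * 2 * C := by
        rw [norm_mul, norm_mul, norm_mul, norm_real, Real.norm_eq_abs]
        have h1 : ‖(-2 : ℂ)‖ * ‖z‖ ≤ 2 := by
          rw [norm_neg]; norm_num
          linarith
        have h2 := hC ((n + 1) * (1 - Nsq z))
        have hCQ0 : 0 ≤ CQ := (norm_nonneg _).trans (hCQ z hz')
        gcongr
        exact hCQ z hz'
      linarith
    · refine (ae_restrict_iff' measurableSet_ball).2 (Eventually.of_forall fun z hz => ?_)
      have hz1 : ‖z‖ < 1 := by simpa using hz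
      have hN : 0 < 1 - Nsq z := by rw [Nsq_norm]; nlinarith [norm_nonneg z]
      refine tendsto_const_nhds.congr' ?_
      have h0 : Tendsto (fun n : ℕ => ((n : ℝ) + 1) * (1 - Nsq z)) atTop atTop :=
        (tendsto_atTop_add_const_right _ _ tendsto_natCast_atTop_atTop).atTop_mul_const hN
      filter_upwards [h0.eventually_gt_atTop 2] with n hn
      rw [hform n z, Sst_deriv_zero hn]
      unfold chi
      rw [Sst_one hn.le]
      push_cast
      ring
  have : Tendsto (fun n : ℕ => (0 : ℂ)) atTop (𝓝 (∫ z in ball (0 : ℂ) 1, F z * Lop P z)) := by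
    refine hlim.congr fun n => hzero n
  exact (tendsto_nhds_unique this tendsto_const_nhds)

theorem hol_zero (hF : IntegrableOn F (ball 0 1))
    (H1 : ∀ B : ℂ → ℝ, ContDiff ℝ ∞ B → HasCompactSupport B → tsupport B ⊆ ball 0 1 →
      ∫ z in ball (0 : ℂ) 1, F z * ((dx B z : ℂ) + dy B z * I) = 0)
    (H2 : ∀ k : ℕ, ∫ z in ball (0 : ℂ) 1, F z * conj z ^ k = 0) :
    ∀ᵐ z ∂(volume.restrict (ball (0 : ℂ) 1)), F z = 0 := by
  have mint : ∀ a b : ℕ, IntegrableOn (fun z => F z * (z ^ a * conj z ^ b)) (ball 0 1) := by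
    intro a b
    refine Integrable.mul_bdd (c := 1) hF ?_ ?_
    · exact Continuous.aestronglyMeasurable (by fun_prop)
    · refine (ae_restrict_iff' measurableSet_ball).2 (Eventually.of_forall fun z hz => ?_)
      have hz1 : ‖z‖ ≤ 1 := by simpa using (ball_subset_closedBall hz : z ∈ closedBall (0:ℂ) 1)
      rw [norm_mul, norm_pow, norm_pow, RCLike.norm_conj]
      exact mul_le_one₀ (pow_le_one₀ (norm_nonneg _) hz1) (by positivity)
        (pow_le_one₀ (norm_nonneg _) hz1)
  have hrec : ∀ a b : ℕ, (b : ℂ) * ∫ z in ball (0 : ℂ) 1, F z * (z ^ a * conj z ^ (b - 1)) =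
      (b + 1 : ℂ) * ∫ z in ball (0 : ℂ) 1, F z * (z ^ (a + 1) * conj z ^ b) := by
    intro a b
    have hcd : ∀ a b : ℕ, ContDiff ℝ ∞ fun z : ℂ => z ^ a * conj z ^ b := by
      intro a b
      have h1 : ContDiff ℝ ∞ fun z : ℂ => conj z := conjCLE.contDiff
      exact (contDiff_id.pow a).mul (h1.pow b)
    have h := int_Lop_vanishing hF H1
      (P := fun z => z ^ a * conj z ^ b - z ^ (a + 1) * conj z ^ (b + 1))
      (Q := fun z => z ^ a * conj z ^ b) ((hcd _ _).sub (hcd _ _)) (by fun_prop) (by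
        intro z
        push_cast
        rw [Nsq_eq]
        ring)
    have e : ∀ z, F z * Lop (fun z => z ^ a * conj z ^ b - z ^ (a + 1) * conj z ^ (b + 1)) z =
        2 * (b * (F z * (z ^ a * conj z ^ (b - 1)))) -
        2 * ((b + 1) * (F z * (z ^ (a + 1) * conj z ^ b))) := by
      intro z
      rw [Lop_sub ((hcd a b).differentiable (by simp) z)
        ((hcd (a + 1) (b + 1)).differentiable (by simp) z), Lop_mono, Lop_mono]
      simp only [Nat.add_sub_cancel]
      push_cast
      ring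
    simp_rw [e] at h
    rw [integral_sub (((mint a (b - 1)).const_mul _).const_mul _)
      (((mint (a + 1) b).const_mul _).const_mul _), integral_const_mul, integral_const_mul,
      integral_const_mul, integral_const_mul] at h
    linear_combination h / 2
  have hm : ∀ a b : ℕ, ∫ z in ball (0 : ℂ) 1, F z * (z ^ a * conj z ^ b) = 0 := by
    intro a
    induction a with
    | zero =>
      intro b
      simpa using H2 b
    | succ a ih =>
      intro b
      have h := hrec a b
      rw [ih (b - 1), mul_zero] at h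
      have hb : (b + 1 : ℂ) ≠ 0 := by exact_mod_cast Nat.succ_ne_zero b
      exact (mul_eq_zero.1 h.symm).resolve_left hb
  exact ae_zero_of_moments hF hm

end

end Crest.Agent.R101
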