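import Crest.Agent.R101.Defs
import Crest.Agent.R101.HodgeAbs
import Crest.Agent.R101.Hol
import Crest.Agent.R101.Friedlander

/-! Row 101 (helper157), P3: the Hodge inequality on the disc. -/

set_option autoImplicit false

open MeasureTheory Metric Set Complex ComplexConjugate Filter Topology
open scoped ContDiff InnerProductSpace

namespace Crest.Agent.R101

namespace Hdg

/-- the disc measure -/
noncomputable abbrev nu : Measure ℂ := volume.restrict (ball (0 : ℂ) 1)

instance : IsFiniteMeasure nu := ⟨by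
  rw [Measure.restrict_apply_univ]; exact measure_ball_lt_top⟩

/-- weighted Cauchy–Schwarz -/
theorem wcs {w f g : ℂ → ℝ} (hw : ∀ z, 0 ≤ w z)
    (hf : IntegrableOn (fun z => w z * f z ^ 2) (ball 0 1))
    (hg : IntegrableOn (fun z => w z * g z ^ 2) (ball 0 1))
    (hfg : IntegrableOn (fun z => w z * f z * g z) (ball 0 1)) :
    (∫ z in ball (0 : ℂ) 1, w z * f z * g z) ^ 2 ≤
      (∫ z in ball (0 : ℂ) 1, w z * f z ^ 2) * ∫ z in ball (0 : ℂ) 1, w z * g z ^ 2 := by
  set a := ∫ z in ball (0 : ℂ) 1, w z * f z ^ 2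
  set b := ∫ z in ball (0 : ℂ) 1, w z * f z * g z
  set c := ∫ z in ball (0 : ℂ) 1, w z * g z ^ 2
  have key : ∀ t : ℝ, 0 ≤ c * (t * t) + (-2 * b) * t + a := by
    intro t
    have h1 : c * (t * t) + (-2 * b) * t + a =
        ∫ z in ball (0 : ℂ) 1, w z * (f z - t * g z) ^ 2 := by
      have e : ∀ z, w z * (f z - t * g z) ^ 2 =
          ((t * t) * (w z * g z ^ 2) + (-2 * t) * (w z * f z * g z)) + w z * f z ^ 2 := by
        intro z; ring
      have i1 : IntegrableOn (fun z => (t * t) * (w z * g z ^ 2)) (ball 0 1) := hg.const_mul _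
      have i2 : IntegrableOn (fun z => (-2 * t) * (w z * f z * g z)) (ball 0 1) :=
        hfg.const_mul _
      have i3 : IntegrableOn (fun z => (t * t) * (w z * g z ^ 2) + (-2 * t) * (w z * f z * g z))
          (ball 0 1) := i1.add i2
      simp_rw [e]
      rw [integral_add i3 hf, integral_add i1 i2, integral_const_mul, integral_const_mul]
      ring
    rw [h1]
    exact integral_nonneg fun z => mul_nonneg (hw z) (sq_nonneg _)
  have := discrim_le_zero key
  rw [discrim] at this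
  nlinarith

/-- complex gradient -/
noncomputable def gC (v : ℂ → ℝ) (z : ℂ) : ℂ := (dx v z : ℂ) + dy v z * I

/-- complex rotated gradient -/
noncomputable def rC (v : ℂ → ℝ) (z : ℂ) : ℂ := (dy v z : ℂ) - dx v z * I

theorem gC_re (v : ℂ → ℝ) (z : ℂ) : (gC v z).re = dx v z := by simp [gC]
theorem gC_im (v : ℂ → ℝ) (z : ℂ) : (gC v z).im = dy v z := by simp [gC]
theorem rC_re (v : ℂ → ℝ) (z : ℂ) : (rC v z).re = dy v z := by simp [rC]
theorem rC_im (v : ℂ → ℝ) (z : ℂ) : (rC v z).im = -dx v z := by simp [rC]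

theorem sq_norm_eq (z : ℂ) : ‖z‖ ^ 2 = z.re ^ 2 + z.im ^ 2 := by
  rw [← normSq_eq_norm_sq, normSq_apply]; ring

theorem gC_norm (v : ℂ → ℝ) (z : ℂ) : ‖gC v z‖ ^ 2 = g2 v z := by
  rw [sq_norm_eq, gC_re, gC_im, g2]

theorem rC_norm (v : ℂ → ℝ) (z : ℂ) : ‖rC v z‖ ^ 2 = g2 v z := by
  rw [sq_norm_eq, rC_re, rC_im, g2]; ring

theorem inner_eq (z w : ℂ) : ⟪z, w⟫_ℝ = z.re * w.re + z.im * w.im := by
  rw [Complex.inner]; simp; ring

theorem gC_meas {v : ℂ → ℝ} (hv : ContDiffOn ℝ 1 v (ball 0 1)) :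
    AEStronglyMeasurable (gC v) nu := by
  have h1 : AEStronglyMeasurable (dx v) nu :=
    (FR.cont_dx hv).aestronglyMeasurable measurableSet_ball
  have h2 : AEStronglyMeasurable (dy v) nu :=
    (FR.cont_dy hv).aestronglyMeasurable measurableSet_ball
  unfold gC
  exact (continuous_ofReal.comp_aestronglyMeasurable h1).add
    ((continuous_ofReal.comp_aestronglyMeasurable h2).mul_const I)

theorem rC_meas {v : ℂ → ℝ} (hv : ContDiffOn ℝ 1 v (ball 0 1)) :
    AEStronglyMeasurable (rC v) nu := by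
  have h1 : AEStronglyMeasurable (dx v) nu :=
    (FR.cont_dx hv).aestronglyMeasurable measurableSet_ball
  have h2 : AEStronglyMeasurable (dy v) nu :=
    (FR.cont_dy hv).aestronglyMeasurable measurableSet_ball
  unfold rC
  exact (continuous_ofReal.comp_aestronglyMeasurable h2).sub
    ((continuous_ofReal.comp_aestronglyMeasurable h1).mul_const I)

theorem gC_memLp {v : ℂ → ℝ} (hv : ContDiffOn ℝ 1 v (ball 0 1))
    (he : IntegrableOn (g2 v) (ball 0 1)) : MemLp (gC v) 2 nu := by
  rw [memLp_two_iff_integrable_sq_norm (gC_meas hv)]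
  simp_rw [gC_norm]
  exact he

theorem rC_memLp {v : ℂ → ℝ} (hv : ContDiffOn ℝ 1 v (ball 0 1))
    (he : IntegrableOn (g2 v) (ball 0 1)) : MemLp (rC v) 2 nu := by
  rw [memLp_two_iff_integrable_sq_norm (rC_meas hv)]
  simp_rw [rC_norm]
  exact he

/-! ### test functions -/

theorem smc {v : ℂ → ℝ} (hv : ContDiff ℝ ∞ v) : ContDiff ℝ 1 v :=
  hv.of_le (by exact_mod_cast le_top)

theorem en_of {v : ℂ → ℝ} (hv : ContDiff ℝ ∞ v) : IntegrableOn (g2 v) (ball 0 1) := by
  have h1 : Continuous (g2 v) := by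
    have : Continuous (fderiv ℝ v) := hv.continuous_fderiv (by simp)
    unfold g2 dx dy
    fun_prop
  exact (h1.continuousOn.integrableOn_compact (isCompact_closedBall (0 : ℂ) 1)).mono_set
    ball_subset_closedBall

theorem testAdm {φ : ℂ → ℂ} (hφ : Conf φ) {v : ℂ → ℝ} (hv : ContDiff ℝ ∞ v) : Adm φ v where
  c1 := (smc hv).contDiffOn
  l2 := by
    obtain ⟨C, hC⟩ := (isCompact_closedBall (0 : ℂ) 1).exists_bound_of_continuousOn
      hv.continuous.continuousOn
    have h1 : IntegrableOn (fun z => C ^ 2 * rho φ z) (ball 0 1) := hφ.rho_int.const_mul _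
    refine Integrable.mono' h1 ?_ ?_
    · exact ((FR.cont_rho hφ).mul (hv.continuous.continuousOn.pow 2)).aestronglyMeasurable
        measurableSet_ball
    · refine (ae_restrict_iff' measurableSet_ball).2 (Eventually.of_forall fun z hz => ?_)
      have h0 := FR.rho_nonneg φ z
      rw [Real.norm_eq_abs, abs_of_nonneg (by positivity), mul_comm]
      refine mul_le_mul_of_nonneg_right ?_ h0
      have := hC z (ball_subset_closedBall hz)
      rw [Real.norm_eq_abs] at this
      nlinarith [abs_nonneg (v z), sq_abs (v z)]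
  en := en_of hv

theorem smLin {v w : ℂ → ℝ} (hv : ContDiff ℝ ∞ v) (hw : ContDiff ℝ ∞ w) (a b : ℝ) :
    ContDiff ℝ ∞ (fun z => a * v z + b * w z) :=
  (contDiff_const.mul hv).add (contDiff_const.mul hw)

theorem gC_lin {v w : ℂ → ℝ} (hv : ContDiffOn ℝ 1 v (ball 0 1))
    (hw : ContDiffOn ℝ 1 w (ball 0 1)) (a b : ℝ) {z : ℂ} (hz : z ∈ ball (0 : ℂ) 1) :
    gC (fun z => a * v z + b * w z) z = a * gC v z + b * gC w z := by
  simp only [gC, FR.dx_lin (FR.diffAt hv hz) (FR.diffAt hw hz),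
    FR.dy_lin (FR.diffAt hv hz) (FR.diffAt hw hz)]
  push_cast; ring

theorem rC_lin {v w : ℂ → ℝ} (hv : ContDiffOn ℝ 1 v (ball 0 1))
    (hw : ContDiffOn ℝ 1 w (ball 0 1)) (a b : ℝ) {z : ℂ} (hz : z ∈ ball (0 : ℂ) 1) :
    rC (fun z => a * v z + b * w z) z = a * rC v z + b * rC w z := by
  simp only [rC, FR.dx_lin (FR.diffAt hv hz) (FR.diffAt hw hz),
    FR.dy_lin (FR.diffAt hv hz) (FR.diffAt hw hz)]
  push_cast; ring

/-- compactly supported smooth functions of the disc -/
structure Cs (B : ℂ → ℝ) : Prop where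
  sm : ContDiff ℝ ∞ B
  cs : HasCompactSupport B
  ts : tsupport B ⊆ ball 0 1

theorem Cs.c1 {B : ℂ → ℝ} (h : Cs B) : ContDiff ℝ 1 B := h.sm.of_le (by exact_mod_cast le_top)

theorem Cs.circ {B : ℂ → ℝ} (h : Cs B) (z : ℂ) (hz : ‖z‖ = 1) : B z = 0 := by
  refine image_eq_zero_of_notMem_tsupport fun hm => ?_
  have := h.ts hm
  rw [mem_ball_zero_iff, hz] at this
  exact lt_irrefl _ this

theorem Cs.lin {v w : ℂ → ℝ} (hv : Cs v) (hw : Cs w) (a b : ℝ) :
    Cs (fun z => a * v z + b * w z) where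
  sm := (contDiff_const.mul hv.sm).add (contDiff_const.mul hw.sm)
  cs := by
    refine HasCompactSupport.add (f := fun z => a * v z) (f' := fun z => b * w z) ?_ ?_
    · exact hv.cs.mul_left
    · exact hw.cs.mul_left
  ts := by
    have h1 : tsupport (fun z => a * v z + b * w z) ⊆ tsupport v ∪ tsupport w := by
      refine closure_minimal ?_ ((isClosed_tsupport v).union (isClosed_tsupport w))
      intro z hz
      by_contra hne
      rw [mem_union, not_or] at hne
      apply hz
      simp only [image_eq_zero_of_notMem_tsupport hne.1, image_eq_zero_of_notMem_tsupport hne.2,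
        mul_zero, add_zero]
    exact h1.trans (union_subset hv.ts hw.ts)

/-- space of gradients -/
noncomputable def GG : Submodule ℝ (Lp ℂ 2 nu) where
  carrier := {x | ∃ v, ContDiff ℝ ∞ v ∧ x =ᵐ[nu] gC v}
  add_mem' := by
    rintro x y ⟨v, hv, hx⟩ ⟨w, hw, hy⟩
    refine ⟨fun z => 1 * v z + 1 * w z, smLin hv hw 1 1, ?_⟩
    filter_upwards [Lp.coeFn_add x y, hx, hy, ae_restrict_mem measurableSet_ball]
      with z h1 h2 h3 hz
    rw [h1, Pi.add_apply, h2, h3, gC_lin (smc hv).contDiffOn (smc hw).contDiffOn 1 1 hz]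
    simp only [ofReal_one, one_mul]
  zero_mem' := by
    refine ⟨fun _ => 0, contDiff_const, ?_⟩
    filter_upwards [Lp.coeFn_zero ℂ 2 nu] with z h1
    rw [h1]; simp [gC, dx, dy]
  smul_mem' := by
    rintro c x ⟨v, hv, hx⟩
    refine ⟨fun z => c * v z + 0 * v z, smLin hv hv c 0, ?_⟩
    filter_upwards [Lp.coeFn_smul c x, hx, ae_restrict_mem measurableSet_ball] with z h1 h2 hz
    rw [h1, Pi.smul_apply, h2, gC_lin (smc hv).contDiffOn (smc hv).contDiffOn c 0 hz, real_smul]
    simp only [ofReal_zero, zero_mul, add_zero]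

/-- space of rotated gradients -/
noncomputable def KK : Submodule ℝ (Lp ℂ 2 nu) where
  carrier := {x | ∃ B, Cs B ∧ x =ᵐ[nu] rC B}
  add_mem' := by
    rintro x y ⟨v, hv, hx⟩ ⟨w, hw, hy⟩
    refine ⟨fun z => 1 * v z + 1 * w z, Cs.lin hv hw 1 1, ?_⟩
    filter_upwards [Lp.coeFn_add x y, hx, hy, ae_restrict_mem measurableSet_ball]
      with z h1 h2 h3 hz
    rw [h1, Pi.add_apply, h2, h3, rC_lin hv.c1.contDiffOn hw.c1.contDiffOn 1 1 hz]
    simp only [ofReal_one, one_mul]
  zero_mem' := by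
    refine ⟨fun _ => 0, ⟨contDiff_const, HasCompactSupport.zero, ?_⟩, ?_⟩
    · rw [show (fun _ : ℂ => (0 : ℝ)) = 0 from rfl, tsupport_zero]; exact empty_subset _
    · filter_upwards [Lp.coeFn_zero ℂ 2 nu] with z h1
      rw [h1]; simp [rC, dx, dy]
  smul_mem' := by
    rintro c x ⟨v, hv, hx⟩
    refine ⟨fun z => c * v z + 0 * v z, Cs.lin hv hv c 0, ?_⟩
    filter_upwards [Lp.coeFn_smul c x, hx, ae_restrict_mem measurableSet_ball] with z h1 h2 hz
    rw [h1, Pi.smul_apply, h2, rC_lin hv.c1.contDiffOn hv.c1.contDiffOn c 0 hz, real_smul]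
    simp only [ofReal_zero, zero_mul, add_zero]

theorem inner_congr (x y : Lp ℂ 2 nu) {f g : ℂ → ℂ} (hx : x =ᵐ[nu] f) (hy : y =ᵐ[nu] g) :
    ⟪x, y⟫_ℝ = ∫ z in ball (0 : ℂ) 1, ((f z).re * (g z).re + (f z).im * (g z).im) := by
  rw [L2.inner_def]
  refine integral_congr_ae ?_
  filter_upwards [hx, hy] with z h1 h2
  rw [h1, h2, inner_eq]

theorem normsq_congr (x : Lp ℂ 2 nu) {f : ℂ → ℂ} (hx : x =ᵐ[nu] f) :
    ‖x‖ ^ 2 = ∫ z in ball (0 : ℂ) 1, ‖f z‖ ^ 2 := by
  rw [← real_inner_self_eq_norm_sq, inner_congr x x hx hx]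
  refine integral_congr_ae (Eventually.of_forall fun z => ?_)
  simp only [sq_norm_eq]; ring

/-! ### orthogonality of gradients and rotated gradients -/

theorem orth {v B : ℂ → ℝ} (hv : ContDiffOn ℝ 1 v (ball 0 1)) (hB : Cs B) :
    ∫ z in ball (0 : ℂ) 1, (dx v z * dy B z - dy v z * dx B z) = 0 := by
  have hsm : ContDiff ℝ ∞ (fderiv ℝ B) := hB.sm.fderiv_right (by simp)
  have hdx : ContDiff ℝ ∞ (dx B) := hsm.clm_apply contDiff_const
  have hdy : ContDiff ℝ ∞ (dy B) := hsm.clm_apply contDiff_const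
  have cdx : HasCompactSupport (dx B) := hB.cs.fderiv_apply ℝ 1
  have cdy : HasCompactSupport (dy B) := hB.cs.fderiv_apply ℝ I
  have tdx : tsupport (dx B) ⊆ ball 0 1 := (tsupport_fderiv_apply_subset ℝ 1).trans hB.ts
  have tdy : tsupport (dy B) ⊆ ball 0 1 := (tsupport_fderiv_apply_subset ℝ I).trans hB.ts
  have e1 := FR.ibp (hdy.of_le (by exact_mod_cast le_top)) cdy tdy hv 1
  have e2 := FR.ibp (hdx.of_le (by exact_mod_cast le_top)) cdx tdx hv I
  have hsymm : ∀ z, fderiv ℝ (dy B) z 1 = fderiv ℝ (dx B) z I := by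
    intro z
    have hs : IsSymmSndFDerivAt ℝ B z :=
      hB.sm.contDiffAt.isSymmSndFDerivAt (by
        simp only [minSmoothness_of_isRCLikeNormedField]
        exact WithTop.coe_le_coe.2 (le_top : (2 : ℕ∞) ≤ ⊤))
    have hd : DifferentiableAt ℝ (fderiv ℝ B) z := hsm.differentiable (by simp) z
    have a1 : fderiv ℝ (dy B) z 1 = fderiv ℝ (fderiv ℝ B) z 1 I := by
      have h1 := hd.hasFDerivAt.clm_apply (hasFDerivAt_const I z)
      have h2 : fderiv ℝ (dy B) z = _ := h1.fderiv
      rw [h2]; simp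
    have a2 : fderiv ℝ (dx B) z I = fderiv ℝ (fderiv ℝ B) z I 1 := by
      have h1 := hd.hasFDerivAt.clm_apply (hasFDerivAt_const (1 : ℂ) z)
      have h2 : fderiv ℝ (dx B) z = _ := h1.fderiv
      rw [h2]; simp
    rw [a1, a2]
    exact hs 1 I
  have i1 : IntegrableOn (fun z => dx v z * dy B z) (ball 0 1) := by
    have := (FR.integrable_mul hdy.continuous cdy tdy (FR.cont_dx hv)).integrableOn
      (s := ball (0 : ℂ) 1)
    refine this.congr_fun (fun z _ => mul_comm _ _) measurableSet_ball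
  have i2 : IntegrableOn (fun z => dy v z * dx B z) (ball 0 1) := by
    have := (FR.integrable_mul hdx.continuous cdx tdx (FR.cont_dy hv)).integrableOn
      (s := ball (0 : ℂ) 1)
    refine this.congr_fun (fun z _ => mul_comm _ _) measurableSet_ball
  rw [integral_sub i1 i2]
  have f1 : ∫ z in ball (0 : ℂ) 1, dx v z * dy B z =
      ∫ z in ball (0 : ℂ) 1, dy B z * fderiv ℝ v z 1 :=
    integral_congr_ae (Eventually.of_forall fun z => mul_comm _ _)
  have f2 : ∫ z in ball (0 : ℂ) 1, dy v z * dx B z =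
      ∫ z in ball (0 : ℂ) 1, dx B z * fderiv ℝ v z I :=
    integral_congr_ae (Eventually.of_forall fun z => mul_comm _ _)
  rw [f1, f2]
  simp_rw [hsymm] at e1
  linarith

/-- `v = Re (c z^(k+1)) / (k+1)` -/
theorem powTest (c : ℂ) (k : ℕ) :
    ∃ v : ℂ → ℝ, ContDiff ℝ ∞ v ∧ ∀ z, gC v z = conj (c * z ^ k) := by
  refine ⟨fun z => (c / (k + 1) * z ^ (k + 1)).re, ?_, ?_⟩
  · have h1 : ContDiff ℝ ∞ fun z : ℂ => c / (k + 1) * z ^ (k + 1) :=
      contDiff_const.mul (contDiff_id.pow _)
    exact reCLM.contDiff.comp h1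
  · intro z
    have hk : (k + 1 : ℂ) ≠ 0 := by exact_mod_cast Nat.succ_ne_zero k
    have h1 : HasDerivAt (fun z : ℂ => c / (k + 1) * z ^ (k + 1)) (c * z ^ k) z := by
      have := (hasDerivAt_pow (k + 1) z).const_mul (c / (k + 1))
      refine this.congr_deriv ?_
      push_cast
      field_simp
    have h2 := (reCLM.hasFDerivAt.comp z (h1.hasFDerivAt.restrictScalars ℝ)).fderiv
    have h3 : (reCLM ∘ fun z : ℂ => c / (k + 1) * z ^ (k + 1)) =
      fun z : ℂ => (c / (k + 1) * z ^ (k + 1)).re := rfl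
    rw [h3] at h2
    unfold gC dx dy
    rw [h2]
    generalize c * z ^ k = w
    apply Complex.ext
    · simp
    · simp

theorem perp (x : Lp ℂ 2 nu) (hG : ∀ g ∈ GG, ⟪g, x⟫_ℝ = 0) (hK : ∀ k ∈ KK, ⟪k, x⟫_ℝ = 0) :
    x = 0 := by
  have hx2 : MemLp x 2 nu := Lp.memLp x
  have hx1 : Integrable x nu := hx2.integrable (by norm_num)
  have hG' : ∀ v, ContDiff ℝ ∞ v → ∫ z in ball (0 : ℂ) 1,
      ((gC v z).re * (x z).re + (gC v z).im * (x z).im) = 0 := by
    intro v hv
    have hm := gC_memLp (smc hv).contDiffOn (en_of hv)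
    have hmem : hm.toLp (gC v) ∈ GG := ⟨v, hv, hm.coeFn_toLp⟩
    rw [← inner_congr _ _ hm.coeFn_toLp (EventuallyEq.refl _ _)]
    exact hG _ hmem
  have hK' : ∀ B, Cs B → ∫ z in ball (0 : ℂ) 1,
      ((rC B z).re * (x z).re + (rC B z).im * (x z).im) = 0 := by
    intro B hB
    have hm := rC_memLp hB.c1.contDiffOn (en_of hB.sm)
    have hmem : hm.toLp (rC B) ∈ KK := ⟨B, hB, hm.coeFn_toLp⟩
    rw [← inner_congr _ _ hm.coeFn_toLp (EventuallyEq.refl _ _)]
    exact hK _ hmem
  have hF : IntegrableOn (fun z => conj (x z)) (ball 0 1) := by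
    have := (conjCLE : ℂ →L[ℝ] ℂ).integrable_comp hx1
    exact this
  have hzero : ∀ᵐ z ∂nu, conj (x z) = 0 := by
    refine hol_zero hF ?_ ?_
    · intro B hB hc hs
      have hCs : Cs B := ⟨hB, hc, hs⟩
      have hcont : Continuous (gC B) := by
        have : Continuous (fderiv ℝ B) := hCs.c1.continuous_fderiv one_ne_zero
        unfold gC dx dy
        fun_prop
      obtain ⟨C, hC⟩ := (isCompact_closedBall (0 : ℂ) 1).exists_bound_of_continuousOn
        hcont.continuousOn
      have hint : IntegrableOn (fun z => conj (x z) * ((dx B z : ℂ) + dy B z * I)) (ball 0 1) := by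
        refine Integrable.mul_bdd (c := C) hF hcont.aestronglyMeasurable ?_
        refine (ae_restrict_iff' measurableSet_ball).2 (Eventually.of_forall fun z hz => ?_)
        exact hC z (ball_subset_closedBall hz)
      apply Complex.ext
      · have := (reCLM.integral_comp_comm hint).symm
        simp only [reCLM_apply] at this
        rw [this, zero_re, ← hG' B hB]
        refine integral_congr_ae (Eventually.of_forall fun z => ?_)
        simp only [gC_re, gC_im]
        simp
        ring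
      · have := (imCLM.integral_comp_comm hint).symm
        simp only [imCLM_apply] at this
        rw [this, zero_im, ← hK' B hCs]
        refine integral_congr_ae (Eventually.of_forall fun z => ?_)
        simp only [rC_re, rC_im]
        simp
        ring
    · intro k
      have hint : IntegrableOn (fun z => x z * z ^ k) (ball 0 1) := by
        refine Integrable.mul_bdd (c := 1) hx1 (Continuous.aestronglyMeasurable (by fun_prop)) ?_
        refine (ae_restrict_iff' measurableSet_ball).2 (Eventually.of_forall fun z hz => ?_)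
        have hz1 : ‖z‖ ≤ 1 := by
          simpa using (ball_subset_closedBall hz : z ∈ closedBall (0 : ℂ) 1)
        rw [norm_pow]; exact pow_le_one₀ (norm_nonneg _) hz1
      have e : ∫ z in ball (0 : ℂ) 1, conj (x z) * conj z ^ k =
          conj (∫ z in ball (0 : ℂ) 1, x z * z ^ k) := by
        rw [← integral_conj]
        refine integral_congr_ae (Eventually.of_forall fun z => ?_)
        simp
      rw [e]
      have : ∫ z in ball (0 : ℂ) 1, x z * z ^ k = 0 := by
        apply Complex.ext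
        · have h1 := (reCLM.integral_comp_comm hint).symm
          simp only [reCLM_apply] at h1
          obtain ⟨v, hv, hvg⟩ := powTest 1 k
          rw [h1, zero_re, ← hG' v hv]
          refine integral_congr_ae (Eventually.of_forall fun z => ?_)
          simp only [hvg]
          generalize z ^ k = w
          simp
          try ring
        · have h1 := (imCLM.integral_comp_comm hint).symm
          simp only [imCLM_apply] at h1
          obtain ⟨v, hv, hvg⟩ := powTest (-I) k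
          rw [h1, zero_im, ← hG' v hv]
          refine integral_congr_ae (Eventually.of_forall fun z => ?_)
          simp only [hvg]
          generalize z ^ k = w
          simp
          try ring
      rw [this]; simp
  rw [Lp.eq_zero_iff_ae_eq_zero]
  filter_upwards [hzero] with z hz
  simpa using hz

end Hdg

/-- P3 (Hodge inequality).  `V = (V1, V2)`; `p` = weak divergence (including
tangentiality), `r` = weak curl, both with weight `ρ` (signs: `∫ V·∇v = ∫ ρ p v`,
`∫ V·(∂_y B, -∂_x B) = ∫ ρ r B`). -/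
theorem hodge {φ : ℂ → ℂ} {U : ℂ → ℝ} {μ : ℝ} (h : Setting φ U μ)
    {V1 V2 p r : ℂ → ℝ}
    (hV1 : AEStronglyMeasurable V1 (volume.restrict (ball 0 1)))
    (hV2 : AEStronglyMeasurable V2 (volume.restrict (ball 0 1)))
    (hp : AEStronglyMeasurable p (volume.restrict (ball 0 1)))
    (hr : AEStronglyMeasurable r (volume.restrict (ball 0 1)))
    (hV : IntegrableOn (fun z => V1 z ^ 2 + V2 z ^ 2) (ball 0 1))
    (hp2 : IntegrableOn (fun z => rho φ z * p z ^ 2) (ball 0 1))
    (hr2 : IntegrableOn (fun z => rho φ z * r z ^ 2) (ball 0 1))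
    (hdiv : ∀ v : ℂ → ℝ, ContDiff ℝ ∞ v → ∫ z in ball (0 : ℂ) 1, (V1 z * dx v z + V2 z * dy v z) =
      ∫ z in ball (0 : ℂ) 1, rho φ z * p z * v z)
    (hcurl : ∀ B : ℂ → ℝ, ContDiff ℝ ∞ B → (∀ z, ‖z‖ = 1 → B z = 0) →
      ∫ z in ball (0 : ℂ) 1, (V1 z * dy B z - V2 z * dx B z) =
      ∫ z in ball (0 : ℂ) 1, rho φ z * r z * B z) :
    μ * ∫ z in ball (0 : ℂ) 1, (V1 z ^ 2 + V2 z ^ 2) ≤
      (∫ z in ball (0 : ℂ) 1, rho φ z * p z ^ 2) + ∫ z in ball (0 : ℂ) 1, rho φ z * r z ^ 2 := by
  open Hdg in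
  have hφ := h.conf
  have hμ := h.μpos
  set Pp := ∫ z in ball (0 : ℂ) 1, rho φ z * p z ^ 2 with hPp
  set Rr := ∫ z in ball (0 : ℂ) 1, rho φ z * r z ^ 2 with hRr
  have hP0 : 0 ≤ Pp := integral_nonneg fun z => mul_nonneg (FR.rho_nonneg φ z) (sq_nonneg _)
  have hR0 : 0 ≤ Rr := integral_nonneg fun z => mul_nonneg (FR.rho_nonneg φ z) (sq_nonneg _)
  have hrm : AEStronglyMeasurable (rho φ) nu :=
    (FR.cont_rho hφ).aestronglyMeasurable measurableSet_ball
  -- integrability of `ρ q v`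
  have hint : ∀ q : ℂ → ℝ, AEStronglyMeasurable q nu →
      IntegrableOn (fun z => rho φ z * q z ^ 2) (ball 0 1) → ∀ v, Adm φ v →
      IntegrableOn (fun z => rho φ z * q z * v z) (ball 0 1) := by
    intro q hq hq2 v hv
    refine Integrable.mono' (hq2.add hv.l2)
      ((hrm.mul hq).mul (hv.c1.continuousOn.aestronglyMeasurable measurableSet_ball)) ?_
    refine ae_of_all _ fun z => ?_
    have h0 := FR.rho_nonneg φ z
    simp only [Pi.add_apply, Real.norm_eq_abs]
    rw [mul_assoc, abs_mul, abs_of_nonneg h0, ← mul_add]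
    refine mul_le_mul_of_nonneg_left ?_ h0
    rw [abs_le]
    constructor <;> nlinarith [sq_nonneg (q z + v z), sq_nonneg (q z - v z), sq_nonneg (v z),
      sq_nonneg (q z)]
  -- the vector field
  set VC : ℂ → ℂ := fun z => (V1 z : ℂ) + V2 z * I with hVC
  have hVCm : AEStronglyMeasurable VC nu :=
    (continuous_ofReal.comp_aestronglyMeasurable hV1).add
      ((continuous_ofReal.comp_aestronglyMeasurable hV2).mul_const I)
  have hVCre : ∀ z, (VC z).re = V1 z := fun z => by simp [hVC]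
  have hVCim : ∀ z, (VC z).im = V2 z := fun z => by simp [hVC]
  have hVCn : ∀ z, ‖VC z‖ ^ 2 = V1 z ^ 2 + V2 z ^ 2 := fun z => by
    rw [sq_norm_eq, hVCre, hVCim]
  have hVL : MemLp VC 2 nu := by
    rw [memLp_two_iff_integrable_sq_norm hVCm]
    simp_rw [hVCn]; exact hV
  set X : Lp ℂ 2 nu := hVL.toLp VC with hX
  have hXe : X =ᵐ[nu] VC := hVL.coeFn_toLp
  -- mean zero of `p`
  have hp0 : ∫ z in ball (0 : ℂ) 1, rho φ z * p z = 0 := by
    have := hdiv (fun _ => 1) contDiff_const
    simp only [mul_one] at this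
    rw [← this]
    have : ∀ z : ℂ, V1 z * dx (fun _ => (1 : ℝ)) z + V2 z * dy (fun _ => (1 : ℝ)) z = 0 := by
      intro z; simp [dx, dy]
    simp_rw [this]; simp
  have main := hodge_abstract GG KK (V := X) (A := Real.sqrt (Pp / μ)) (B := Real.sqrt (Rr / μ))
    ?_ perp (Real.sqrt_nonneg _) (Real.sqrt_nonneg _) ?_ ?_
  · rw [Real.sq_sqrt (by positivity), Real.sq_sqrt (by positivity), normsq_congr X hXe] at main
    simp_rw [hVCn] at main
    have h1 := mul_le_mul_of_nonneg_left main hμ.le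
    have h2 : μ * (Pp / μ + Rr / μ) = Pp + Rr := by field_simp
    linarith
  · rintro g ⟨v, hv, hg⟩ k ⟨B, hB, hk⟩
    rw [inner_congr g k hg hk, ← orth (smc hv).contDiffOn hB]
    refine integral_congr_ae (Eventually.of_forall fun z => ?_)
    simp only [gC_re, gC_im, rC_re, rC_im]
    ring
  · rintro g ⟨v, hv, hg⟩
    have hadm := testAdm hφ hv
    have h1a : Adm φ (fun _ => (1 : ℝ)) := testAdm hφ contDiff_const
    have hI : ⟪X, g⟫_ℝ = ∫ z in ball (0 : ℂ) 1, rho φ z * p z * v z := by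
      rw [inner_congr X g hXe hg, ← hdiv v hv]
      refine integral_congr_ae (Eventually.of_forall fun z => ?_)
      simp only [gC_re, gC_im, hVCre, hVCim]
    have hn : ‖g‖ ^ 2 = ∫ z in ball (0 : ℂ) 1, g2 v z := by
      rw [normsq_congr g hg]; simp_rw [gC_norm]
    have hpos := FR.rho_integral_pos hφ
    set c := (∫ z in ball (0 : ℂ) 1, rho φ z * v z) / ∫ z in ball (0 : ℂ) 1, rho φ z with hc
    have hvc : Adm φ (fun z => 1 * v z + (-c) * 1) := FR.Adm_lin hφ hadm h1a 1 (-c)
    have hi1 := FR.int_rho1 hφ hadm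
    have hmz : ∫ z in ball (0 : ℂ) 1, rho φ z * (1 * v z + (-c) * 1) = 0 := by
      have e : ∀ z, rho φ z * (1 * v z + (-c) * 1) = rho φ z * v z - c * rho φ z := by
        intro z; ring
      simp_rw [e]
      rw [integral_sub hi1 (hφ.rho_int.const_mul c), integral_const_mul, hc]
      field_simp
      ring
    have hray := h.ray _ hvc hmz
    have hg2 : ∫ z in ball (0 : ℂ) 1, g2 (fun z => 1 * v z + (-c) * 1) z =
        ∫ z in ball (0 : ℂ) 1, g2 v z := by
      refine setIntegral_congr_fun measurableSet_ball fun z hz => ?_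
      rw [FR.g2_lin hadm.c1 h1a.c1 1 (-c) hz]
      simp [g2, ip, dx, dy]
    rw [hg2, ← hn] at hray
    have hipv : ∫ z in ball (0 : ℂ) 1, rho φ z * p z * v z =
        ∫ z in ball (0 : ℂ) 1, rho φ z * p z * (1 * v z + (-c) * 1) := by
      have e : ∀ z, rho φ z * p z * (1 * v z + (-c) * 1) =
          rho φ z * p z * v z - c * (rho φ z * p z * 1) := by
        intro z; ring
      simp_rw [e]
      rw [integral_sub (hint p hp hp2 v hadm) ((hint p hp hp2 _ h1a).const_mul c),
        integral_const_mul]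
      simp_rw [mul_one]
      rw [hp0]; ring
    have hcs := wcs (FR.rho_nonneg φ) hp2 hvc.l2 (hint p hp hp2 _ hvc)
    rw [hI, hipv]
    refine (le_abs_self _).trans ?_
    rw [← Real.sqrt_sq (norm_nonneg g), ← Real.sqrt_mul (by positivity), ← Real.sqrt_sq_eq_abs]
    apply Real.sqrt_le_sqrt
    refine hcs.trans ?_
    rw [div_mul_eq_mul_div, le_div_iff₀ hμ]
    have := mul_le_mul_of_nonneg_left hray hP0
    nlinarith
  · rintro k ⟨B, hB, hk⟩
    have hadm := testAdm hφ hB.sm
    have hI : ⟪X, k⟫_ℝ = ∫ z in ball (0 : ℂ) 1, rho φ z * r z * B z := by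
      rw [inner_congr X k hXe hk, ← hcurl B hB.sm hB.circ]
      refine integral_congr_ae (Eventually.of_forall fun z => ?_)
      simp only [rC_re, rC_im, hVCre, hVCim]
      ring
    have hn : ‖k‖ ^ 2 = ∫ z in ball (0 : ℂ) 1, g2 B z := by
      rw [normsq_congr k hk]; simp_rw [rC_norm]
    have hfr := dirichlet_ge h hB.sm hB.cs hB.ts
    rw [← hn] at hfr
    have hcs := wcs (FR.rho_nonneg φ) hr2 hadm.l2 (hint r hr hr2 _ hadm)
    rw [hI]
    refine (le_abs_self _).trans ?_
    rw [← Real.sqrt_sq (norm_nonneg k), ← Real.sqrt_mul (by positivity), ← Real.sqrt_sq_eq_abs]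
    apply Real.sqrt_le_sqrt
    refine hcs.trans ?_
    rw [div_mul_eq_mul_div, le_div_iff₀ hμ]
    have := mul_le_mul_of_nonneg_left hfr hR0
    nlinarith

end Crest.Agent.R101
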