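import Crest.Agent.R101.EnD
import Crest.Agent.R101.CoreC
import Crest.Agent.R101.Hodge

/-! Row 101, part P5 (helper251): assembly of the energy inequality (with the `A`-energy identity
as a hypothesis). -/

set_option autoImplicit false

open MeasureTheory Metric Set Filter Topology Complex
open scoped ContDiff ComplexConjugate

namespace Crest.Agent.R101.En

open Crest.Agent.R101

variable {φ : ℂ → ℂ} {U W : ℂ → ℝ} {μ c0 : ℝ} {β : ℂ}

theorem ae_D0 : ∀ᵐ z ∂(volume.restrict (ball (0:ℂ) 1)), z ∈ D0 := by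
  filter_upwards [ae_restrict_mem measurableSet_ball, ae_ne_zero_disc] with z hz hz0
  exact ⟨hz, by simpa using hz0⟩

/-- first component of the field `V`. -/
noncomputable def V1 (φ : ℂ → ℂ) (W : ℂ → ℝ) (c0 : ℝ) (β z : ℂ) : ℝ :=
  VA1 β W z + c0 * (TT φ β z).re
/-- second component of the field `V`. -/
noncomputable def V2 (φ : ℂ → ℂ) (W : ℂ → ℝ) (c0 : ℝ) (β z : ℂ) : ℝ :=
  VA2 β W z - c0 * (TT φ β z).im

/-- `h = μ M W conj(φ') + c0 conj((M φ)')`. -/
noncomputable def hh (φ : ℂ → ℂ) (W : ℂ → ℝ) (μ c0 : ℝ) (β z : ℂ) : ℂ :=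
  (μ : ℂ) * MM β z * (W z : ℂ) * conj (deriv φ z) + (c0 : ℂ) * conj (hp φ β z)

noncomputable def pp (φ : ℂ → ℂ) (W : ℂ → ℝ) (μ c0 : ℝ) (β z : ℂ) : ℝ :=
  (hh φ W μ c0 β z / conj (deriv φ z)).re
noncomputable def rr (φ : ℂ → ℂ) (W : ℂ → ℝ) (μ c0 : ℝ) (β z : ℂ) : ℝ :=
  (hh φ W μ c0 β z / conj (deriv φ z)).im

theorem dphi_ne (h : Conf φ) {z : ℂ} (hz : z ∈ D0) : deriv φ z ≠ 0 :=
  Crest.Agent.Lib.deriv_ne_zero_of_injOn isOpen_ball h.holo h.inj hz.1

theorem rho_mul_div (h : Conf φ) {z : ℂ} (hz : z ∈ D0) (x : ℂ) :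
    ((rho φ z : ℝ) : ℂ) * (x / conj (deriv φ z)) = deriv φ z * x := by
  have hne := dphi_ne h hz
  have hne' : conj (deriv φ z) ≠ 0 := by simpa using hne
  rw [rho, ← normSq_eq_norm_sq, ← Complex.mul_conj]
  field_simp

theorem rho_pp (h : Conf φ) {z : ℂ} (hz : z ∈ D0) :
    rho φ z * pp φ W μ c0 β z = (deriv φ z * hh φ W μ c0 β z).re := by
  rw [← rho_mul_div h hz, re_ofReal_mul, pp]

theorem rho_rr (h : Conf φ) {z : ℂ} (hz : z ∈ D0) :
    rho φ z * rr φ W μ c0 β z = (deriv φ z * hh φ W μ c0 β z).im := by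
  rw [← rho_mul_div h hz, im_ofReal_mul, rr]

theorem rho_pr_sq (h : Conf φ) {z : ℂ} (hz : z ∈ D0) :
    rho φ z * pp φ W μ c0 β z ^ 2 + rho φ z * rr φ W μ c0 β z ^ 2 = ‖hh φ W μ c0 β z‖ ^ 2 := by
  have hne := dphi_ne h hz
  have h1 : ‖hh φ W μ c0 β z / conj (deriv φ z)‖ ^ 2 = pp φ W μ c0 β z ^ 2 + rr φ W μ c0 β z ^ 2 := by
    rw [← normSq_eq_norm_sq, normSq_apply, pp, rr]; ring
  rw [← mul_add, ← h1, norm_div, norm_conj, rho, div_pow]
  have : ‖deriv φ z‖ ≠ 0 := by simpa using hne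
  field_simp

theorem ofReal_rho (z : ℂ) : ((rho φ z : ℝ) : ℂ) = deriv φ z * conj (deriv φ z) := by
  rw [rho, ← normSq_eq_norm_sq, ← Complex.mul_conj]

/-- components identity for `φ' h`. -/
theorem dphi_hh (z : ℂ) : deriv φ z * hh φ W μ c0 β z =
    (rho φ z * (c0 + μ * W z) : ℝ) * MM β z
      - (c0 : ℂ) * (2 * I * (RR β z : ℂ) * (deriv φ z * conj (deriv φ z))
      - deriv φ z * conj (MM' β z * φ z)) := by
  have h1 : (MM β z) - conj (MM β z) = 2 * I * (RR β z : ℂ) := by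
    rw [RR]
    apply Complex.ext <;> simp <;> ring
  rw [hh, hp, map_add, map_mul (starRingEnd ℂ) (MM β z)]
  push_cast
  rw [ofReal_rho, ← h1]
  ring

section

variable (h : Setting φ U μ) (hW : WSet φ W μ c0) (hβ : ‖β‖ = 1)

theorem gr_mul_TT (v : ℂ → ℝ) (z : ℂ) : ((TT φ β z) * gr v z).re =
    (TT φ β z).re * dx v z - (TT φ β z).im * dy v z := by
  rw [mul_re, gr_re, gr_im]

theorem gr_mul_TT' (v : ℂ → ℝ) (z : ℂ) : (-I * ((TT φ β z) * gr v z)).re =
    (TT φ β z).re * dy v z + (TT φ β z).im * dx v z := by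
  simp only [mul_re, mul_im, neg_re, neg_im, I_re, I_im, gr_re, gr_im]
  ring

include hW hβ in
theorem weak_div (hc : Conf φ) {v : ℂ → ℝ} (hv : ContDiff ℝ ∞ v) :
    ∫ z in ball (0 : ℂ) 1, (V1 φ W c0 β z * dx v z + V2 φ W c0 β z * dy v z) =
      ∫ z in ball (0 : ℂ) 1, rho φ z * pp φ W μ c0 β z * v z := by
  obtain ⟨i1, i2, e12⟩ := div_A hc hW hβ hv
  obtain ⟨j1, j2, f12⟩ := TT_weak hc hβ hv (c := 1) (by simp)
  have e1 : ∫ z in ball (0 : ℂ) 1, (V1 φ W c0 β z * dx v z + V2 φ W c0 β z * dy v z) =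
      (∫ z in ball (0 : ℂ) 1, (VA1 β W z * dx v z + VA2 β W z * dy v z)) +
      ∫ z in ball (0 : ℂ) 1, c0 * (1 * (TT φ β z * gr v z)).re := by
    rw [← integral_add i1 (j1.const_mul c0)]
    apply integral_congr_ae
    refine Eventually.of_forall fun z => ?_
    simp only [one_mul]
    rw [gr_mul_TT, V1, V2]
    ring
  have e2 : ∫ z in ball (0 : ℂ) 1, rho φ z * pp φ W μ c0 β z * v z =
      (∫ z in ball (0 : ℂ) 1, rho φ z * (c0 + μ * W z) * (MM β z).re * v z) -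
      ∫ z in ball (0 : ℂ) 1, c0 * (1 * ((2 * I * (RR β z : ℂ) * (deriv φ z * conj (deriv φ z))
      - deriv φ z * conj (MM' β z * φ z)) * (v z : ℂ))).re := by
    rw [← integral_sub i2 (j2.const_mul c0)]
    apply integral_congr_ae
    filter_upwards [ae_D0] with z hz
    rw [rho_pp hc hz, dphi_hh, one_mul, sub_re, re_ofReal_mul, re_ofReal_mul, re_mul_ofReal]
    ring
  rw [e1, e2, integral_const_mul, integral_const_mul, e12, f12]
  ring

include hW hβ in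
theorem weak_curl (hc : Conf φ) {B : ℂ → ℝ} (hB : ContDiff ℝ ∞ B) (hB0 : ∀ z, ‖z‖ = 1 → B z = 0) :
    ∫ z in ball (0 : ℂ) 1, (V1 φ W c0 β z * dy B z - V2 φ W c0 β z * dx B z) =
      ∫ z in ball (0 : ℂ) 1, rho φ z * rr φ W μ c0 β z * B z := by
  obtain ⟨i1, i2, e12⟩ := curl_A hc hW hβ hB hB0
  obtain ⟨j1, j2, f12⟩ := TT_weak hc hβ hB (c := -I) (by simp)
  have e1 : ∫ z in ball (0 : ℂ) 1, (V1 φ W c0 β z * dy B z - V2 φ W c0 β z * dx B z) =
      (∫ z in ball (0 : ℂ) 1, (VA1 β W z * dy B z - VA2 β W z * dx B z)) +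
      ∫ z in ball (0 : ℂ) 1, c0 * (-I * (TT φ β z * gr B z)).re := by
    rw [← integral_add i1 (j1.const_mul c0)]
    apply integral_congr_ae
    refine Eventually.of_forall fun z => ?_
    simp only
    rw [gr_mul_TT', V1, V2]
    ring
  have e2 : ∫ z in ball (0 : ℂ) 1, rho φ z * rr φ W μ c0 β z * B z =
      (∫ z in ball (0 : ℂ) 1, rho φ z * (c0 + μ * W z) * RR β z * B z) -
      ∫ z in ball (0 : ℂ) 1, c0 * (-I * ((2 * I * (RR β z : ℂ) * (deriv φ z * conj (deriv φ z))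
      - deriv φ z * conj (MM' β z * φ z)) * (B z : ℂ))).re := by
    rw [← integral_sub i2 (j2.const_mul c0)]
    apply integral_congr_ae
    filter_upwards [ae_D0] with z hz
    have hI : ∀ x : ℂ, (-I * (x * (B z : ℂ))).re = x.im * B z := by
      intro x; simp
    rw [rho_rr hc hz, dphi_hh, hI, sub_im, im_ofReal_mul, im_ofReal_mul, RR]
    ring
  rw [e1, e2, integral_const_mul, integral_const_mul, e12, f12]
  ring

end

/-! ### Pointwise expansions -/

theorem V_sq (z : ℂ) : V1 φ W c0 β z ^ 2 + V2 φ W c0 β z ^ 2 =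
    ‖MM β z‖ ^ 2 * g2 W z + c0 ^ 2 * (RR β z ^ 2 * ‖φ z‖ ^ 2 * rho φ z)
      + 2 * c0 * (XX φ W β z).im := by
  rw [V1, V2, VA1, VA2, XX, TT, rho, g2, ← normSq_eq_norm_sq, ← normSq_eq_norm_sq,
    ← normSq_eq_norm_sq, normSq_apply, normSq_apply, normSq_apply]
  simp only [RR, mul_re, mul_im, conj_re, conj_im, I_re, I_im, ofReal_re, ofReal_im, gr_re, gr_im]
  ring

theorem hh_sq (z : ℂ) : ‖hh φ W μ c0 β z‖ ^ 2 =
    μ ^ 2 * (rho φ z * ‖MM β z‖ ^ 2 * W z ^ 2) + c0 ^ 2 * ‖hp φ β z‖ ^ 2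
      + 2 * μ * c0 * (W z * (conj (deriv φ z) * MM β z * hp φ β z).re) := by
  rw [hh, rho, ← normSq_eq_norm_sq, ← normSq_eq_norm_sq,
    ← normSq_eq_norm_sq, ← normSq_eq_norm_sq, normSq_apply, normSq_apply, normSq_apply, normSq_apply]
  simp only [add_re, add_im, mul_re, mul_im, conj_re, conj_im, ofReal_re, ofReal_im]
  ring

theorem lin_identity (z : ℂ) :
    -2 * (RR β z * kap φ β z * W z) - rho φ z * W z * (MM β z ^ 2).re =
      rho φ z * ‖MM β z‖ ^ 2 * W z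
      + 2 * (W z * (conj (deriv φ z) * MM' β z * (MM β z * φ z)).re)
      - 4 * (W z * (RR β z * (conj (deriv φ z) * hp φ β z).im))
      - 2 * (W z * (conj (deriv φ z) * MM β z * hp φ β z).re) := by
  rw [kap, hp, rho, ← normSq_eq_norm_sq, ← normSq_eq_norm_sq, normSq_apply, normSq_apply, pow_two (MM β z)]
  simp only [RR, add_re, add_im, mul_re, mul_im, conj_re, conj_im]
  ring

/-! ### More integrability -/

theorem int_rhoMW (h : Conf φ) (hW : WSet φ W μ c0) (hβ : ‖β‖ = 1)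
    (hL2 : IntegrableOn (fun z => W z ^ 2) (ball 0 1)) :
    IntegrableOn (fun z => rho φ z * ‖MM β z‖ ^ 2 * W z) (ball (0:ℂ) 1) ∧
    IntegrableOn (fun z => rho φ z * W z * (MM β z ^ 2).re) (ball (0:ℂ) 1) := by
  have h1 := (contDiffOn_dphi h 0).continuousOn
  have h4 := (contDiffOn_MM β 0).continuousOn
  have hρ : ContinuousOn (rho φ) D0 := by unfold rho; exact h1.norm.pow 2
  have hM : ∀ z ∈ D0, ‖MM β z‖ ^ 2 ≤ 4 / ‖z‖ ^ 2 := by
    intro z hz
    have := pow_le_pow_left₀ (norm_nonneg _) (norm_MM_le hβ (mem_D0.1 hz).2 (mem_D0.1 hz).1.le) 2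
    calc _ ≤ (2 / ‖z‖) ^ 2 := this
      _ = 4 / ‖z‖ ^ 2 := by ring
  constructor
  · refine intW h hW hL2 ((hρ.mul (h4.norm.pow 2)).mul (Wcont hW)) (K := 4) (by norm_num) ?_
    intro z hz
    have hρ0 := rho_nonneg (φ := φ) z
    have hzn : 0 < ‖z‖ := norm_pos_iff.2 (mem_D0.1 hz).2
    rw [abs_mul, abs_mul, abs_of_nonneg hρ0, abs_of_nonneg (by positivity : 0 ≤ ‖MM β z‖ ^ 2)]
    calc rho φ z * ‖MM β z‖ ^ 2 * |W z| ≤ rho φ z * (4 / ‖z‖ ^ 2) * |W z| := by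
          gcongr; exact hM z hz
      _ = 4 * (|W z| * rho φ z / ‖z‖ ^ 2) := by ring
      _ ≤ 4 * (|W z| * (‖deriv φ z‖ + rho φ z) / ‖z‖ ^ 2) := by
          gcongr; linarith [norm_nonneg (deriv φ z)]
  · refine intW h hW hL2 ((hρ.mul (Wcont hW)).mul
      (Complex.continuous_re.comp_continuousOn (h4.pow 2))) (K := 4) (by norm_num) ?_
    intro z hz
    have hρ0 := rho_nonneg (φ := φ) z
    have hzn : 0 < ‖z‖ := norm_pos_iff.2 (mem_D0.1 hz).2
    rw [abs_mul, abs_mul, abs_of_nonneg hρ0]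
    have h5 : |(MM β z ^ 2).re| ≤ 4 / ‖z‖ ^ 2 := by
      refine (abs_re_le_norm _).trans ?_
      rw [norm_pow]; exact hM z hz
    calc rho φ z * |W z| * |(MM β z ^ 2).re| ≤ rho φ z * |W z| * (4 / ‖z‖ ^ 2) := by
          gcongr
      _ = 4 * (|W z| * rho φ z / ‖z‖ ^ 2) := by ring
      _ ≤ 4 * (|W z| * (‖deriv φ z‖ + rho φ z) / ‖z‖ ^ 2) := by
          gcongr; linarith [norm_nonneg (deriv φ z)]

theorem int4 (h : Conf φ) (hW : WSet φ W μ c0) (hβ : ‖β‖ = 1)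
    (hL2 : IntegrableOn (fun z => W z ^ 2) (ball 0 1)) :
    IntegrableOn (fun z => W z * (conj (deriv φ z) * MM β z * hp φ β z).re)
      (ball (0:ℂ) 1) := by
  obtain ⟨C, hC, hb⟩ := norm_hp_le h hβ
  refine intW h hW hL2 ?_ (K := 2 * C) (by positivity) ?_
  · have h1 := (contDiffOn_dphi h 0).continuousOn
    have h3 := (contDiffOn_MM β 0).continuousOn
    have h4 := (contDiffOn_hp h β 0).continuousOn
    exact (Wcont hW).mul (Complex.continuous_re.comp_continuousOn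
      (((Complex.continuous_conj.comp_continuousOn h1).mul h3).mul h4))
  · intro z hz
    have hz0 := (mem_D0.1 hz).2
    have hz1 := (mem_D0.1 hz).1
    have hzn : 0 < ‖z‖ := norm_pos_iff.2 hz0
    rw [abs_mul]
    have a0 : |(conj (deriv φ z) * MM β z * hp φ β z).re| ≤
        ‖deriv φ z‖ * ((2 / ‖z‖) * (C * ((1 + ‖deriv φ z‖) / ‖z‖))) := by
      refine (abs_re_le_norm _).trans ?_
      rw [norm_mul, norm_mul, norm_conj, mul_assoc]
      exact mul_le_mul_of_nonneg_left (mul_le_mul (norm_MM_le hβ hz0 hz1.le) (hb z hz)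
        (norm_nonneg _) (by positivity)) (norm_nonneg _)
    calc |W z| * |(conj (deriv φ z) * MM β z * hp φ β z).re|
        ≤ |W z| * (‖deriv φ z‖ * ((2 / ‖z‖) * (C * ((1 + ‖deriv φ z‖) / ‖z‖)))) :=
          mul_le_mul_of_nonneg_left a0 (abs_nonneg _)
      _ = 2 * C * (|W z| * (‖deriv φ z‖ + rho φ z) / ‖z‖ ^ 2) := by rw [rho]; field_simp

theorem int_T (h : Conf φ) (hβ : ‖β‖ = 1) :
    IntegrableOn (fun z => RR β z ^ 2 * ‖φ z‖ ^ 2 * rho φ z) (ball (0:ℂ) 1) := by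
  obtain ⟨C, hC, hb⟩ := conf_norm_le h
  have h1 := (contDiffOn_dphi h 0).continuousOn
  have h2 := (contDiffOn_phi h 0).continuousOn
  have h3 := (contDiffOn_RR β 0).continuousOn
  have hρ : ContinuousOn (rho φ) D0 := by unfold rho; exact h1.norm.pow 2
  apply Integrable.mono' (h.rho_int.const_mul (C ^ 2))
    (aesm_of_continuousOn (((h3.pow 2).mul (h2.norm.pow 2)).mul hρ))
  filter_upwards [ae_D0] with z hz
  have hz0 := (mem_D0.1 hz).2
  have hz1 := (mem_D0.1 hz).1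
  have hzn : 0 < ‖z‖ := norm_pos_iff.2 hz0
  have hρ0 := rho_nonneg (φ := φ) z
  have a1 : |RR β z| * ‖φ z‖ ≤ 1 / ‖z‖ * (C * ‖z‖) :=
    mul_le_mul (abs_RR_le' hβ hz0 hz1.le) (hb z hz.1) (norm_nonneg _) (by positivity)
  have a2 : 1 / ‖z‖ * (C * ‖z‖) = C := by field_simp
  rw [a2] at a1
  have a3 := pow_le_pow_left₀ (by positivity) a1 2
  change ‖RR β z ^ 2 * ‖φ z‖ ^ 2 * rho φ z‖ ≤ C ^ 2 * rho φ z
  rw [Real.norm_eq_abs, abs_mul, abs_of_nonneg hρ0, abs_mul, abs_of_nonneg (sq_nonneg _),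
    abs_of_nonneg (by positivity : 0 ≤ ‖φ z‖ ^ 2), ← sq_abs (RR β z), ← mul_pow]
  exact mul_le_mul_of_nonneg_right a3 hρ0

/-- **Energy inequality**, given the energy identity of the `A` part. -/
theorem energy_le_of (h : Setting φ U μ) (hW : WSet φ W μ c0) (hβ : ‖β‖ = 1)
    (hL2 : IntegrableOn (fun z => W z ^ 2) (ball 0 1))
    (hhp : IntegrableOn (fun ζ => ‖hp φ β ζ‖ ^ 2) (ball 0 1))
    (hA1 : IntegrableOn (fun z => ‖MM β z‖ ^ 2 * g2 W z) (ball 0 1))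
    (hA2 : IntegrableOn (fun z => rho φ z * (c0 + μ * W z) * ‖MM β z‖ ^ 2 * W z) (ball 0 1))
    (hA3 : IntegrableOn (fun z => W z ^ 2 * ‖MM' β z‖ ^ 2) (ball 0 1))
    (hAe : ∫ z in ball (0:ℂ) 1, ‖MM β z‖ ^ 2 * g2 W z =
      (∫ z in ball (0:ℂ) 1, rho φ z * (c0 + μ * W z) * ‖MM β z‖ ^ 2 * W z)
      + 2 * ∫ z in ball (0:ℂ) 1, W z ^ 2 * ‖MM' β z‖ ^ 2) :
    IntegrableOn (fun ζ => c0 ^ 2 * (RR β ζ ^ 2 * ‖φ ζ‖ ^ 2 * rho φ ζ)
      + 2 * (W ζ ^ 2 * ‖MM' β ζ‖ ^ 2) - 2 * c0 * (RR β ζ * kap φ β ζ * W ζ)) (ball 0 1) ∧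
    μ * ∫ ζ in ball (0 : ℂ) 1, (c0 ^ 2 * (RR β ζ ^ 2 * ‖φ ζ‖ ^ 2 * rho φ ζ)
      + 2 * (W ζ ^ 2 * ‖MM' β ζ‖ ^ 2) - 2 * c0 * (RR β ζ * kap φ β ζ * W ζ)) ≤
    c0 ^ 2 * (∫ ζ in ball (0 : ℂ) 1, ‖hp φ β ζ‖ ^ 2) +
      c0 * μ * ∫ ζ in ball (0 : ℂ) 1, rho φ ζ * W ζ * (MM β ζ ^ 2).re := by
  have hc := h.conf
  have hμ := h.μpos
  have iT := int_T hc hβ
  have iX := intX hc hW hβ
  obtain ⟨iS, iJ⟩ := int_rhoMW hc hW hβ hL2
  have iQ := int4 hc hW hβ hL2
  have iY := int2 hc hW hβ hL2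
  have iZ := int3 hc hW hβ hL2
  have cross := cross_term hc hW hβ hL2
  -- `ρ |M|² W²`
  have iP : IntegrableOn (fun z => rho φ z * ‖MM β z‖ ^ 2 * W z ^ 2) (ball (0:ℂ) 1) := by
    apply ((hA2.sub (iS.const_mul c0)).const_mul μ⁻¹).congr
    refine Eventually.of_forall fun z => ?_
    simp only [Pi.sub_apply]
    field_simp
    ring
  have hS : ∫ z in ball (0:ℂ) 1, rho φ z * (c0 + μ * W z) * ‖MM β z‖ ^ 2 * W z =
      c0 * (∫ z in ball (0:ℂ) 1, rho φ z * ‖MM β z‖ ^ 2 * W z)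
      + μ * ∫ z in ball (0:ℂ) 1, rho φ z * ‖MM β z‖ ^ 2 * W z ^ 2 := by
    rw [← integral_const_mul, ← integral_const_mul, ← integral_add (iS.const_mul c0) (iP.const_mul μ)]
    apply integral_congr_ae
    refine Eventually.of_forall fun z => ?_
    ring
  -- `R κ W`
  have iN : IntegrableOn (fun z => RR β z * kap φ β z * W z) (ball (0:ℂ) 1) := by
    apply ((((iS.add (iY.const_mul 2)).sub (iZ.const_mul 4)).sub (iQ.const_mul 2)).add iJ
      |>.const_mul (-1/2)).congr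
    refine Eventually.of_forall fun z => ?_
    have := lin_identity (φ := φ) (W := W) (β := β) z
    simp only [Pi.sub_apply, Pi.add_apply]
    linarith
  have hN : -2 * (∫ z in ball (0:ℂ) 1, RR β z * kap φ β z * W z)
      - ∫ z in ball (0:ℂ) 1, rho φ z * W z * (MM β z ^ 2).re =
      (∫ z in ball (0:ℂ) 1, rho φ z * ‖MM β z‖ ^ 2 * W z)
      + 2 * (∫ z in ball (0:ℂ) 1, W z * (conj (deriv φ z) * MM' β z * (MM β z * φ z)).re)
      - 4 * (∫ z in ball (0:ℂ) 1, W z * (RR β z * (conj (deriv φ z) * hp φ β z).im))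
      - 2 * ∫ z in ball (0:ℂ) 1, W z * (conj (deriv φ z) * MM β z * hp φ β z).re := by
    have j1 : IntegrableOn (fun z => rho φ z * ‖MM β z‖ ^ 2 * W z
      + 2 * (W z * (conj (deriv φ z) * MM' β z * (MM β z * φ z)).re)) (ball (0:ℂ) 1) :=
      iS.add (iY.const_mul 2)
    have j2 : IntegrableOn (fun z => rho φ z * ‖MM β z‖ ^ 2 * W z
      + 2 * (W z * (conj (deriv φ z) * MM' β z * (MM β z * φ z)).re)
      - 4 * (W z * (RR β z * (conj (deriv φ z) * hp φ β z).im))) (ball (0:ℂ) 1) :=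
      j1.sub (iZ.const_mul 4)
    rw [← integral_const_mul, ← integral_const_mul, ← integral_const_mul, ← integral_const_mul,
      ← integral_sub (iN.const_mul (-2)) iJ, ← integral_add iS (iY.const_mul 2),
      ← integral_sub j1 (iZ.const_mul 4), ← integral_sub j2 (iQ.const_mul 2)]
    apply integral_congr_ae
    refine Eventually.of_forall fun z => ?_
    exact lin_identity z
  -- total `|V|²`
  have iAT : IntegrableOn (fun z => ‖MM β z‖ ^ 2 * g2 W z
      + c0 ^ 2 * (RR β z ^ 2 * ‖φ z‖ ^ 2 * rho φ z)) (ball (0:ℂ) 1) := hA1.add (iT.const_mul _)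
  have iV : IntegrableOn (fun z => V1 φ W c0 β z ^ 2 + V2 φ W c0 β z ^ 2) (ball (0:ℂ) 1) := by
    apply (iAT.add (iX.const_mul (2 * c0))).congr
    refine Eventually.of_forall fun z => ?_
    simp only [Pi.add_apply]
    rw [V_sq]
  have hV : ∫ z in ball (0:ℂ) 1, (V1 φ W c0 β z ^ 2 + V2 φ W c0 β z ^ 2) =
      (∫ z in ball (0:ℂ) 1, ‖MM β z‖ ^ 2 * g2 W z)
      + c0 ^ 2 * (∫ z in ball (0:ℂ) 1, RR β z ^ 2 * ‖φ z‖ ^ 2 * rho φ z)
      + 2 * c0 * ∫ z in ball (0:ℂ) 1, (XX φ W β z).im := by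
    rw [← integral_const_mul, ← integral_const_mul, ← integral_add hA1 (iT.const_mul _),
      ← integral_add iAT (iX.const_mul _)]
    apply integral_congr_ae
    refine Eventually.of_forall fun z => ?_
    exact V_sq z
  -- total `|h|²`
  have iPH : IntegrableOn (fun z => μ ^ 2 * (rho φ z * ‖MM β z‖ ^ 2 * W z ^ 2)
      + c0 ^ 2 * ‖hp φ β z‖ ^ 2) (ball (0:ℂ) 1) := (iP.const_mul _).add (hhp.const_mul _)
  have iH : IntegrableOn (fun z => ‖hh φ W μ c0 β z‖ ^ 2) (ball (0:ℂ) 1) := by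
    apply (iPH.add (iQ.const_mul (2 * μ * c0))).congr
    refine Eventually.of_forall fun z => ?_
    simp only [Pi.add_apply]
    rw [hh_sq]
  have hH : ∫ z in ball (0:ℂ) 1, ‖hh φ W μ c0 β z‖ ^ 2 =
      μ ^ 2 * (∫ z in ball (0:ℂ) 1, rho φ z * ‖MM β z‖ ^ 2 * W z ^ 2)
      + c0 ^ 2 * (∫ z in ball (0:ℂ) 1, ‖hp φ β z‖ ^ 2)
      + 2 * μ * c0 * ∫ z in ball (0:ℂ) 1, W z * (conj (deriv φ z) * MM β z * hp φ β z).re := by
    rw [← integral_const_mul, ← integral_const_mul, ← integral_const_mul,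
      ← integral_add (iP.const_mul _) (hhp.const_mul _), ← integral_add iPH (iQ.const_mul _)]
    apply integral_congr_ae
    refine Eventually.of_forall fun z => ?_
    exact hh_sq z
  -- continuity / measurability
  have cφ' := (contDiffOn_dphi hc 0).continuousOn
  have cφ := (contDiffOn_phi hc 0).continuousOn
  have cM := (contDiffOn_MM β 0).continuousOn
  have chp := (contDiffOn_hp hc β 0).continuousOn
  have cR := (contDiffOn_RR β 0).continuousOn
  have cT := (contDiffOn_TT (β := β) hc 0).continuousOn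
  have cW := Wcont hW
  have cg := grcont hW
  have cdx : ContinuousOn (dx W) D0 := by
    refine (Complex.continuous_re.comp_continuousOn cg).congr fun z _ => ?_
    exact (gr_re W z).symm
  have cdy : ContinuousOn (dy W) D0 := by
    refine (Complex.continuous_im.comp_continuousOn cg).congr fun z _ => ?_
    exact (gr_im W z).symm
  have cρ : ContinuousOn (rho φ) D0 := by unfold rho; exact cφ'.norm.pow 2
  have cMre : ContinuousOn (fun z => (MM β z).re) D0 := Complex.continuous_re.comp_continuousOn cM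
  have cV1 : ContinuousOn (V1 φ W c0 β) D0 :=
    ((cMre.mul cdx).add (cR.mul cdy)).add
      (continuousOn_const.mul (Complex.continuous_re.comp_continuousOn cT))
  have cV2 : ContinuousOn (V2 φ W c0 β) D0 :=
    ((cMre.mul cdy).sub (cR.mul cdx)).sub
      (continuousOn_const.mul (Complex.continuous_im.comp_continuousOn cT))
  have chh : ContinuousOn (hh φ W μ c0 β) D0 :=
    (((continuousOn_const.mul cM).mul (Complex.continuous_ofReal.comp_continuousOn cW)).mul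
      (Complex.continuous_conj.comp_continuousOn cφ')).add
      (continuousOn_const.mul (Complex.continuous_conj.comp_continuousOn chp))
  have cq : ContinuousOn (fun z => hh φ W μ c0 β z / conj (deriv φ z)) D0 := by
    apply chh.div (Complex.continuous_conj.comp_continuousOn cφ')
    intro z hz
    have := dphi_ne hc hz
    simpa using this
  have cpp : ContinuousOn (pp φ W μ c0 β) D0 := Complex.continuous_re.comp_continuousOn cq
  have crr : ContinuousOn (rr φ W μ c0 β) D0 := Complex.continuous_im.comp_continuousOn cq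
  have ip : IntegrableOn (fun z => rho φ z * pp φ W μ c0 β z ^ 2) (ball (0:ℂ) 1) := by
    apply Integrable.mono' iH (aesm_of_continuousOn (cρ.mul (cpp.pow 2)))
    filter_upwards [ae_D0] with z hz
    have h1 := rho_pr_sq (W := W) (μ := μ) (c0 := c0) (β := β) hc hz
    have hρ0 := rho_nonneg (φ := φ) z
    have h2 : 0 ≤ rho φ z * rr φ W μ c0 β z ^ 2 := by positivity
    change ‖rho φ z * pp φ W μ c0 β z ^ 2‖ ≤ _
    rw [Real.norm_eq_abs, abs_of_nonneg (by positivity)]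
    linarith
  have ir : IntegrableOn (fun z => rho φ z * rr φ W μ c0 β z ^ 2) (ball (0:ℂ) 1) := by
    apply Integrable.mono' iH (aesm_of_continuousOn (cρ.mul (crr.pow 2)))
    filter_upwards [ae_D0] with z hz
    have h1 := rho_pr_sq (W := W) (μ := μ) (c0 := c0) (β := β) hc hz
    have hρ0 := rho_nonneg (φ := φ) z
    have h2 : 0 ≤ rho φ z * pp φ W μ c0 β z ^ 2 := by positivity
    change ‖rho φ z * rr φ W μ c0 β z ^ 2‖ ≤ _
    rw [Real.norm_eq_abs, abs_of_nonneg (by positivity)]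
    linarith
  have hodge' := hodge h (aesm_of_continuousOn cV1) (aesm_of_continuousOn cV2)
    (aesm_of_continuousOn cpp) (aesm_of_continuousOn crr) iV ip ir
    (fun v hv => weak_div hW hβ hc hv) (fun B hB hB0 => weak_curl hW hβ hc hB hB0)
  have hsum : (∫ z in ball (0 : ℂ) 1, rho φ z * pp φ W μ c0 β z ^ 2)
      + ∫ z in ball (0 : ℂ) 1, rho φ z * rr φ W μ c0 β z ^ 2 =
      ∫ z in ball (0:ℂ) 1, ‖hh φ W μ c0 β z‖ ^ 2 := by
    rw [← integral_add ip ir]
    apply integral_congr_ae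
    filter_upwards [ae_D0] with z hz
    exact rho_pr_sq hc hz
  rw [hsum, hV, hH, hAe, hS, cross] at hodge'
  -- conclusion
  have iTE : IntegrableOn (fun ζ => c0 ^ 2 * (RR β ζ ^ 2 * ‖φ ζ‖ ^ 2 * rho φ ζ)
      + 2 * (W ζ ^ 2 * ‖MM' β ζ‖ ^ 2)) (ball (0:ℂ) 1) := (iT.const_mul _).add (hA3.const_mul 2)
  have iF : IntegrableOn (fun ζ => c0 ^ 2 * (RR β ζ ^ 2 * ‖φ ζ‖ ^ 2 * rho φ ζ)
      + 2 * (W ζ ^ 2 * ‖MM' β ζ‖ ^ 2) - 2 * c0 * (RR β ζ * kap φ β ζ * W ζ)) (ball (0:ℂ) 1) :=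
    iTE.sub (iN.const_mul _)
  refine ⟨iF, ?_⟩
  rw [integral_sub iTE (iN.const_mul _), integral_add (iT.const_mul _) (hA3.const_mul 2),
    integral_const_mul, integral_const_mul, integral_const_mul]
  have h3 := congrArg (fun x => μ * c0 * x) hN
  linarith [hodge', h3]

end Crest.Agent.R101.En
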