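import Crest.Agent.R101.Defs
import Crest.Agent.R101.DiscPars

/-! Row 101, P6: `∫|h'|²` for `h = M φ`, summed over `β = 1, i`. -/

set_option autoImplicit false

open MeasureTheory Metric Set Complex ComplexConjugate Filter Topology
open scoped Real ENNReal NNReal

namespace Crest.Agent.R101

/-- Taylor coefficients at `0`. -/
noncomputable def tcoef (f : ℂ → ℂ) (n : ℕ) : ℂ :=
  ((Nat.factorial n : ℕ) : ℂ)⁻¹ * iteratedDeriv n f 0

theorem hasSum_tcoef {f : ℂ → ℂ} (hf : DifferentiableOn ℂ f (ball 0 1)) {z : ℂ} (hz : ‖z‖ < 1) :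
    HasSum (fun n => tcoef f n * z ^ n) (f z) := by
  have h := Complex.hasSum_taylorSeries_on_ball hf (z := z) (by simpa using hz)
  refine h.congr_fun ?_
  intro n
  simp [tcoef, smul_eq_mul]
  ring

theorem tcoef_deriv (f : ℂ → ℂ) (n : ℕ) : tcoef (deriv f) n = (n + 1) * tcoef f (n + 1) := by
  unfold tcoef
  rw [iteratedDeriv_succ', Nat.factorial_succ]
  push_cast
  have h1 : ((n : ℂ) + 1) ≠ 0 := by exact_mod_cast Nat.succ_ne_zero n
  have h2 : ((Nat.factorial n : ℕ) : ℂ) ≠ 0 := by exact_mod_cast Nat.factorial_ne_zero n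
  field_simp

theorem tcoef_zero (f : ℂ → ℂ) : tcoef f 0 = f 0 := by simp [tcoef]

section
variable {φ : ℂ → ℂ} (hd : DifferentiableOn ℂ φ (ball 0 1)) (h0 : φ 0 = 0)
include hd h0

theorem hasSum_zderiv {z : ℂ} (hz : ‖z‖ < 1) :
    HasSum (fun n : ℕ => (n : ℂ) * tcoef φ n * z ^ n) (z * deriv φ z) := by
  have h1 := (hasSum_tcoef (hd.deriv isOpen_ball) hz).mul_left z
  have h2 : HasSum (fun n : ℕ => ((n + 1 : ℕ) : ℂ) * tcoef φ (n + 1) * z ^ (n + 1)) (z * deriv φ z) := by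
    refine h1.congr_fun ?_
    intro n
    rw [tcoef_deriv]
    push_cast
    ring
  have h3 := (hasSum_nat_add_iff (f := fun n : ℕ => (n : ℂ) * tcoef φ n * z ^ n) 1).1 h2
  simpa using h3

/-- `(z φ)'`. -/
theorem hasSum_B {z : ℂ} (hz : ‖z‖ < 1) :
    HasSum (fun n : ℕ => (((n : ℂ) + 1) * tcoef φ n) * z ^ n) (φ z + z * deriv φ z) := by
  refine ((hasSum_tcoef hd hz).add (hasSum_zderiv hd h0 hz)).congr_fun ?_
  intro n
  ring

/-- `(φ/z)'`. -/
theorem hasSum_A {z : ℂ} (hz0 : z ≠ 0) (hz : ‖z‖ < 1) :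
    HasSum (fun n : ℕ => (((n : ℂ) + 1) * tcoef φ (n + 2)) * z ^ n) ((z * deriv φ z - φ z) / z ^ 2) := by
  have h1 : HasSum (fun n : ℕ => ((n : ℂ) - 1) * tcoef φ n * z ^ n) (z * deriv φ z - φ z) := by
    refine ((hasSum_zderiv hd h0 hz).sub (hasSum_tcoef hd hz)).congr_fun ?_
    intro n
    ring
  have h2 := (hasSum_nat_add_iff (f := fun n : ℕ => ((n : ℂ) - 1) * tcoef φ n * z ^ n)
    (g := z * deriv φ z - φ z) 2).2 (by
      simpa [Finset.sum_range_succ, tcoef_zero, h0] using h1)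
  have h3 := h2.div_const (z ^ 2)
  refine h3.congr_fun ?_
  intro n
  rw [pow_add]
  have : z ^ 2 ≠ 0 := pow_ne_zero 2 hz0
  push_cast
  field_simp
  ring

end

theorem hp_one (φ : ℂ → ℂ) {z : ℂ} (hz : z ≠ 0) :
    hp φ 1 z = (z * deriv φ z - φ z) / z ^ 2 + (φ z + z * deriv φ z) := by
  simp only [hp, MM, MM', map_one]
  field_simp
  ring

theorem hp_I (φ : ℂ → ℂ) {z : ℂ} (hz : z ≠ 0) :
    hp φ I z = I * ((z * deriv φ z - φ z) / z ^ 2 - (φ z + z * deriv φ z)) := by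
  simp only [hp, MM, MM', conj_I]
  field_simp
  ring

theorem hp_sum (φ : ℂ → ℂ) {z : ℂ} (hz : z ≠ 0) :
    ‖hp φ 1 z‖ ^ 2 + ‖hp φ I z‖ ^ 2 =
      2 * (‖(z * deriv φ z - φ z) / z ^ 2‖ ^ 2 + ‖φ z + z * deriv φ z‖ ^ 2) := by
  rw [hp_one φ hz, hp_I φ hz, norm_mul, norm_I, one_mul]
  have := parallelogram_law_with_norm ℝ ((z * deriv φ z - φ z) / z ^ 2) (φ z + z * deriv φ z)
  simpa only [sq] using this

theorem aemeas_hp {φ : ℂ → ℂ} (hd : DifferentiableOn ℂ φ (ball 0 1)) (β : ℂ) :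
    AEStronglyMeasurable (hp φ β) (volume.restrict (ball 0 1)) := by
  have h1 : AEStronglyMeasurable φ (volume.restrict (ball 0 1)) :=
    hd.continuousOn.aestronglyMeasurable measurableSet_ball
  have h2 : AEStronglyMeasurable (deriv φ) (volume.restrict (ball 0 1)) :=
    (hd.deriv isOpen_ball).continuousOn.aestronglyMeasurable measurableSet_ball
  have h3 : AEStronglyMeasurable (MM' β) (volume.restrict (ball 0 1)) := by
    apply Measurable.aestronglyMeasurable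
    unfold MM'
    fun_prop
  have h4 : AEStronglyMeasurable (MM β) (volume.restrict (ball 0 1)) := by
    apply Measurable.aestronglyMeasurable
    unfold MM
    fun_prop
  exact (h3.mul h1).add (h4.mul h2)

/-- P6 (Parseval, file `Pars.lean`). -/
theorem parseval {φ : ℂ → ℂ} (hφ : Conf φ) :
    IntegrableOn (fun ζ => ‖hp φ 1 ζ‖ ^ 2) (ball 0 1) ∧
    IntegrableOn (fun ζ => ‖hp φ I ζ‖ ^ 2) (ball 0 1) ∧
    (∫ ζ in ball (0 : ℂ) 1, ‖hp φ 1 ζ‖ ^ 2) + (∫ ζ in ball (0 : ℂ) 1, ‖hp φ I ζ‖ ^ 2) =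
      4 * ∫ ζ in ball (0 : ℂ) 1, rho φ ζ := by
  have hd := hφ.holo
  have h0 := hφ.zero
  set c : ℕ → ℂ := tcoef φ with hc
  have hc0 : c 0 = 0 := by rw [hc, tcoef_zero, h0]
  -- the three lintegrals
  have LA := disc_parseval (f := fun z => (z * deriv φ z - φ z) / z ^ 2)
    (c := fun n : ℕ => ((n : ℂ) + 1) * c (n + 2)) (fun z hz hz1 => hasSum_A hd h0 hz hz1)
  have LB := disc_parseval (f := fun z => φ z + z * deriv φ z)
    (c := fun n : ℕ => ((n : ℂ) + 1) * c n) (fun z _ hz1 => hasSum_B hd h0 hz1)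
  have LD := disc_parseval (f := deriv φ) (c := fun n : ℕ => ((n : ℂ) + 1) * c (n + 1))
    (fun z _ hz1 => by
      refine (hasSum_tcoef (hd.deriv isOpen_ball) hz1).congr_fun ?_
      intro n
      rw [tcoef_deriv])
  have hnorm : ∀ (n : ℕ) (a : ℂ), π * ‖((n : ℂ) + 1) * a‖ ^ 2 / ((n : ℝ) + 1) =
      π * ((n : ℝ) + 1) * ‖a‖ ^ 2 := by
    intro n a
    have h1 : ‖((n : ℂ) + 1)‖ = (n : ℝ) + 1 := by
      rw [show ((n : ℂ) + 1) = (((n : ℝ) + 1 : ℝ) : ℂ) by push_cast; rfl, Complex.norm_real,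
        Real.norm_eq_abs, abs_of_pos (by positivity)]
    rw [norm_mul, h1]
    have : (n : ℝ) + 1 ≠ 0 := by positivity
    field_simp
  simp_rw [hnorm] at LA LB LD
  -- the sum
  have hsum : (∫⁻ z in ball (0 : ℂ) 1, ENNReal.ofReal (‖(z * deriv φ z - φ z) / z ^ 2‖ ^ 2)) +
      (∫⁻ z in ball (0 : ℂ) 1, ENNReal.ofReal (‖φ z + z * deriv φ z‖ ^ 2)) =
      2 * ∫⁻ z in ball (0 : ℂ) 1, ENNReal.ofReal (‖deriv φ z‖ ^ 2) := by
    rw [LA, LB, LD]
    have e1 : ∑' n : ℕ, ENNReal.ofReal (π * ((n : ℝ) + 1) * ‖c n‖ ^ 2) =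
        ∑' n : ℕ, ENNReal.ofReal (π * ((n : ℝ) + 2) * ‖c (n + 1)‖ ^ 2) := by
      rw [tsum_eq_zero_add' ENNReal.summable, hc0]
      simp only [norm_zero, ne_eq, OfNat.ofNat_ne_zero, not_false_eq_true, zero_pow, mul_zero,
        ENNReal.ofReal_zero, zero_add]
      apply tsum_congr
      intro n
      congr 1
      push_cast
      ring
    have e2 : ∑' n : ℕ, ENNReal.ofReal (π * ((n : ℝ) + 1) * ‖c (n + 2)‖ ^ 2) =
        ∑' n : ℕ, ENNReal.ofReal (π * (n : ℝ) * ‖c (n + 1)‖ ^ 2) := by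
      rw [tsum_eq_zero_add' (f := fun n : ℕ => ENNReal.ofReal (π * (n : ℝ) * ‖c (n + 1)‖ ^ 2))
        ENNReal.summable]
      simp only [Nat.cast_zero, mul_zero, zero_mul, ENNReal.ofReal_zero, zero_add]
      apply tsum_congr
      intro n
      congr 1
      push_cast
      ring
    rw [e1, e2, ← ENNReal.tsum_add, ← ENNReal.tsum_mul_left]
    apply tsum_congr
    intro n
    rw [← ENNReal.ofReal_add (by positivity) (by positivity),
      show (2 : ℝ≥0∞) = ENNReal.ofReal 2 by simp, ← ENNReal.ofReal_mul (by norm_num)]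
    congr 1
    ring
  have hne : ∀ᵐ z ∂(volume.restrict (ball (0 : ℂ) 1)), z ≠ 0 := by
    apply ae_restrict_of_ae
    rw [ae_iff]
    simp
  have hfin : (∫⁻ z in ball (0 : ℂ) 1, ENNReal.ofReal (‖deriv φ z‖ ^ 2)) < ∞ := by
    have h := hφ.rho_int.2
    have h' := (hasFiniteIntegral_iff_ofReal (f := rho φ)
      (Eventually.of_forall fun z => by simp only [Pi.zero_apply, rho]; positivity)).1 h
    exact h'
  have hm1 := aemeas_hp hd 1
  have hm2 := aemeas_hp hd I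
  have hm1' : AEMeasurable (fun z => ENNReal.ofReal (‖hp φ 1 z‖ ^ 2))
      (volume.restrict (ball 0 1)) := (hm1.norm.aemeasurable.pow_const 2).ennreal_ofReal
  have htot : (∫⁻ z in ball (0 : ℂ) 1, ENNReal.ofReal (‖hp φ 1 z‖ ^ 2)) +
      (∫⁻ z in ball (0 : ℂ) 1, ENNReal.ofReal (‖hp φ I z‖ ^ 2)) =
      4 * ∫⁻ z in ball (0 : ℂ) 1, ENNReal.ofReal (‖deriv φ z‖ ^ 2) := by
    rw [← lintegral_add_left' hm1']
    have hmB : AEMeasurable (fun z => ENNReal.ofReal (‖φ z + z * deriv φ z‖ ^ 2))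
        (volume.restrict (ball 0 1)) := by
      have h1 : AEStronglyMeasurable φ (volume.restrict (ball 0 1)) :=
        hd.continuousOn.aestronglyMeasurable measurableSet_ball
      have h2 : AEStronglyMeasurable (deriv φ) (volume.restrict (ball 0 1)) :=
        (hd.deriv isOpen_ball).continuousOn.aestronglyMeasurable measurableSet_ball
      exact ((h1.add (measurable_id.aestronglyMeasurable.mul h2)).norm.aemeasurable.pow_const
        2).ennreal_ofReal
    have e3 : ∫⁻ z in ball (0 : ℂ) 1, (ENNReal.ofReal (‖hp φ 1 z‖ ^ 2) +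
        ENNReal.ofReal (‖hp φ I z‖ ^ 2)) = ∫⁻ z in ball (0 : ℂ) 1,
        2 * (ENNReal.ofReal (‖(z * deriv φ z - φ z) / z ^ 2‖ ^ 2) +
          ENNReal.ofReal (‖φ z + z * deriv φ z‖ ^ 2)) := by
      apply lintegral_congr_ae
      filter_upwards [hne] with z hz
      rw [← ENNReal.ofReal_add (by positivity) (by positivity), hp_sum φ hz,
        ← ENNReal.ofReal_add (by positivity) (by positivity),
        show (2 : ℝ≥0∞) = ENNReal.ofReal 2 by simp, ← ENNReal.ofReal_mul (by norm_num)]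
    rw [e3, lintegral_const_mul' _ _ (by simp), lintegral_add_right' _ hmB, hsum, ← mul_assoc]
    norm_num
  have hlt : (∫⁻ z in ball (0 : ℂ) 1, ENNReal.ofReal (‖hp φ 1 z‖ ^ 2)) +
      (∫⁻ z in ball (0 : ℂ) 1, ENNReal.ofReal (‖hp φ I z‖ ^ 2)) < ∞ := by
    rw [htot]
    exact ENNReal.mul_lt_top (by simp) hfin
  have hl1 := lt_of_le_of_lt (le_self_add) hlt
  have hl2 := lt_of_le_of_lt (le_add_self) hlt
  have hi1 : IntegrableOn (fun ζ => ‖hp φ 1 ζ‖ ^ 2) (ball 0 1) := by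
    refine ⟨(hm1.norm.pow 2), ?_⟩
    rw [hasFiniteIntegral_iff_ofReal (Eventually.of_forall fun z => by
      simp only [Pi.zero_apply]; positivity)]
    exact hl1
  have hi2 : IntegrableOn (fun ζ => ‖hp φ I ζ‖ ^ 2) (ball 0 1) := by
    refine ⟨(hm2.norm.pow 2), ?_⟩
    rw [hasFiniteIntegral_iff_ofReal (Eventually.of_forall fun z => by
      simp only [Pi.zero_apply]; positivity)]
    exact hl2
  refine ⟨hi1, hi2, ?_⟩
  rw [integral_eq_lintegral_of_nonneg_ae (Eventually.of_forall fun z => by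
      simp only [Pi.zero_apply]; positivity) hi1.1,
    integral_eq_lintegral_of_nonneg_ae (Eventually.of_forall fun z => by
      simp only [Pi.zero_apply]; positivity) hi2.1,
    integral_eq_lintegral_of_nonneg_ae (f := rho φ) (Eventually.of_forall fun z => by
      simp only [Pi.zero_apply, rho]; positivity) hφ.rho_int.1,
    ← ENNReal.toReal_add hl1.ne hl2.ne, htot, ENNReal.toReal_mul]
  simp [rho]

end Crest.Agent.R101
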