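import Crest.Agent.R101.EnE
import Crest.Agent.R101.CoreD
import Crest.Agent.R101.Pars
import Crest.Agent.R101.EnergyA

/-! Row 101, part P5: `energy_le` (statement of `Iface.lean`). -/

set_option autoImplicit false

open MeasureTheory Metric Set Filter Topology Complex
open scoped ContDiff ComplexConjugate

namespace Crest.Agent.R101

theorem hp_lin (φ : ℂ → ℂ) (β z : ℂ) :
    hp φ β z = (β.re : ℂ) * hp φ 1 z + (β.im : ℂ) * hp φ I z := by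
  obtain ⟨a, b⟩ := β
  have h1 : (⟨a, b⟩ : ℂ) = (a : ℂ) + (b : ℂ) * I := by apply Complex.ext <;> simp
  have h2 : conj (⟨a, b⟩ : ℂ) = (a : ℂ) - (b : ℂ) * I := by apply Complex.ext <;> simp
  have h3 : ((a : ℂ) + (b : ℂ) * I).re = a := by simp
  have h4 : ((a : ℂ) + (b : ℂ) * I).im = b := by simp
  rw [hp, hp, hp, MM, MM', MM, MM', MM, MM', h2, h1, h3, h4]
  simp only [map_one, conj_I]
  ring

theorem hp_sq_int' {φ : ℂ → ℂ} (h : Conf φ) (β : ℂ) :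
    IntegrableOn (fun ζ => ‖hp φ β ζ‖ ^ 2) (ball 0 1) := by
  obtain ⟨h1, h2, _⟩ := parseval h
  have hb : IntegrableOn (fun ζ => 2 * (β.re ^ 2 * ‖hp φ 1 ζ‖ ^ 2 + β.im ^ 2 * ‖hp φ I ζ‖ ^ 2))
      (ball 0 1) := ((h1.const_mul _).add (h2.const_mul _)).const_mul 2
  apply Integrable.mono' hb
    (En.aesm_of_continuousOn ((En.contDiffOn_hp h β 0).continuousOn.norm.pow 2))
  refine Eventually.of_forall fun z => ?_
  change ‖‖hp φ β z‖ ^ 2‖ ≤ _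
  rw [Real.norm_eq_abs, abs_of_nonneg (by positivity), hp_lin φ β z]
  have h3 : ‖(β.re : ℂ) * hp φ 1 z + (β.im : ℂ) * hp φ I z‖ ≤
      |β.re| * ‖hp φ 1 z‖ + |β.im| * ‖hp φ I z‖ := by
    refine (norm_add_le _ _).trans ?_
    rw [norm_mul, norm_mul, norm_real, norm_real, Real.norm_eq_abs, Real.norm_eq_abs]
  have h4 := pow_le_pow_left₀ (norm_nonneg _) h3 2
  refine h4.trans ?_
  rw [← sq_abs β.re, ← sq_abs β.im]
  nlinarith [sq_nonneg (|β.re| * ‖hp φ 1 z‖ - |β.im| * ‖hp φ I z‖)]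

/-- P5 (energy identity + Hodge). -/
theorem energy_le {φ : ℂ → ℂ} {U W : ℂ → ℝ} {μ c0 : ℝ} (h : Setting φ U μ) (hW : WSet φ W μ c0)
    {β : ℂ} (hβ : ‖β‖ = 1) :
    IntegrableOn (fun ζ => c0 ^ 2 * (RR β ζ ^ 2 * ‖φ ζ‖ ^ 2 * rho φ ζ)
      + 2 * (W ζ ^ 2 * ‖MM' β ζ‖ ^ 2) - 2 * c0 * (RR β ζ * kap φ β ζ * W ζ)) (ball 0 1) ∧
    μ * ∫ ζ in ball (0 : ℂ) 1, (c0 ^ 2 * (RR β ζ ^ 2 * ‖φ ζ‖ ^ 2 * rho φ ζ)
      + 2 * (W ζ ^ 2 * ‖MM' β ζ‖ ^ 2) - 2 * c0 * (RR β ζ * kap φ β ζ * W ζ)) ≤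
    c0 ^ 2 * (∫ ζ in ball (0 : ℂ) 1, ‖hp φ β ζ‖ ^ 2) +
      c0 * μ * ∫ ζ in ball (0 : ℂ) 1, rho φ ζ * W ζ * (MM β ζ ^ 2).re := by
  have hL2 := sq_integrable hW.adm.c1 hW.adm.en
  obtain ⟨a1, a2, a3, ae⟩ := en_A h.conf hW hβ hL2
  exact En.energy_le_of h hW hβ hL2 (hp_sq_int' h.conf β) a1 a2 a3 ae

end Crest.Agent.R101
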