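import Mathlib

/-!
# Interior regularity in the plane

If `U` is `C¹` on a ball of `ℂ` and solves `-ΔU = f` weakly with `f` of class `C¹`,
then the gradient of `U` is Lipschitz on a smaller ball.
-/

set_option autoImplicit false

open MeasureTheory Metric Set Complex Filter Topology

namespace Crest.Agent.R101.Reg

/-! ### Piecewise functions -/

lemma hasDerivAt_ite_one {f g f' g' : ℝ → ℝ} (hf : ∀ s, s ≤ 1 → HasDerivAt f (f' s) s)
    (hg : ∀ s, 1 ≤ s → HasDerivAt g (g' s) s) (h1 : f 1 = g 1) (h2 : f' 1 = g' 1) (s : ℝ) :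
    HasDerivAt (fun s => if s ≤ 1 then f s else g s) (if s ≤ 1 then f' s else g' s) s := by
  rcases lt_trichotomy s 1 with h | h | h
  · rw [if_pos h.le]
    refine (hf s h.le).congr_of_eventuallyEq ?_
    filter_upwards [Iio_mem_nhds h] with t ht
    rw [if_pos (le_of_lt ht)]
  · subst h
    rw [if_pos le_rfl]
    have e1 : HasDerivWithinAt (fun s => if s ≤ 1 then f s else g s) (f' 1) (Iic 1) 1 := by
      refine ((hf 1 le_rfl).hasDerivWithinAt).congr ?_ ?_
      · intro t ht; exact if_pos (show t ≤ 1 from ht)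
      · exact if_pos le_rfl
    have e2 : HasDerivWithinAt (fun s => if s ≤ 1 then f s else g s) (f' 1) (Ici 1) 1 := by
      rw [h2]
      refine ((hg 1 le_rfl).hasDerivWithinAt).congr ?_ ?_
      · intro t ht
        rcases eq_or_lt_of_le (show (1:ℝ) ≤ t from ht) with h | h
        · rw [← h]; exact (if_pos le_rfl).trans h1
        · exact if_neg (not_le.2 h)
      · exact (if_pos le_rfl).trans h1
    have := e1.union e2
    rw [Iic_union_Ici] at this
    exact hasDerivWithinAt_univ.1 this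
  · rw [if_neg (not_le.2 h)]
    refine (hg s h.le).congr_of_eventuallyEq ?_
    filter_upwards [Ioi_mem_nhds h] with t ht
    rw [if_neg (not_le.2 ht)]

noncomputable def kH (s : ℝ) : ℝ := if s ≤ 1 then 2 * s - s ^ 2 / 2 - 3 / 2 else Real.log s
noncomputable def kh (s : ℝ) : ℝ := if s ≤ 1 then 2 - s else s⁻¹
noncomputable def kh' (s : ℝ) : ℝ := if s ≤ 1 then -1 else -(s ^ 2)⁻¹
noncomputable def kg (s : ℝ) : ℝ := if s ≤ 1 then 2 - 2 * s else 0

lemma hasDerivAt_kH (s : ℝ) : HasDerivAt kH (kh s) s := by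
  unfold kH kh
  refine hasDerivAt_ite_one (f := fun s => 2 * s - s ^ 2 / 2 - 3 / 2) (g := Real.log)
    (f' := fun s => 2 - s) (g' := fun s => s⁻¹) ?_ ?_ ?_ ?_ s
  · intro s _
    have := (((hasDerivAt_id' s).const_mul 2).fun_sub ((hasDerivAt_pow 2 s).div_const 2)).sub_const
      (3 / 2 : ℝ)
    refine this.congr_deriv ?_
    norm_num
  · intro s hs
    exact Real.hasDerivAt_log (by positivity)
  · norm_num
  · norm_num

lemma hasDerivAt_kh (s : ℝ) : HasDerivAt kh (kh' s) s := by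
  unfold kh kh'
  refine hasDerivAt_ite_one (f := fun s => 2 - s) (g := fun s => s⁻¹)
    (f' := fun s => -1) (g' := fun s => -(s ^ 2)⁻¹) ?_ ?_ ?_ ?_ s
  · intro s _
    simpa using (hasDerivAt_id s).const_sub 2
  · intro s hs
    exact hasDerivAt_inv (by positivity)
  · norm_num
  · norm_num

lemma continuous_kh : Continuous kh :=
  continuous_iff_continuousAt.2 fun s => (hasDerivAt_kh s).continuousAt

lemma continuous_kH : Continuous kH :=
  continuous_iff_continuousAt.2 fun s => (hasDerivAt_kH s).continuousAt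

lemma continuous_kh' : Continuous kh' := by
  have h : kh' = fun s => -((max s 1) ^ 2)⁻¹ := by
    funext s
    unfold kh'
    split_ifs with h
    · rw [max_eq_right h]; norm_num
    · rw [max_eq_left (not_le.1 h).le]
  rw [h]
  refine Continuous.neg (Continuous.inv₀ (by fun_prop) fun s => ?_)
  have : (0:ℝ) < max s 1 := lt_of_lt_of_le one_pos (le_max_right _ _)
  positivity

lemma kg_eq (s : ℝ) : kh s + s * kh' s = kg s := by
  unfold kh kh' kg
  split_ifs with h
  · ring
  · have : s ≠ 0 := by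
      intro h0; rw [h0] at h; norm_num at h
    field_simp
    ring

lemma kg_nonneg (s : ℝ) : 0 ≤ kg s := by
  unfold kg; split_ifs with h <;> linarith

lemma kh_nonneg {s : ℝ} : 0 ≤ kh s := by
  unfold kh; split_ifs with h
  · linarith
  · have : 0 < s := by linarith
    positivity

lemma mul_kh_le (s : ℝ) : s * kh s ≤ 1 := by
  unfold kh; split_ifs with h
  · nlinarith [sq_nonneg (1 - s)]
  · have : s ≠ 0 := by
      intro h0; rw [h0] at h; norm_num at h
    rw [mul_inv_cancel₀ this]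


/-! ### The kernel -/

/-- `|z|²` -/
def q (z : ℂ) : ℝ := z.re ^ 2 + z.im ^ 2

lemma q_eq (z : ℂ) : q z = ‖z‖ ^ 2 := by
  rw [← Complex.normSq_eq_norm_sq, Complex.normSq_apply, q]; ring

lemma q_nonneg (z : ℂ) : 0 ≤ q z := by rw [q_eq]; positivity

noncomputable def dq (z : ℂ) : ℂ →L[ℝ] ℝ := (2 * z.re) • reCLM + (2 * z.im) • imCLM

lemma dq_apply (z e : ℂ) : dq z e = 2 * (z.re * e.re + z.im * e.im) := by
  simp [dq]; ring

lemma continuous_dq : Continuous dq := by
  unfold dq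
  fun_prop

lemma hasFDerivAt_q (z : ℂ) : HasFDerivAt q (dq z) z := by
  have h1 : HasFDerivAt (fun z : ℂ => z.re) reCLM z := reCLM.hasFDerivAt
  have h2 : HasFDerivAt (fun z : ℂ => z.im) imCLM z := imCLM.hasFDerivAt
  have := (h1.pow 2).add (h2.pow 2)
  unfold q dq
  refine this.congr_fderiv ?_
  ext
  simp

/-- The kernel `V`. -/
noncomputable def V (ε r : ℝ) (z : ℂ) : ℝ :=
  kH (q z / r ^ 2) - kH (q z / ε ^ 2) - Real.log (ε ^ 2 / r ^ 2)

/-- radial factor of the gradient of `V`. -/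
noncomputable def va (ε r : ℝ) (z : ℂ) : ℝ :=
  kh (q z / r ^ 2) / r ^ 2 - kh (q z / ε ^ 2) / ε ^ 2

noncomputable def vb (ε r : ℝ) (z : ℂ) : ℝ :=
  kh' (q z / r ^ 2) / r ^ 4 - kh' (q z / ε ^ 2) / ε ^ 4

lemma continuous_va (ε r : ℝ) : Continuous (va ε r) := by
  have := continuous_kh
  unfold va q
  fun_prop

lemma continuous_vb (ε r : ℝ) : Continuous (vb ε r) := by
  have := continuous_kh'
  unfold vb q
  fun_prop

lemma hasFDerivAt_V (ε r : ℝ) (z : ℂ) : HasFDerivAt (V ε r) (va ε r z • dq z) z := by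
  have h1 : HasFDerivAt (fun z : ℂ => q z / r ^ 2) ((r ^ 2)⁻¹ • dq z) z := by
    simpa [div_eq_inv_mul] using (hasFDerivAt_q z).const_mul ((r ^ 2)⁻¹)
  have h2 : HasFDerivAt (fun z : ℂ => q z / ε ^ 2) ((ε ^ 2)⁻¹ • dq z) z := by
    simpa [div_eq_inv_mul] using (hasFDerivAt_q z).const_mul ((ε ^ 2)⁻¹)
  have h3 := (hasDerivAt_kH (q z / r ^ 2)).comp_hasFDerivAt z h1
  have h4 := (hasDerivAt_kH (q z / ε ^ 2)).comp_hasFDerivAt z h2
  have h5 := (h3.sub h4).sub_const (Real.log (ε ^ 2 / r ^ 2))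
  refine h5.congr_fderiv ?_
  unfold va
  rw [smul_smul, smul_smul, ← sub_smul]
  congr 1

lemma hasFDerivAt_va (ε r : ℝ) (z : ℂ) : HasFDerivAt (va ε r) (vb ε r z • dq z) z := by
  have h1 : HasFDerivAt (fun z : ℂ => q z / r ^ 2) ((r ^ 2)⁻¹ • dq z) z := by
    simpa [div_eq_inv_mul] using (hasFDerivAt_q z).const_mul ((r ^ 2)⁻¹)
  have h2 : HasFDerivAt (fun z : ℂ => q z / ε ^ 2) ((ε ^ 2)⁻¹ • dq z) z := by
    simpa [div_eq_inv_mul] using (hasFDerivAt_q z).const_mul ((ε ^ 2)⁻¹)
  have h3 := ((hasDerivAt_kh (q z / r ^ 2)).comp_hasFDerivAt z h1).mul_const ((r ^ 2)⁻¹)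
  have h4 := ((hasDerivAt_kh (q z / ε ^ 2)).comp_hasFDerivAt z h2).mul_const ((ε ^ 2)⁻¹)
  have h5 := h3.sub h4
  refine (h5.congr_fderiv ?_)
  unfold vb
  rw [smul_smul, smul_smul, smul_smul, smul_smul, ← sub_smul]
  congr 1
  rw [div_eq_mul_inv, div_eq_mul_inv]
  ring


lemma V_eq_zero {ε r : ℝ} (hε : 0 < ε) (hεr : ε ≤ r) {z : ℂ} (hz : r ≤ ‖z‖) : V ε r z = 0 := by
  have hr : 0 < r := hε.trans_le hεr
  have hq : 0 < q z := by rw [q_eq]; have := hr.trans_le hz; positivity
  have key : ∀ s : ℝ, 1 ≤ s → kH s = Real.log s := by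
    intro s hs
    unfold kH
    rcases eq_or_lt_of_le hs with h | h
    · rw [← h]; norm_num
    · rw [if_neg (not_le.2 h)]
  have h1 : 1 ≤ q z / r ^ 2 := by
    rw [one_le_div (by positivity), q_eq]
    exact pow_le_pow_left₀ hr.le hz 2
  have h2 : 1 ≤ q z / ε ^ 2 := by
    rw [one_le_div (by positivity), q_eq]
    exact pow_le_pow_left₀ hε.le (hεr.trans hz) 2
  unfold V
  rw [key _ h1, key _ h2, Real.log_div hq.ne' (by positivity), Real.log_div hq.ne' (by positivity),
    Real.log_div (by positivity) (by positivity)]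
  ring

lemma va_eq_zero {ε r : ℝ} (hε : 0 < ε) (hεr : ε ≤ r) {z : ℂ} (hz : r ≤ ‖z‖) : va ε r z = 0 := by
  have hr : 0 < r := hε.trans_le hεr
  have hq : 0 < q z := by rw [q_eq]; have := hr.trans_le hz; positivity
  have key : ∀ s : ℝ, 1 ≤ s → kh s = s⁻¹ := by
    intro s hs
    unfold kh
    rcases eq_or_lt_of_le hs with h | h
    · rw [← h]; norm_num
    · rw [if_neg (not_le.2 h)]
  have h1 : 1 ≤ q z / r ^ 2 := by
    rw [one_le_div (by positivity), q_eq]
    exact pow_le_pow_left₀ hr.le hz 2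
  have h2 : 1 ≤ q z / ε ^ 2 := by
    rw [one_le_div (by positivity), q_eq]
    exact pow_le_pow_left₀ hε.le (hεr.trans hz) 2
  unfold va
  rw [key _ h1, key _ h2]
  field_simp
  ring

/-- The Laplacian of `V`. -/
noncomputable def vL (ε r : ℝ) (z : ℂ) : ℝ :=
  4 * (kg (q z / r ^ 2) / r ^ 2) - 4 * (kg (q z / ε ^ 2) / ε ^ 2)

lemma vL_eq {ε r : ℝ} (hε : 0 < ε) (hr : 0 < r) (z : ℂ) :
    vL ε r z = 4 * va ε r z + 4 * q z * vb ε r z := by
  unfold vL va vb
  rw [← kg_eq, ← kg_eq]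
  field_simp
  ring

lemma integrable_mul_of_tsupport {Ω : Set ℂ} (hΩ : IsOpen Ω) {u g : ℂ → ℝ}
    (hu : ContinuousOn u Ω) (hg : Continuous g) (hgc : HasCompactSupport g)
    (hs : tsupport g ⊆ Ω) : Integrable (fun y => u y * g y) := by
  have hc : HasCompactSupport (fun y => u y * g y) := hgc.mul_left
  refine Continuous.integrable_of_hasCompactSupport ?_ hc
  have hsub : tsupport (fun y => u y * g y) ⊆ Ω :=
    (closure_mono (Function.support_mul_subset_right u g)).trans hs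
  exact (hu.mul hg.continuousOn).continuous_of_tsupport_subset hΩ hsub

lemma ibp {Ω : Set ℂ} (hΩ : IsOpen Ω) {U : ℂ → ℝ} (hU : ContDiffOn ℝ 1 U Ω)
    {G : ℂ → ℝ} {G' : ℂ → ℂ →L[ℝ] ℝ} (hG : ∀ y, HasFDerivAt G (G' y) y) (hG' : Continuous G')
    (hc : HasCompactSupport G) (hs : tsupport G ⊆ Ω) (e : ℂ) :
    ∫ y, U y * G' y e = - ∫ y, fderiv ℝ U y e * G y := by
  have hGe : G' = fderiv ℝ G := by funext y; exact (hG y).fderiv.symm
  have hGc : Continuous G := continuous_iff_continuousAt.2 fun y => (hG y).continuousAt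
  have hc' : HasCompactSupport (fun y => G' y e) := by
    rw [hGe]; exact (hc.fderiv_apply (𝕜 := ℝ) e)
  have hs' : tsupport (fun y => G' y e) ⊆ Ω := by
    rw [hGe]
    exact (tsupport_fderiv_apply_subset ℝ e).trans hs
  have hU' : ContinuousOn (fun y => fderiv ℝ U y e) Ω :=
    (hU.continuousOn_fderiv_of_isOpen hΩ le_rfl).clm_apply continuousOn_const
  refine integral_bilinear_hasFDerivAt_right_eq_neg_left_of_integrable
    (B := ContinuousLinearMap.mul ℝ ℝ) (f := U) (f' := fderiv ℝ U) (g := G) (g' := G') (v := e)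
    ?_ ?_ ?_ ?_ ?_
  · exact integrable_mul_of_tsupport hΩ hU' hGc hc hs
  · exact integrable_mul_of_tsupport hΩ hU.continuousOn (hG'.clm_apply continuous_const) hc' hs'
  · exact integrable_mul_of_tsupport hΩ hU.continuousOn hGc hc hs
  · intro x hx
    exact ((hU.differentiableOn one_ne_zero).differentiableAt (hΩ.mem_nhds (hs hx))).hasFDerivAt
  · intro x _
    exact hG x


section refl

variable {k : ℂ → ℝ} {r : ℝ} (hk : ∀ z, r ≤ ‖z‖ → k z = 0)
include hk

lemma refl_eq_zero (x y : ℂ) (hy : y ∉ closedBall x r) : k (x - y) = 0 := by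
  refine hk _ ?_
  rw [mem_closedBall, not_le, dist_comm, dist_eq_norm] at hy
  exact hy.le

lemma tsupport_refl (x : ℂ) : tsupport (fun y => k (x - y)) ⊆ closedBall x r := by
  refine closure_minimal ?_ isClosed_closedBall
  intro y hy
  by_contra h
  exact hy (refl_eq_zero hk x y h)

lemma hasCompactSupport_refl (x : ℂ) : HasCompactSupport (fun y => k (x - y)) :=
  HasCompactSupport.intro (isCompact_closedBall x r) fun y hy => refl_eq_zero hk x y hy

end refl

lemma hasFDerivAt_refl {k : ℂ → ℝ} {k' : ℂ → ℂ →L[ℝ] ℝ} (h : ∀ z, HasFDerivAt k (k' z) z)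
    (x y : ℂ) : HasFDerivAt (fun y => k (x - y)) (-(k' (x - y))) y := by
  have h1 : HasFDerivAt (fun y : ℂ => x - y) (-(ContinuousLinearMap.id ℝ ℂ)) y := by
    simpa using (hasFDerivAt_id (𝕜 := ℝ) y).const_sub x
  have := (h (x - y)).comp y h1
  refine this.congr_fderiv ?_
  ext v; simp

/-- weak equation `-ΔU = f` on `Ω` (tested with `C¹` functions of compact support). -/
def WeakEq (Ω : Set ℂ) (U f : ℂ → ℝ) : Prop :=
  ∀ v : ℂ → ℝ, ContDiff ℝ 1 v → HasCompactSupport v → tsupport v ⊆ Ω →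
    ∫ y, (fderiv ℝ U y 1 * fderiv ℝ v y 1 + fderiv ℝ U y I * fderiv ℝ v y I) = ∫ y, f y * v y

lemma main_identity {Ω : Set ℂ} (hΩ : IsOpen Ω) {U f : ℂ → ℝ} (hU : ContDiffOn ℝ 1 U Ω)
    (hw : WeakEq Ω U f) {ε r : ℝ} (hε : 0 < ε) (hεr : ε ≤ r) {x : ℂ} (hx : closedBall x r ⊆ Ω) :
    ∫ y, U y * (-(vL ε r (x - y))) = ∫ y, f y * V ε r (x - y) := by
  have hr : 0 < r := hε.trans_le hεr
  have hV0 : ∀ z, r ≤ ‖z‖ → V ε r z = 0 := fun z hz => V_eq_zero hε hεr hz
  have ha0 : ∀ z, r ≤ ‖z‖ → va ε r z = 0 := fun z hz => va_eq_zero hε hεr hz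
  have hVd := fun y => hasFDerivAt_refl (hasFDerivAt_V ε r) x y
  have hVc : ContDiff ℝ 1 (fun y => V ε r (x - y)) := by
    rw [contDiff_one_iff_fderiv]
    refine ⟨fun y => (hVd y).differentiableAt, ?_⟩
    have : fderiv ℝ (fun y => V ε r (x - y)) = fun y => -(va ε r (x - y) • dq (x - y)) := by
      funext y; exact (hVd y).fderiv
    rw [this]
    have h1 := continuous_va ε r
    have h2 := continuous_dq
    fun_prop
  rw [← hw _ hVc (hasCompactSupport_refl hV0 x) ((tsupport_refl hV0 x).trans hx)]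
  -- the two components of the gradient
  have hG1 : ∀ y, HasFDerivAt (fun y => -(va ε r (x - y) * (2 * (x - y).re)))
      ((2 * (x - y).re) • (vb ε r (x - y) • dq (x - y)) + (va ε r (x - y) * 2) • reCLM) y := by
    intro y
    have h1 := hasFDerivAt_refl (hasFDerivAt_va ε r) x y
    have h2 : HasFDerivAt (fun y : ℂ => 2 * (x - y).re) ((2:ℝ) • (-reCLM)) y := by
      have : HasFDerivAt (fun y : ℂ => (x - y).re) (-reCLM) y :=
        hasFDerivAt_refl (k := fun z => z.re) (k' := fun _ => reCLM)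
          (fun z => reCLM.hasFDerivAt) x y
      exact this.const_mul 2
    refine (h1.mul h2).neg.congr_fderiv ?_
    ext v
    simp
    ring
  have hG2 : ∀ y, HasFDerivAt (fun y => -(va ε r (x - y) * (2 * (x - y).im)))
      ((2 * (x - y).im) • (vb ε r (x - y) • dq (x - y)) + (va ε r (x - y) * 2) • imCLM) y := by
    intro y
    have h1 := hasFDerivAt_refl (hasFDerivAt_va ε r) x y
    have h2 : HasFDerivAt (fun y : ℂ => 2 * (x - y).im) ((2:ℝ) • (-imCLM)) y := by
      have : HasFDerivAt (fun y : ℂ => (x - y).im) (-imCLM) y :=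
        hasFDerivAt_refl (k := fun z => z.im) (k' := fun _ => imCLM)
          (fun z => imCLM.hasFDerivAt) x y
      exact this.const_mul 2
    refine (h1.mul h2).neg.congr_fderiv ?_
    ext v
    simp
    ring
  have ha := continuous_va ε r
  have hb := continuous_vb ε r
  have hd := continuous_dq
  have hk1 : ∀ z, r ≤ ‖z‖ → -(va ε r z * (2 * z.re)) = 0 := fun z hz => by simp [ha0 z hz]
  have hk2 : ∀ z, r ≤ ‖z‖ → -(va ε r z * (2 * z.im)) = 0 := fun z hz => by simp [ha0 z hz]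
  have c1 := hasCompactSupport_refl (k := fun z => -(va ε r z * (2 * z.re))) hk1 x
  have c2 := hasCompactSupport_refl (k := fun z => -(va ε r z * (2 * z.im))) hk2 x
  have s1 := (tsupport_refl (k := fun z => -(va ε r z * (2 * z.re))) hk1 x).trans hx
  have s2 := (tsupport_refl (k := fun z => -(va ε r z * (2 * z.im))) hk2 x).trans hx
  have i1 := ibp hΩ hU hG1 (by fun_prop) c1 s1 1
  have i2 := ibp hΩ hU hG2 (by fun_prop) c2 s2 I
  have hU1 : ContinuousOn (fun y => fderiv ℝ U y 1) Ω :=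
    (hU.continuousOn_fderiv_of_isOpen hΩ le_rfl).clm_apply continuousOn_const
  have hU2 : ContinuousOn (fun y => fderiv ℝ U y I) Ω :=
    (hU.continuousOn_fderiv_of_isOpen hΩ le_rfl).clm_apply continuousOn_const
  have hg1 : Continuous (fun y => -(va ε r (x - y) * (2 * (x - y).re))) := by fun_prop
  have hg2 : Continuous (fun y => -(va ε r (x - y) * (2 * (x - y).im))) := by fun_prop
  have e1 : ∫ y, (fderiv ℝ U y 1 * fderiv ℝ (fun y => V ε r (x - y)) y 1 +
      fderiv ℝ U y I * fderiv ℝ (fun y => V ε r (x - y)) y I) =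
      (∫ y, fderiv ℝ U y 1 * (-(va ε r (x - y) * (2 * (x - y).re)))) +
      ∫ y, fderiv ℝ U y I * (-(va ε r (x - y) * (2 * (x - y).im))) := by
    rw [← integral_add (integrable_mul_of_tsupport hΩ hU1 hg1 c1 s1)
      (integrable_mul_of_tsupport hΩ hU2 hg2 c2 s2)]
    refine integral_congr_ae (Eventually.of_forall fun y => ?_)
    simp only [(hVd y).fderiv]
    simp [dq_apply]
  rw [e1]
  have i1' : ∫ y, fderiv ℝ U y 1 * (-(va ε r (x - y) * (2 * (x - y).re))) =
    - ∫ y, U y * (((2 * (x - y).re) • (vb ε r (x - y) • dq (x - y)) +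
      (va ε r (x - y) * 2) • reCLM) 1) := by rw [i1, neg_neg]
  have i2' : ∫ y, fderiv ℝ U y I * (-(va ε r (x - y) * (2 * (x - y).im))) =
    - ∫ y, U y * (((2 * (x - y).im) • (vb ε r (x - y) • dq (x - y)) +
      (va ε r (x - y) * 2) • imCLM) I) := by rw [i2, neg_neg]
  rw [i1', i2', ← neg_add]
  have hd1 : (fun y => (((2 * (x - y).re) • (vb ε r (x - y) • dq (x - y)) +
      (va ε r (x - y) * 2) • reCLM) : ℂ →L[ℝ] ℝ)) =
      fderiv ℝ (fun y => -(va ε r (x - y) * (2 * (x - y).re))) := by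
    funext y; exact (hG1 y).fderiv.symm
  have hd2 : (fun y => (((2 * (x - y).im) • (vb ε r (x - y) • dq (x - y)) +
      (va ε r (x - y) * 2) • imCLM) : ℂ →L[ℝ] ℝ)) =
      fderiv ℝ (fun y => -(va ε r (x - y) * (2 * (x - y).im))) := by
    funext y; exact (hG2 y).fderiv.symm
  have j1 : Integrable (fun y => U y * (((2 * (x - y).re) • (vb ε r (x - y) • dq (x - y)) +
      (va ε r (x - y) * 2) • reCLM) 1)) := by
    refine integrable_mul_of_tsupport hΩ hU.continuousOn (by fun_prop) ?_ ?_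
    · have := c1.fderiv_apply (𝕜 := ℝ) 1
      rw [← hd1] at this
      exact this
    · have := (tsupport_fderiv_apply_subset ℝ (f := fun y => -(va ε r (x - y) * (2 * (x - y).re)))
        1).trans s1
      rw [← hd1] at this
      exact this
  have j2 : Integrable (fun y => U y * (((2 * (x - y).im) • (vb ε r (x - y) • dq (x - y)) +
      (va ε r (x - y) * 2) • imCLM) I)) := by
    refine integrable_mul_of_tsupport hΩ hU.continuousOn (by fun_prop) ?_ ?_
    · have := c2.fderiv_apply (𝕜 := ℝ) I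
      rw [← hd2] at this
      exact this
    · have := (tsupport_fderiv_apply_subset ℝ (f := fun y => -(va ε r (x - y) * (2 * (x - y).im)))
        I).trans s2
      rw [← hd2] at this
      exact this
  rw [← integral_add j1 j2, ← integral_neg]
  refine integral_congr_ae (Eventually.of_forall fun y => ?_)
  simp only [vL_eq hε hr, add_apply, smul_apply, dq_apply]
  simp [q]
  ring


/-! ### Translation estimates -/

lemma lintegral_translate_sub_le {k : ℂ → ℝ} {k' : ℂ → ℂ →L[ℝ] ℝ}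
    (hk : ∀ z, HasFDerivAt k (k' z) z) (hk' : Continuous k') (h : ℂ) :
    ∫⁻ z, ‖k (z + h) - k z‖ₑ ≤ ‖h‖ₑ * ∫⁻ z, ‖k' z‖ₑ := by
  have h1 : ∀ z, ‖k (z + h) - k z‖ₑ ≤ ∫⁻ t in Ioc (0:ℝ) 1, ‖k' (z + t • h)‖ₑ * ‖h‖ₑ := by
    intro z
    have hd : ∀ t : ℝ, HasDerivAt (fun t : ℝ => k (z + t • h)) (k' (z + t • h) h) t := by
      intro t
      have e1 : HasDerivAt (fun t : ℝ => z + t • h) h t := by
        simpa using ((hasDerivAt_id t).smul_const h).const_add z
      exact (hk (z + t • h)).comp_hasDerivAt t e1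
    have hc : Continuous (fun t : ℝ => k' (z + t • h) h) := by fun_prop
    have h2 := intervalIntegral.integral_eq_sub_of_hasDerivAt (a := 0) (b := 1)
      (fun t _ => hd t) (hc.intervalIntegrable 0 1)
    simp only [zero_smul, add_zero, one_smul] at h2
    rw [← h2, intervalIntegral.integral_of_le zero_le_one]
    refine (enorm_integral_le_lintegral_enorm _).trans ?_
    refine lintegral_mono fun t => ?_
    exact (k' (z + t • h)).le_opENorm h
  refine (lintegral_mono h1).trans ?_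
  rw [lintegral_lintegral_swap]
  · have h3 : ∀ t : ℝ, ∫⁻ z, ‖k' (z + t • h)‖ₑ * ‖h‖ₑ = ‖h‖ₑ * ∫⁻ z, ‖k' z‖ₑ := by
      intro t
      have hm : Measurable fun z : ℂ => ‖k' (z + t • h)‖ₑ :=
        (Continuous.enorm (by fun_prop)).measurable
      rw [lintegral_mul_const _ hm, mul_comm,
        lintegral_add_right_eq_self (fun z => ‖k' z‖ₑ) (t • h)]
    simp only [h3]
    rw [lintegral_const]
    simp
  · refine Measurable.aemeasurable ?_
    have : Continuous fun p : ℂ × ℝ => ‖k' (p.1 + p.2 • h)‖ₑ := by fun_prop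
    exact this.measurable.mul_const _


/-- `TB k r C`: `k` is continuous, vanishes outside the ball of radius `r` and its `L¹` modulus of
continuity is at most `C ‖h‖`. -/
structure TB (k : ℂ → ℝ) (r C : ℝ) : Prop where
  cont : Continuous k
  zero : ∀ z, r ≤ ‖z‖ → k z = 0
  bound : ∀ h : ℂ, ‖h‖ ≤ r → ∫ z, |k (z + h) - k z| ≤ C * ‖h‖

lemma integrable_of_zero {k : ℂ → ℝ} {r : ℝ} (hc : Continuous k) (h : ∀ z, r ≤ ‖z‖ → k z = 0) :
    Integrable k :=
  hc.integrable_of_hasCompactSupport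
    (HasCompactSupport.intro (isCompact_closedBall 0 r) fun z hz => h z (by
      rw [mem_closedBall_zero_iff, not_le] at hz; exact hz.le))

lemma second_diff {r L C : ℝ} {U k : ℂ → ℝ} (hr : 0 < r)
    (hU : ContinuousOn U (ball 0 (5 * r)))
    (hL : ∀ x y, x ∈ ball (0:ℂ) (5 * r) → y ∈ ball (0:ℂ) (5 * r) → |U x - U y| ≤ L * ‖x - y‖)
    (hk : TB k r C) {x h e : ℂ} (hx : ‖x‖ < r) (hh : ‖h‖ < r) (he : ‖e‖ < r) (hL0 : 0 ≤ L) :
    |(∫ y, U y * k (x + h + e - y)) - (∫ y, U y * k (x + e - y)) -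
      (∫ y, U y * k (x + h - y)) + ∫ y, U y * k (x - y)| ≤ L * C * ‖h‖ * ‖e‖ := by
  have hcs : ∀ p : ℂ, ‖p‖ < 4 * r → Integrable (fun y => U y * k (p - y)) := by
    intro p hp
    refine integrable_mul_of_tsupport isOpen_ball hU ?_ (hasCompactSupport_refl hk.zero p)
      ((tsupport_refl hk.zero p).trans ?_)
    · have := hk.cont; fun_prop
    · intro y hy
      rw [mem_closedBall] at hy
      rw [mem_ball_zero_iff]
      calc ‖y‖ = ‖(y - p) + p‖ := by ring_nf
        _ ≤ ‖y - p‖ + ‖p‖ := norm_add_le _ _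
        _ < 5 * r := by rw [← dist_eq_norm]; linarith
  have n1 : ‖x + h + e‖ < 4 * r :=
    lt_of_le_of_lt ((norm_add_le _ _).trans (by linarith [norm_add_le x h] :
      ‖x + h‖ + ‖e‖ ≤ ‖x‖ + ‖h‖ + ‖e‖)) (by linarith)
  have n2 : ‖x + e‖ < 4 * r := lt_of_le_of_lt (norm_add_le _ _) (by linarith)
  have n3 : ‖x + h‖ < 4 * r := lt_of_le_of_lt (norm_add_le _ _) (by linarith)
  have n4 : ‖x‖ < 4 * r := by linarith
  -- change variables
  have s1 : ∀ p : ℂ, ∫ y, U y * k (p - y) = ∫ z, U (p - z) * k z := by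
    intro p
    rw [← integral_sub_left_eq_self (fun y => U y * k (p - y)) volume p]
    simp
  have s2 : ∀ p : ℂ, ∫ y, U y * k (p + e - y) = ∫ z, U (p - z) * k (z + e) := by
    intro p
    rw [← integral_sub_left_eq_self (fun y => U y * k (p + e - y)) volume p]
    refine integral_congr_ae (Eventually.of_forall fun z => ?_)
    simp only
    congr 2
    ring
  have t1 : ∀ p : ℂ, ‖p‖ < 4 * r → Integrable (fun z => U (p - z) * k z) := by
    intro p hp
    have := (hcs p hp).comp_sub_left p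
    simpa using this
  have t2 : ∀ p : ℂ, ‖p + e‖ < 4 * r → Integrable (fun z => U (p - z) * k (z + e)) := by
    intro p hp
    have := (hcs (p + e) hp).comp_sub_left p
    refine this.congr (Eventually.of_forall fun z => ?_)
    simp only
    congr 2
    ring
  rw [s2 (x + h), s2 x, s1 (x + h), s1 x]
  have A : Integrable (fun z => U (x + h - z) * k (z + e) - U (x - z) * k (z + e)) :=
    (t2 (x + h) n1).sub (t2 x n2)
  have B : Integrable (fun z => U (x + h - z) * k z - U (x - z) * k z) :=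
    (t1 (x + h) n3).sub (t1 x n4)
  rw [← integral_sub (t2 (x + h) n1) (t2 x n2), sub_add, ← integral_sub (t1 (x + h) n3) (t1 x n4),
    ← integral_sub A B]
  have hki : Integrable k := integrable_of_zero hk.cont hk.zero
  have hki' : Integrable (fun z => |k (z + e) - k z|) := ((hki.comp_add_right e).sub hki).abs
  have key : ∀ z, ‖U (x + h - z) * k (z + e) - U (x - z) * k (z + e) -
      (U (x + h - z) * k z - U (x - z) * k z)‖ ≤ L * ‖h‖ * |k (z + e) - k z| := by
    intro z
    have e1 : U (x + h - z) * k (z + e) - U (x - z) * k (z + e) -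
      (U (x + h - z) * k z - U (x - z) * k z) =
      (U (x + h - z) - U (x - z)) * (k (z + e) - k z) := by ring
    rw [e1, norm_mul, Real.norm_eq_abs, Real.norm_eq_abs]
    by_cases hz : ‖z‖ < 2 * r
    · refine mul_le_mul_of_nonneg_right ?_ (abs_nonneg _)
      have m1 : x + h - z ∈ ball (0:ℂ) (5 * r) := by
        rw [mem_ball_zero_iff]
        calc ‖x + h - z‖ ≤ ‖x + h‖ + ‖z‖ := norm_sub_le _ _
          _ ≤ ‖x‖ + ‖h‖ + ‖z‖ := by gcongr; exact norm_add_le _ _
          _ < 5 * r := by linarith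
      have m2 : x - z ∈ ball (0:ℂ) (5 * r) := by
        rw [mem_ball_zero_iff]
        calc ‖x - z‖ ≤ ‖x‖ + ‖z‖ := norm_sub_le _ _
          _ < 5 * r := by linarith
      have := hL _ _ m1 m2
      have e2 : x + h - z - (x - z) = h := by ring
      rwa [e2] at this
    · have hz' : 2 * r ≤ ‖z‖ := not_lt.1 hz
      have z1 : k z = 0 := hk.zero z (by linarith)
      have z2 : k (z + e) = 0 := by
        refine hk.zero _ ?_
        have : ‖z‖ ≤ ‖z + e‖ + ‖e‖ := by
          calc ‖z‖ = ‖(z + e) - e‖ := by ring_nf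
            _ ≤ _ := norm_sub_le _ _
        linarith
      rw [z1, z2]
      simp
  calc _ ≤ ∫ z, L * ‖h‖ * |k (z + e) - k z| := by
        rw [← Real.norm_eq_abs]
        refine norm_integral_le_of_norm_le (hki'.const_mul _) (Eventually.of_forall key)
    _ = L * ‖h‖ * ∫ z, |k (z + e) - k z| := integral_const_mul _ _
    _ ≤ L * ‖h‖ * (C * ‖e‖) := by
        refine mul_le_mul_of_nonneg_left (hk.bound e he.le) (by positivity)
    _ = L * C * ‖h‖ * ‖e‖ := by ring


/-! ### The two kernels -/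

lemma norm_dq (z : ℂ) : ‖dq z‖ ≤ 2 * ‖z‖ := by
  refine ContinuousLinearMap.opNorm_le_bound _ (by positivity) fun e => ?_
  rw [dq_apply, Real.norm_eq_abs]
  have h : (z.re * e.re + z.im * e.im) = (z * (starRingEnd ℂ) e).re := by
    simp
  rw [h, abs_mul, abs_of_nonneg (by norm_num : (0:ℝ) ≤ 2), mul_assoc]
  refine mul_le_mul_of_nonneg_left ?_ (by norm_num)
  refine (Complex.abs_re_le_norm _).trans ?_
  rw [norm_mul, RCLike.norm_conj]

lemma abs_va_le {ε r : ℝ} (hε : 0 < ε) (hr : 0 < r) {z : ℂ} (hz : z ≠ 0) :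
    |va ε r z| ≤ (‖z‖ ^ 2)⁻¹ := by
  have hq : 0 < q z := by rw [q_eq]; have := norm_pos_iff.2 hz; positivity
  have key : ∀ s : ℝ, 0 < s → 0 ≤ kh (q z / s ^ 2) / s ^ 2 ∧ kh (q z / s ^ 2) / s ^ 2 ≤ (q z)⁻¹ := by
    intro s hs
    refine ⟨div_nonneg kh_nonneg (by positivity), ?_⟩
    have := mul_kh_le (q z / s ^ 2)
    rw [div_le_iff₀ (by positivity), ← div_eq_inv_mul, le_div_iff₀ hq]
    rw [div_mul_eq_mul_div, div_le_one (by positivity)] at this
    linarith
  rw [← q_eq]
  have h1 := key r hr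
  have h2 := key ε hε
  unfold va
  rw [abs_le]
  constructor <;> linarith [h1.1, h1.2, h2.1, h2.2]

/-- dominating function for the gradient of `V`. -/
noncomputable def dom (r : ℝ) (z : ℂ) : ℝ := (ball (0:ℂ) r).indicator (fun z => 2 * ‖z‖⁻¹) z

lemma integrable_dom {r : ℝ} : Integrable (dom r) := by
  unfold dom
  rw [integrable_indicator_iff measurableSet_ball]
  have := (integrableOn_fun_norm_addHaar (E := ℂ) volume (f := fun y : ℝ => 2 * y⁻¹) (r := r)).2 ?_
  · exact this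
  · rw [Complex.finrank_real_complex]
    refine (integrableOn_const (C := (2:ℝ)) (by simp) (by simp)).congr_fun ?_ measurableSet_Ioo
    intro y hy
    have : y ≠ 0 := hy.1.ne'
    simp only [smul_eq_mul]
    norm_num
    field_simp

lemma norm_grad_V_le {ε r : ℝ} (hε : 0 < ε) (hεr : ε ≤ r) (z : ℂ) :
    ‖va ε r z • dq z‖ ≤ dom r z := by
  unfold dom
  by_cases hz : z ∈ ball (0:ℂ) r
  · rw [indicator_of_mem hz, norm_smul, Real.norm_eq_abs]
    rcases eq_or_ne z 0 with rfl | h0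
    · have : dq 0 = 0 := by simp [dq]
      simp [this]
    · have h1 := abs_va_le hε (hε.trans_le hεr) h0
      have h2 := norm_dq z
      calc |va ε r z| * ‖dq z‖ ≤ (‖z‖ ^ 2)⁻¹ * (2 * ‖z‖) := by gcongr
        _ = 2 * ‖z‖⁻¹ := by
          have := norm_pos_iff.2 h0
          field_simp
  · rw [indicator_of_notMem hz]
    rw [mem_ball_zero_iff, not_lt] at hz
    rw [va_eq_zero hε hεr hz]; simp

lemma TB_V {ε r : ℝ} (hε : 0 < ε) (hεr : ε ≤ r) : TB (V ε r) r (∫ z, dom r z) := by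
  have hVc : Continuous (V ε r) :=
    continuous_iff_continuousAt.2 fun z => (hasFDerivAt_V ε r z).continuousAt
  have hV0 : ∀ z, r ≤ ‖z‖ → V ε r z = 0 := fun z hz => V_eq_zero hε hεr hz
  refine ⟨hVc, hV0, fun h _ => ?_⟩
  have ha := continuous_va ε r
  have hd := continuous_dq
  have h1 := lintegral_translate_sub_le (hasFDerivAt_V ε r) (by fun_prop) h
  have hVi := integrable_of_zero hVc hV0
  have h2 : Integrable (fun z => V ε r (z + h) - V ε r z) := (hVi.comp_add_right h).sub hVi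
  have h3 : ∫ z, |V ε r (z + h) - V ε r z| = (∫⁻ z, ‖V ε r (z + h) - V ε r z‖ₑ).toReal := by
    simp only [← Real.norm_eq_abs]
    exact integral_norm_eq_lintegral_enorm h2.aestronglyMeasurable
  have hdom0 : ∀ z, 0 ≤ dom r z := fun z => (norm_nonneg _).trans (norm_grad_V_le hε hεr z)
  have h4 : ∫⁻ z, ‖va ε r z • dq z‖ₑ ≤ ENNReal.ofReal (∫ z, dom r z) := by
    rw [ofReal_integral_eq_lintegral_ofReal integrable_dom (Eventually.of_forall hdom0)]
    refine lintegral_mono fun z => ?_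
    rw [← ofReal_norm]
    exact ENNReal.ofReal_le_ofReal (norm_grad_V_le hε hεr z)
  rw [h3]
  have h5 : ∫⁻ z, ‖V ε r (z + h) - V ε r z‖ₑ ≤ ENNReal.ofReal ((∫ z, dom r z) * ‖h‖) := by
    refine h1.trans ?_
    rw [mul_comm, ENNReal.ofReal_mul (integral_nonneg hdom0), ofReal_norm]
    gcongr
  exact ENNReal.toReal_le_of_le_ofReal (mul_nonneg (integral_nonneg hdom0) (norm_nonneg _)) h5

lemma kg_lip (a b : ℝ) : |kg a - kg b| ≤ 2 * |a - b| := by
  have h : ∀ s, kg s = 2 * max (1 - s) 0 := by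
    intro s
    unfold kg
    split_ifs with h
    · rw [max_eq_left (by linarith)]; ring
    · rw [max_eq_right (by linarith [not_le.1 h])]; ring
  rw [h, h, ← mul_sub, abs_mul, abs_of_nonneg (by norm_num : (0:ℝ) ≤ 2)]
  refine mul_le_mul_of_nonneg_left ?_ (by norm_num)
  refine (abs_max_sub_max_le_abs _ _ _).trans ?_
  rw [← abs_neg]
  apply le_of_eq
  ring_nf

/-- mollifying kernel -/
noncomputable def et (r : ℝ) (z : ℂ) : ℝ := 4 * (kg (q z / r ^ 2) / r ^ 2)

lemma continuous_kg : Continuous kg := by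
  have : LipschitzWith 2 kg := LipschitzWith.of_dist_le_mul fun a b => by
    simpa [Real.dist_eq] using kg_lip a b
  exact this.continuous

lemma continuous_q : Continuous q := by unfold q; fun_prop

lemma continuous_et (r : ℝ) : Continuous (et r) := by
  have h1 := continuous_kg
  have h2 := continuous_q
  unfold et
  fun_prop

lemma et_eq_zero {r : ℝ} (hr : 0 < r) {z : ℂ} (hz : r ≤ ‖z‖) : et r z = 0 := by
  have h1 : 1 ≤ q z / r ^ 2 := by
    rw [one_le_div (by positivity), q_eq]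
    exact pow_le_pow_left₀ hr.le hz 2
  unfold et kg
  rcases eq_or_lt_of_le h1 with h | h
  · rw [← h]; simp
  · rw [if_neg (not_le.2 h)]; simp

lemma et_nonneg (r : ℝ) (z : ℂ) : 0 ≤ et r z := by
  unfold et
  have := kg_nonneg (q z / r ^ 2)
  positivity

lemma TB_et {r : ℝ} (hr : 0 < r) : ∃ C, 0 ≤ C ∧ TB (et r) r C := by
  refine ⟨(40 / r ^ 3) * (volume (ball (0:ℂ) (2 * r))).toReal, by positivity,
    continuous_et r, fun z hz => et_eq_zero hr hz, fun h hh => ?_⟩
  have key : ∀ z, |et r (z + h) - et r z| ≤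
      (ball (0:ℂ) (2 * r)).indicator (fun _ => 40 / r ^ 3 * ‖h‖) z := by
    intro z
    by_cases hz : z ∈ ball (0:ℂ) (2 * r)
    · rw [indicator_of_mem hz]
      rw [mem_ball_zero_iff] at hz
      have e1 : et r (z + h) - et r z = 4 / r ^ 2 * (kg (q (z + h) / r ^ 2) - kg (q z / r ^ 2)) := by
        unfold et; ring
      rw [e1, abs_mul, abs_of_nonneg (by positivity : (0:ℝ) ≤ 4 / r ^ 2)]
      have e2 := kg_lip (q (z + h) / r ^ 2) (q z / r ^ 2)
      have e3 : |q (z + h) / r ^ 2 - q z / r ^ 2| ≤ 5 / r * ‖h‖ := by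
        rw [← sub_div, abs_div, abs_of_nonneg (by positivity : (0:ℝ) ≤ r ^ 2),
          div_le_iff₀ (by positivity), q_eq, q_eq]
        have e4 : ‖z + h‖ ^ 2 - ‖z‖ ^ 2 = (‖z + h‖ - ‖z‖) * (‖z + h‖ + ‖z‖) := by ring
        rw [e4, abs_mul]
        have e5 : |‖z + h‖ - ‖z‖| ≤ ‖h‖ := by
          have := abs_norm_sub_norm_le (z + h) z
          simpa using this
        have e6 : |‖z + h‖ + ‖z‖| ≤ 5 * r := by
          rw [abs_of_nonneg (by positivity)]
          have := norm_add_le z h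
          linarith
        calc _ ≤ ‖h‖ * (5 * r) := by gcongr
          _ = 5 / r * ‖h‖ * r ^ 2 := by field_simp
      calc _ ≤ 4 / r ^ 2 * (2 * (5 / r * ‖h‖)) := by gcongr; linarith
        _ = 40 / r ^ 3 * ‖h‖ := by field_simp; ring
    · rw [indicator_of_notMem hz]
      rw [mem_ball_zero_iff, not_lt] at hz
      have z1 : et r z = 0 := et_eq_zero hr (by linarith)
      have z2 : et r (z + h) = 0 := by
        refine et_eq_zero hr ?_
        have : ‖z‖ ≤ ‖z + h‖ + ‖h‖ := by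
          calc ‖z‖ = ‖(z + h) - h‖ := by ring_nf
            _ ≤ _ := norm_sub_le _ _
        linarith
      simp [z1, z2]
  have hi : Integrable ((ball (0:ℂ) (2 * r)).indicator (fun _ => 40 / r ^ 3 * ‖h‖)) := by
    rw [integrable_indicator_iff measurableSet_ball]
    exact integrableOn_const measure_ball_lt_top.ne enorm_ne_top
  have hei := integrable_of_zero (continuous_et r) (fun z hz => et_eq_zero hr hz)
  have := integral_mono (((hei.comp_add_right h).sub hei).abs) hi key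
  refine this.trans ?_
  rw [integral_indicator measurableSet_ball, setIntegral_const, smul_eq_mul, Measure.real]
  apply le_of_eq
  ring


lemma integral_et {r : ℝ} (hr : 0 < r) : ∫ z, et r z = ∫ z, et 1 z := by
  have h1 : ∀ z, et r z = (r ^ 2)⁻¹ * et 1 (r⁻¹ • z) := by
    intro z
    have : q (r⁻¹ • z) = q z / r ^ 2 := by
      rw [q_eq, q_eq, norm_smul, norm_inv, Real.norm_eq_abs, mul_pow, inv_pow, sq_abs]
      ring
    unfold et
    rw [this]
    simp
    ring
  simp only [h1]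
  rw [integral_const_mul, Measure.integral_comp_inv_smul, Complex.finrank_real_complex,
    abs_of_nonneg (by positivity), smul_eq_mul]
  field_simp

lemma integral_et_pos : 0 < ∫ z, et 1 z := by
  refine (continuous_et 1).integral_pos_of_hasCompactSupport_nonneg_nonzero
    (HasCompactSupport.intro (isCompact_closedBall 0 1) fun z hz => et_eq_zero one_pos (by
      rw [mem_closedBall_zero_iff, not_le] at hz; exact hz.le)) (et_nonneg 1) (x := 0) ?_
  unfold et kg q
  norm_num

/-- The key second difference estimate. -/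
lemma second_diff_U {r L L' : ℝ} {U f : ℂ → ℝ} (hr : 0 < r)
    (hU : ContDiffOn ℝ 1 U (ball 0 (5 * r))) (hf : ContinuousOn f (ball 0 (5 * r)))
    (hw : WeakEq (ball 0 (5 * r)) U f) (hL0 : 0 ≤ L) (hL0' : 0 ≤ L')
    (hL : ∀ x y, x ∈ ball (0:ℂ) (5 * r) → y ∈ ball (0:ℂ) (5 * r) → |U x - U y| ≤ L * ‖x - y‖)
    (hL' : ∀ x y, x ∈ ball (0:ℂ) (5 * r) → y ∈ ball (0:ℂ) (5 * r) → |f x - f y| ≤ L' * ‖x - y‖) :
    ∃ C, 0 ≤ C ∧ ∀ x h e : ℂ, ‖x‖ < r → ‖h‖ < r → ‖e‖ < r →
      |U (x + h + e) - U (x + e) - U (x + h) + U x| ≤ C * ‖h‖ * ‖e‖ := by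
  obtain ⟨C₁, hC₁0, hC₁⟩ := TB_et hr
  set C₂ : ℝ := ∫ z, dom r z with hC₂
  set c : ℝ := ∫ z, et 1 z with hc
  have hcpos : 0 < c := integral_et_pos
  have hC₂0 : 0 ≤ C₂ := integral_nonneg fun z => (norm_nonneg _).trans
    (norm_grad_V_le (ε := r) hr le_rfl z)
  refine ⟨(L * C₁ + L' * C₂) / c, by positivity, fun x h e hx hh he => ?_⟩
  -- representation
  have rep : ∀ ε, 0 < ε → ε ≤ r → ∀ p : ℂ, ‖p‖ < 4 * r →
      ∫ y, U y * et ε (p - y) = (∫ y, U y * et r (p - y)) + ∫ y, f y * V ε r (p - y) := by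
    intro ε hε hεr p hp
    have hsub : closedBall p r ⊆ ball (0:ℂ) (5 * r) := by
      intro y hy
      rw [mem_closedBall] at hy
      rw [mem_ball_zero_iff]
      calc ‖y‖ = ‖(y - p) + p‖ := by ring_nf
        _ ≤ ‖y - p‖ + ‖p‖ := norm_add_le _ _
        _ < 5 * r := by rw [← dist_eq_norm]; linarith
    have hi : ∀ s, 0 < s → s ≤ r → Integrable (fun y => U y * et s (p - y)) := by
      intro s hs hsr
      have h0 : ∀ z, r ≤ ‖z‖ → et s z = 0 := fun z hz => et_eq_zero hs (hsr.trans hz)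
      refine integrable_mul_of_tsupport isOpen_ball hU.continuousOn ?_
        (hasCompactSupport_refl h0 p) ((tsupport_refl h0 p).trans hsub)
      have := continuous_et s
      fun_prop
    rw [← main_identity isOpen_ball hU hw hε hεr hsub, ← integral_add (hi r hr le_rfl)]
    · refine integral_congr_ae (Eventually.of_forall fun y => ?_)
      simp only [vL, et]
      ring
    · refine ((hi ε hε hεr).sub (hi r hr le_rfl)).congr (Eventually.of_forall fun y => ?_)
      simp only [vL, et, Pi.sub_apply]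
      ring
  -- approximation
  have app : ∀ ε, 0 < ε → ε ≤ r → ∀ p : ℂ, ‖p‖ < 4 * r →
      |(∫ y, U y * et ε (p - y)) - c * U p| ≤ L * ε * c := by
    intro ε hε hεr p hp
    have e0 : ∫ y, et ε (p - y) = c := by
      rw [integral_sub_left_eq_self (fun z => et ε z) volume p, integral_et hε]
    have hie : Integrable (fun y => et ε (p - y)) :=
      (integrable_of_zero (continuous_et ε) fun z hz => et_eq_zero hε hz).comp_sub_left p
    have h0 : ∀ z, ε ≤ ‖z‖ → et ε z = 0 := fun z hz => et_eq_zero hε hz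
    have hi : Integrable (fun y => U y * et ε (p - y)) := by
      refine integrable_mul_of_tsupport isOpen_ball hU.continuousOn ?_
        (hasCompactSupport_refl h0 p) ((tsupport_refl h0 p).trans ?_)
      · have := continuous_et ε
        fun_prop
      · intro y hy
        rw [mem_closedBall] at hy
        rw [mem_ball_zero_iff]
        calc ‖y‖ = ‖(y - p) + p‖ := by ring_nf
          _ ≤ ‖y - p‖ + ‖p‖ := norm_add_le _ _
          _ < 5 * r := by rw [← dist_eq_norm]; linarith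
    have e1 : c * U p = ∫ y, U p * et ε (p - y) := by
      rw [integral_const_mul, e0]; ring
    rw [e1, ← integral_sub hi (hie.const_mul _)]
    have e2 : L * ε * c = ∫ y, L * ε * et ε (p - y) := by rw [integral_const_mul, e0]
    rw [e2, ← Real.norm_eq_abs]
    refine norm_integral_le_of_norm_le (hie.const_mul _) (Eventually.of_forall fun y => ?_)
    rw [← sub_mul, norm_mul, Real.norm_eq_abs, Real.norm_eq_abs, abs_of_nonneg (et_nonneg ε _)]
    by_cases hy : ‖p - y‖ < ε
    · refine mul_le_mul_of_nonneg_right ?_ (et_nonneg _ _)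
      have m1 : y ∈ ball (0:ℂ) (5 * r) := by
        rw [mem_ball_zero_iff]
        calc ‖y‖ = ‖p - (p - y)‖ := by ring_nf
          _ ≤ ‖p‖ + ‖p - y‖ := norm_sub_le _ _
          _ < 5 * r := by linarith
      have m2 : p ∈ ball (0:ℂ) (5 * r) := by rw [mem_ball_zero_iff]; linarith
      refine (hL y p m1 m2).trans ?_
      refine mul_le_mul_of_nonneg_left ?_ hL0
      rw [norm_sub_rev]; exact hy.le
    · rw [et_eq_zero hε (not_lt.1 hy)]; simp
  have n1 : ‖x + h + e‖ < 4 * r :=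
    lt_of_le_of_lt ((norm_add_le _ _).trans (by linarith [norm_add_le x h] :
      ‖x + h‖ + ‖e‖ ≤ ‖x‖ + ‖h‖ + ‖e‖)) (by linarith)
  have n2 : ‖x + e‖ < 4 * r := lt_of_le_of_lt (norm_add_le _ _) (by linarith)
  have n3 : ‖x + h‖ < 4 * r := lt_of_le_of_lt (norm_add_le _ _) (by linarith)
  have n4 : ‖x‖ < 4 * r := by linarith
  have S1 := second_diff hr hU.continuousOn hL hC₁ hx hh he hL0
  have main : ∀ ε, 0 < ε → ε ≤ r →
      c * |U (x + h + e) - U (x + e) - U (x + h) + U x| ≤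
        (L * C₁ + L' * C₂) * ‖h‖ * ‖e‖ + 4 * (L * ε * c) := by
    intro ε hε hεr
    have S2 := second_diff hr hf hL' (TB_V hε hεr) hx hh he hL0'
    have a1 := abs_le.1 (app ε hε hεr _ n1)
    have a2 := abs_le.1 (app ε hε hεr _ n2)
    have a3 := abs_le.1 (app ε hε hεr _ n3)
    have a4 := abs_le.1 (app ε hε hεr _ n4)
    rw [rep ε hε hεr _ n1] at a1
    rw [rep ε hε hεr _ n2] at a2
    rw [rep ε hε hεr _ n3] at a3
    rw [rep ε hε hεr _ n4] at a4
    have b1 := abs_le.1 S1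
    have b2 := abs_le.1 S2
    rw [← abs_of_pos hcpos, ← abs_mul, abs_of_pos hcpos, abs_le]
    constructor
    · nlinarith [a1.1, a1.2, a2.1, a2.2, a3.1, a3.2, a4.1, a4.2, b1.1, b1.2, b2.1, b2.2]
    · nlinarith [a1.1, a1.2, a2.1, a2.2, a3.1, a3.2, a4.1, a4.2, b1.1, b1.2, b2.1, b2.2]
  have lim : c * |U (x + h + e) - U (x + e) - U (x + h) + U x| ≤
        (L * C₁ + L' * C₂) * ‖h‖ * ‖e‖ := by
    refine le_of_forall_pos_le_add fun δ hδ => ?_
    have hden : 0 < 4 * (L * c) + 1 := by positivity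
    have hε0 : 0 < min r (δ / (4 * (L * c) + 1)) := lt_min hr (by positivity)
    refine (main _ hε0 (min_le_left _ _)).trans ?_
    gcongr
    have h2 : min r (δ / (4 * (L * c) + 1)) ≤ δ / (4 * (L * c) + 1) := min_le_right _ _
    calc 4 * (L * min r (δ / (4 * (L * c) + 1)) * c)
        = (4 * (L * c)) * min r (δ / (4 * (L * c) + 1)) := by ring
      _ ≤ (4 * (L * c)) * (δ / (4 * (L * c) + 1)) := by gcongr
      _ ≤ (4 * (L * c) + 1) * (δ / (4 * (L * c) + 1)) := by gcongr; linarith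
      _ = δ := by field_simp
  rw [div_mul_eq_mul_div, div_mul_eq_mul_div, le_div_iff₀ hcpos]
  linarith


lemma WeakEq.mono {Ω Ω' : Set ℂ} {U f : ℂ → ℝ} (h : WeakEq Ω U f) (hs : Ω' ⊆ Ω) :
    WeakEq Ω' U f := fun v hv hc ht => h v hv hc (ht.trans hs)

lemma exists_lip {R ρ : ℝ} (hρ : ρ < R) {U : ℂ → ℝ}
    (hU : ContDiffOn ℝ 1 U (ball 0 R)) :
    ∃ L, 0 ≤ L ∧ ∀ x y, x ∈ ball (0:ℂ) ρ → y ∈ ball (0:ℂ) ρ → |U x - U y| ≤ L * ‖x - y‖ := by
  have hsub : closedBall (0:ℂ) ρ ⊆ ball 0 R := closedBall_subset_ball hρ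
  have hc : ContinuousOn (fun y => ‖fderiv ℝ U y‖) (closedBall 0 ρ) :=
    ((hU.continuousOn_fderiv_of_isOpen isOpen_ball le_rfl).mono hsub).norm
  obtain ⟨L, hL⟩ := (isCompact_closedBall (0:ℂ) ρ).bddAbove_image hc
  refine ⟨max L 0, le_max_right _ _, fun x y hx hy => ?_⟩
  have := (convex_ball (0:ℂ) ρ).norm_image_sub_le_of_norm_fderiv_le (𝕜 := ℝ) (f := U)
    (C := max L 0) (x := y) (y := x) ?_ ?_ hy hx
  · simpa using this
  · intro z hz
    exact (hU.differentiableOn one_ne_zero).differentiableAt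
      (isOpen_ball.mem_nhds (hsub (ball_subset_closedBall hz)))
  · intro z hz
    exact (hL ⟨z, ball_subset_closedBall hz, rfl⟩).trans (le_max_left _ _)

/-- **Interior regularity.** A `C¹` weak solution of `-ΔU = f` on a disc with `f` of class `C¹` has
a Lipschitz gradient near the centre. -/
theorem lipschitz_fderiv {R : ℝ} (hR : 0 < R) {U f : ℂ → ℝ}
    (hU : ContDiffOn ℝ 1 U (ball 0 R)) (hf : ContDiffOn ℝ 1 f (ball 0 R))
    (hw : WeakEq (ball 0 R) U f) :
    ∃ C, 0 ≤ C ∧ ∃ r, 0 < r ∧ r < R ∧ ∀ x y : ℂ, ‖x‖ < r → ‖y‖ < r →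
      ‖fderiv ℝ U x - fderiv ℝ U y‖ ≤ C * ‖x - y‖ := by
  set r : ℝ := R / 10 with hr
  have hr0 : 0 < r := by positivity
  have h5 : 5 * r < R := by rw [hr]; linarith
  have hsub : ball (0:ℂ) (5 * r) ⊆ ball 0 R := ball_subset_ball h5.le
  obtain ⟨L, hL0, hL⟩ := exists_lip h5 hU
  obtain ⟨L', hL0', hL'⟩ := exists_lip h5 hf
  obtain ⟨C, hC0, hC⟩ := second_diff_U hr0 (hU.mono hsub) (hf.continuousOn.mono hsub)
    (hw.mono hsub) hL0 hL0' hL hL'
  refine ⟨C, hC0, r / 2, by positivity, by linarith, fun x y hx hy => ?_⟩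
  have he : ‖x - y‖ < r := by
    calc ‖x - y‖ ≤ ‖x‖ + ‖y‖ := norm_sub_le _ _
      _ < r := by linarith
  have dU : ∀ z : ℂ, ‖z‖ < R → HasFDerivAt U (fderiv ℝ U z) z := fun z hz =>
    ((hU.differentiableOn one_ne_zero).differentiableAt
      (isOpen_ball.mem_nhds (by rwa [mem_ball_zero_iff]))).hasFDerivAt
  have h1 : HasFDerivAt (fun z => U (z + (x - y)) - U z) (fderiv ℝ U x - fderiv ℝ U y) y := by
    have e1 : HasFDerivAt (fun z => U (z + (x - y))) (fderiv ℝ U x) y := by
      have := dU x (by linarith)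
      have h2 : y + (x - y) = x := by ring
      rw [← h2] at this
      have h3 := this.comp y ((hasFDerivAt_id (𝕜 := ℝ) y).add_const (x - y))
      rw [h2] at h3
      exact h3
    exact e1.sub (dU y (by linarith))
  refine h1.le_of_lip' (by positivity) ?_
  have : ∀ᶠ z in 𝓝 y, ‖z - y‖ < r := by
    have : Tendsto (fun z => ‖z - y‖) (𝓝 y) (𝓝 ‖y - y‖) := by
      exact ((continuous_id.sub continuous_const).norm).tendsto y
    rw [sub_self, norm_zero] at this
    exact this.eventually_lt_const hr0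
  filter_upwards [this] with z hz
  have := hC y (z - y) (x - y) (by linarith) hz he
  rw [Real.norm_eq_abs]
  have e2 : y + (z - y) + (x - y) = z + (x - y) := by ring
  have e3 : y + (z - y) = z := by ring
  rw [e2, e3] at this
  have e4 : U (z + (x - y)) - U z - (U (y + (x - y)) - U y) =
    U (z + (x - y)) - U (y + (x - y)) - U z + U y := by ring
  rw [e4]
  calc _ ≤ _ := this
    _ = _ := by ring

/-- Version used in row 101: vanishing to second order at a critical zero. -/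
theorem second_order {R : ℝ} (hR : 0 < R) {U f : ℂ → ℝ}
    (hU : ContDiffOn ℝ 1 U (ball 0 R)) (hf : ContDiffOn ℝ 1 f (ball 0 R))
    (hw : WeakEq (ball 0 R) U f) (h0 : U 0 = 0) (h1 : fderiv ℝ U 0 = 0) :
    ∃ C, 0 ≤ C ∧ ∃ r, 0 < r ∧ r < R ∧ ∀ z : ℂ, ‖z‖ < r →
      |U z| ≤ C * ‖z‖ ^ 2 ∧ ‖fderiv ℝ U z‖ ≤ C * ‖z‖ := by
  obtain ⟨C, hC0, r, hr0, hrR, hC⟩ := lipschitz_fderiv hR hU hf hw
  refine ⟨C, hC0, r, hr0, hrR, fun z hz => ?_⟩
  have hg : ∀ w : ℂ, ‖w‖ < r → ‖fderiv ℝ U w‖ ≤ C * ‖w‖ := by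
    intro w hw'
    have := hC w 0 hw' (by simpa using hr0)
    simpa [h1] using this
  refine ⟨?_, hg z hz⟩
  have := (convex_closedBall (0:ℂ) ‖z‖).norm_image_sub_le_of_norm_fderiv_le (𝕜 := ℝ) (f := U)
    (C := C * ‖z‖) (x := 0) (y := z) ?_ ?_ (by simp) (by simp)
  · rw [h0, sub_zero, sub_zero, Real.norm_eq_abs] at this
    calc |U z| ≤ C * ‖z‖ * ‖z‖ := this
      _ = C * ‖z‖ ^ 2 := by ring
  · intro w hw'
    rw [mem_closedBall_zero_iff] at hw'
    exact (hU.differentiableOn one_ne_zero).differentiableAt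
      (isOpen_ball.mem_nhds (by rw [mem_ball_zero_iff]; linarith))
  · intro w hw'
    rw [mem_closedBall_zero_iff] at hw'
    refine (hg w (by linarith)).trans ?_
    gcongr

end Crest.Agent.R101.Reg
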