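import Crest.Agent.R101.Defs
import Crest.Agent.R101.Reg

/-! Row 101, P2: growth of `U - U 0` at the critical point. -/

set_option autoImplicit false

open MeasureTheory Metric Set Complex ComplexConjugate Filter Topology
open scoped ContDiff

namespace Crest.Agent.R101

lemma contDiffOn_rho {φ : ℂ → ℂ} (hφ : DifferentiableOn ℂ φ (ball 0 1)) :
    ContDiffOn ℝ 1 (rho φ) (ball 0 1) := by
  have h1 : ContDiffOn ℂ ω (deriv φ) (ball 0 1) :=
    ((hφ.analyticOnNhd isOpen_ball).deriv).analyticOn.contDiffOn
      (isOpen_ball.uniqueDiffOn)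
  have h2 : ContDiffOn ℝ 1 (deriv φ) (ball 0 1) := (h1.of_le le_top).restrict_scalars ℝ
  unfold rho
  exact h2.norm_sq ℝ

/-- P2 (regularity at the critical point). -/
theorem growth {φ : ℂ → ℂ} {U : ℂ → ℝ} {μ : ℝ} (h : Setting φ U μ) :
    ∃ C r : ℝ, 0 < r ∧ r < 1 ∧ ∀ z ∈ ball (0 : ℂ) r,
      |U z - U 0| ≤ C * ‖z‖ ^ 2 ∧ |dx U z| ≤ C * ‖z‖ ∧ |dy U z| ≤ C * ‖z‖ := by
  have hρ := contDiffOn_rho h.conf.holo
  have hU := h.adm.c1
  have hU' : ContDiffOn ℝ 1 (fun z => U z - U 0) (ball 0 1) := hU.sub contDiffOn_const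
  have hf : ContDiffOn ℝ 1 (fun z => μ * (rho φ z * U z)) (ball 0 1) :=
    contDiffOn_const.mul (hρ.mul hU)
  have hfd : ∀ z, fderiv ℝ (fun z => U z - U 0) z = fderiv ℝ U z := fun z => fderiv_sub_const _
  have hw : Reg.WeakEq (ball 0 1) (fun z => U z - U 0) (fun z => μ * (rho φ z * U z)) := by
    intro v hv hc hs
    have hvc := hv.continuous
    have hv' : Continuous (fderiv ℝ v) := hv.continuous_fderiv one_ne_zero
    have hdx : Continuous (dx v) := by unfold dx; fun_prop
    have hdy : Continuous (dy v) := by unfold dy; fun_prop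
    have hv0 : ∀ z, z ∉ ball (0:ℂ) 1 → v z = 0 := fun z hz =>
      image_eq_zero_of_notMem_tsupport fun hz' => hz (hs hz')
    have hfv0 : ∀ z, z ∉ ball (0:ℂ) 1 → fderiv ℝ v z = 0 := fun z hz =>
      image_eq_zero_of_notMem_tsupport fun hz' => hz (hs (tsupport_fderiv_subset ℝ hz'))
    have hadm : Adm φ v := by
      refine ⟨hv.contDiffOn, ?_, ?_⟩
      · have := Reg.integrable_mul_of_tsupport isOpen_ball (u := rho φ) (g := fun z => v z ^ 2)
          hρ.continuousOn (by fun_prop) ?_ ?_
        · exact this.integrableOn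
        · exact hc.comp_left (g := fun s : ℝ => s ^ 2) (by norm_num)
        · refine (closure_mono ?_).trans hs
          intro z hz
          simp only [Function.mem_support, ne_eq] at hz ⊢
          intro h0; exact hz (by rw [h0]; norm_num)
      · have c1 : HasCompactSupport (dx v) := hc.fderiv_apply (𝕜 := ℝ) 1
        have c2 : HasCompactSupport (dy v) := hc.fderiv_apply (𝕜 := ℝ) I
        have d1 : HasCompactSupport (fun z => dx v z ^ 2) :=
          c1.comp_left (g := fun s : ℝ => s ^ 2) (by norm_num)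
        have d2 : HasCompactSupport (fun z => dy v z ^ 2) :=
          c2.comp_left (g := fun s : ℝ => s ^ 2) (by norm_num)
        have i1 : Integrable (fun z => dx v z ^ 2) :=
          (by fun_prop : Continuous fun z => dx v z ^ 2).integrable_of_hasCompactSupport d1
        have i2 : Integrable (fun z => dy v z ^ 2) :=
          (by fun_prop : Continuous fun z => dy v z ^ 2).integrable_of_hasCompactSupport d2
        exact (i1.add i2).integrableOn
    have key := h.weak v hadm
    have e1 : ∫ z in ball (0:ℂ) 1, ip U v z =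
        ∫ y, (fderiv ℝ (fun z => U z - U 0) y 1 * fderiv ℝ v y 1 +
          fderiv ℝ (fun z => U z - U 0) y I * fderiv ℝ v y I) := by
      simp only [hfd]
      refine setIntegral_eq_integral_of_forall_compl_eq_zero fun z hz => ?_
      simp [ip, dx, dy, hfv0 z hz]
    have e2 : μ * ∫ z in ball (0:ℂ) 1, rho φ z * U z * v z =
        ∫ y, μ * (rho φ y * U y) * v y := by
      have : ∫ z in ball (0:ℂ) 1, rho φ z * U z * v z = ∫ z, rho φ z * U z * v z := by
        refine setIntegral_eq_integral_of_forall_compl_eq_zero fun z hz => ?_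
        rw [hv0 z hz, mul_zero]
      rw [this, ← integral_const_mul]
      refine integral_congr_ae (Eventually.of_forall fun y => ?_)
      simp only
      ring
    rw [← e1, ← e2]
    exact key
  obtain ⟨C, hC0, r, hr0, hr1, hC⟩ := Reg.second_order one_pos hU' hf hw (by simp)
    (by rw [hfd]; exact h.crit)
  refine ⟨C, r, hr0, hr1, fun z hz => ?_⟩
  rw [mem_ball_zero_iff] at hz
  obtain ⟨h1, h2⟩ := hC z hz
  rw [hfd] at h2
  refine ⟨h1, ?_, ?_⟩
  · have := (fderiv ℝ U z).le_opNorm 1
    rw [Real.norm_eq_abs, norm_one, mul_one] at this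
    exact this.trans h2
  · have := (fderiv ℝ U z).le_opNorm I
    rw [Real.norm_eq_abs, Complex.norm_I, mul_one] at this
    exact this.trans h2

end Crest.Agent.R101
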