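import Crest.Agent.R101.Defs

/-! Row 101: `‖(M φ)'‖²` is integrable on the disc, for every `β`. -/

set_option autoImplicit false

open MeasureTheory Metric Set Complex ComplexConjugate Filter Topology

namespace Crest.Agent.R101

namespace HpInt

lemma hp_eq {φ : ℂ → ℂ} (h : Conf φ) (β : ℂ) {z : ℂ} (hz : z ∈ ball (0 : ℂ) 1) (h0 : z ≠ 0) :
    hp φ β z = β * deriv (dslope φ 0) z + conj β * (φ z + z * deriv φ z) := by
  have hd : DifferentiableAt ℂ φ z := (h.holo z hz).differentiableAt (isOpen_ball.mem_nhds hz)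
  have hψ : DifferentiableAt ℂ (dslope φ 0) z := (differentiableAt_dslope_of_ne h0).2 hd
  have hEq : ∀ w, φ w = w * dslope φ 0 w := by
    intro w
    have := sub_smul_dslope φ 0 w
    simp only [sub_zero, smul_eq_mul, h.zero] at this
    exact this.symm
  have hder : deriv φ z = dslope φ 0 z + z * deriv (dslope φ 0) z := by
    have h1 : HasDerivAt (fun w => w * dslope φ 0 w)
        (1 * dslope φ 0 z + z * deriv (dslope φ 0) z) z :=
      (hasDerivAt_id z).mul hψ.hasDerivAt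
    have h2 : φ = fun w => w * dslope φ 0 w := funext hEq
    have h3 := h1.deriv
    rw [← h2] at h3
    rw [h3, one_mul]
  unfold hp MM MM'
  have e1 := hEq z
  rw [hder, e1]
  field_simp
  ring

lemma continuousOn_aux {φ : ℂ → ℂ} (h : Conf φ) (β : ℂ) :
    ContinuousOn (fun z => β * deriv (dslope φ 0) z + conj β * (φ z + z * deriv φ z))
      (ball 0 1) := by
  have hd : ContinuousOn (deriv φ) (ball 0 1) := (h.holo.deriv isOpen_ball).continuousOn
  have hψ : DifferentiableOn ℂ (dslope φ 0) (ball 0 1) :=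
    (differentiableOn_dslope (isOpen_ball.mem_nhds (mem_ball_self one_pos))).2 h.holo
  have hψ' : ContinuousOn (deriv (dslope φ 0)) (ball 0 1) := (hψ.deriv isOpen_ball).continuousOn
  exact (continuousOn_const.mul hψ').add
    (continuousOn_const.mul (h.holo.continuousOn.add (continuousOn_id.mul hd)))

end HpInt

open HpInt in
/-- `‖(M φ)'‖²` is integrable on the disc. -/
theorem hp_sq_int {φ : ℂ → ℂ} (h : Conf φ) (β : ℂ) :
    IntegrableOn (fun ζ => ‖hp φ β ζ‖ ^ 2) (ball 0 1) := by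
  set G : ℂ → ℂ := fun z => β * deriv (dslope φ 0) z + conj β * (φ z + z * deriv φ z) with hG
  have hGc : ContinuousOn G (ball 0 1) := continuousOn_aux h β
  have hae : (fun ζ => ‖G ζ‖ ^ 2) =ᵐ[volume.restrict (ball (0 : ℂ) 1)]
      fun ζ => ‖hp φ β ζ‖ ^ 2 := by
    rw [Filter.EventuallyEq, ae_restrict_iff' measurableSet_ball]
    have h1 : ∀ᵐ z : ℂ ∂volume, z ≠ 0 := by
      rw [ae_iff]; simp
    filter_upwards [h1] with z hz hzs
    rw [hp_eq h β hzs hz]
  refine Integrable.congr ?_ hae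
  obtain ⟨C, hC⟩ := h.bdd
  have hC0 : 0 ≤ C := (norm_nonneg _).trans (hC 0 (mem_ball_self one_pos))
  obtain ⟨B, hB⟩ : ∃ B : ℝ, ∀ z ∈ closedBall (0 : ℂ) (1 / 2), ‖G z‖ ≤ B := by
    have hsub : closedBall (0 : ℂ) (1 / 2) ⊆ ball 0 1 := closedBall_subset_ball (by norm_num)
    exact (isCompact_closedBall (0 : ℂ) (1 / 2)).exists_bound_of_continuousOn (hGc.mono hsub)
  set b := ‖β‖ with hb
  have hint : IntegrableOn (fun z => (B ^ 2 + 2 * (5 * b * C) ^ 2) + 18 * b ^ 2 * rho φ z)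
      (ball 0 1) := by
    refine Integrable.add ?_ (h.rho_int.const_mul _)
    exact integrableOn_const (by simp)
  refine Integrable.mono' hint
    ((hGc.norm.pow 2).aestronglyMeasurable measurableSet_ball) ?_
  rw [ae_restrict_iff' measurableSet_ball]
  have h1 : ∀ᵐ z : ℂ ∂volume, z ≠ 0 := by
    rw [ae_iff]; simp
  filter_upwards [h1] with z hz hzs
  have hz1 : ‖z‖ < 1 := by rwa [mem_ball_zero_iff] at hzs
  have hρ : 0 ≤ rho φ z := by unfold rho; positivity
  have hb0 : 0 ≤ b := norm_nonneg _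
  rw [Real.norm_of_nonneg (by positivity)]
  by_cases hz2 : ‖z‖ ≤ 1 / 2
  · have h2 : ‖G z‖ ≤ B := hB z (by rwa [mem_closedBall_zero_iff])
    have h3 : ‖G z‖ ^ 2 ≤ B ^ 2 := pow_le_pow_left₀ (norm_nonneg _) h2 2
    have h4 : 0 ≤ 2 * (5 * b * C) ^ 2 := by positivity
    have h5 : 0 ≤ 18 * b ^ 2 * rho φ z := by positivity
    linarith
  · have hz3 : 1 / 2 < ‖z‖ := not_le.mp hz2
    have e : G z = hp φ β z := (hp_eq h β hzs hz).symm
    rw [e]
    have hn : ‖hp φ β z‖ ≤ 5 * b * C + 3 * b * ‖deriv φ z‖ := by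
      unfold hp
      have hinv : ‖z‖⁻¹ ≤ 2 := by
        rw [inv_le_comm₀ (by linarith) (by norm_num)]
        linarith
      have m1 : ‖MM' β z‖ ≤ 5 * b := by
        unfold MM'
        calc ‖-β / z ^ 2 + conj β‖ ≤ ‖-β / z ^ 2‖ + ‖conj β‖ := norm_add_le _ _
          _ = b * (‖z‖⁻¹) ^ 2 + b := by
              rw [norm_div, norm_neg, norm_pow, RCLike.norm_conj, inv_pow, div_eq_mul_inv]
          _ ≤ b * 2 ^ 2 + b := by
              gcongr
          _ = 5 * b := by ring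
      have m2 : ‖MM β z‖ ≤ 3 * b := by
        unfold MM
        calc ‖β / z + conj β * z‖ ≤ ‖β / z‖ + ‖conj β * z‖ := norm_add_le _ _
          _ = b * ‖z‖⁻¹ + b * ‖z‖ := by
              rw [norm_div, norm_mul, RCLike.norm_conj, div_eq_mul_inv]
          _ ≤ b * 2 + b * 1 := by
              gcongr
          _ = 3 * b := by ring
      calc ‖MM' β z * φ z + MM β z * deriv φ z‖ ≤ ‖MM' β z * φ z‖ + ‖MM β z * deriv φ z‖ :=
            norm_add_le _ _
        _ = ‖MM' β z‖ * ‖φ z‖ + ‖MM β z‖ * ‖deriv φ z‖ := by rw [norm_mul, norm_mul]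
        _ ≤ 5 * b * C + 3 * b * ‖deriv φ z‖ := by
            gcongr
            exact hC z hzs
    have hn2 : ‖hp φ β z‖ ^ 2 ≤ (5 * b * C + 3 * b * ‖deriv φ z‖) ^ 2 :=
      pow_le_pow_left₀ (norm_nonneg _) hn 2
    have hr : rho φ z = ‖deriv φ z‖ ^ 2 := rfl
    rw [hr]
    nlinarith [sq_nonneg (5 * b * C - 3 * b * ‖deriv φ z‖), sq_nonneg B]

end Crest.Agent.R101
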