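import Crest.Statements.S0133
import Crest.Agent.R101.Defs

/-! Row 101: INTERFACE. Exact statements of all pieces (with `sorry`); never import this file in a
final file. Copy your statement verbatim into your own file (namespace `Crest.Agent.R101`) and
prove it there. -/

set_option autoImplicit false

open MeasureTheory Metric Set Complex ComplexConjugate Filter Topology
open scoped Gradient ContDiff

namespace Crest.Agent.R101.Iface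

open Crest.Agent.R101

/-- P1 (pull back, file `PullBack.lean`). -/
theorem pullback
    (Ω : Set (EuclideanSpace ℝ (Fin 2))) (hopen : IsOpen Ω)
    (hbdd : Bornology.IsBounded Ω) (hsc : IsSimplyConnected Ω)
    (u : EuclideanSpace ℝ (Fin 2) → ℝ) (hu : ContDiffOn ℝ 1 u Ω)
    (huL2 : IntegrableOn (fun x => u x ^ 2) Ω) (hgradL2 : IntegrableOn (fun x => ‖∇ u x‖ ^ 2) Ω)
    (hmean : ∫ x in Ω, u x = 0) (hnz : ∃ x ∈ Ω, u x ≠ 0)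
    (hmin : ∀ v : EuclideanSpace ℝ (Fin 2) → ℝ, ContDiffOn ℝ 1 v Ω →
      IntegrableOn (fun x => v x ^ 2) Ω → IntegrableOn (fun x => ‖∇ v x‖ ^ 2) Ω →
      ∫ x in Ω, v x = 0 →
      (∫ x in Ω, ‖∇ u x‖ ^ 2) * (∫ x in Ω, v x ^ 2) ≤ (∫ x in Ω, ‖∇ v x‖ ^ 2) * (∫ x in Ω, u x ^ 2))
    (x₀ : EuclideanSpace ℝ (Fin 2)) (hx₀ : x₀ ∈ Ω) (hcrit : ∇ u x₀ = 0) :
    ∃ (φ : ℂ → ℂ) (U : ℂ → ℝ) (μ : ℝ), Setting φ U μ := by
  sorry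

/-- P2 (regularity at the critical point, file `Reg.lean`). -/
theorem growth {φ : ℂ → ℂ} {U : ℂ → ℝ} {μ : ℝ} (h : Setting φ U μ) :
    ∃ C r : ℝ, 0 < r ∧ r < 1 ∧ ∀ z ∈ ball (0 : ℂ) r,
      |U z - U 0| ≤ C * ‖z‖ ^ 2 ∧ |dx U z| ≤ C * ‖z‖ ∧ |dy U z| ≤ C * ‖z‖ := by
  sorry

/-- P5a (Poincare, file `EnergyA.lean`). -/
theorem sq_integrable {W : ℂ → ℝ} (hW : ContDiffOn ℝ 1 W (ball 0 1))
    (hen : IntegrableOn (g2 W) (ball 0 1)) : IntegrableOn (fun z => W z ^ 2) (ball 0 1) := by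
  sorry

/-- P3 (Hodge inequality, file `Hodge.lean`).  `V = (V1, V2)`; `p` = weak divergence (including
tangentiality), `r` = weak curl, both with weight `ρ` (signs: `∫ V·∇v = ∫ ρ p v`,
`∫ V·(∂_y B, -∂_x B) = ∫ ρ r B`). -/
theorem hodge {φ : ℂ → ℂ} {U : ℂ → ℝ} {μ : ℝ} (h : Setting φ U μ)
    {V1 V2 p r : ℂ → ℝ}
    (hV1 : AEStronglyMeasurable V1 (volume.restrict (ball 0 1)))
    (hV2 : AEStronglyMeasurable V2 (volume.restrict (ball 0 1)))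
    (hp : AEStronglyMeasurable p (volume.restrict (ball 0 1)))
    (hr : AEStronglyMeasurable r (volume.restrict (ball 0 1)))
    (hV : IntegrableOn (fun z => V1 z ^ 2 + V2 z ^ 2) (ball 0 1))
    (hp2 : IntegrableOn (fun z => rho φ z * p z ^ 2) (ball 0 1))
    (hr2 : IntegrableOn (fun z => rho φ z * r z ^ 2) (ball 0 1))
    (hdiv : ∀ v : ℂ → ℝ, ContDiff ℝ ∞ v → ∫ z in ball (0 : ℂ) 1, (V1 z * dx v z + V2 z * dy v z) =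
      ∫ z in ball (0 : ℂ) 1, rho φ z * p z * v z)
    (hcurl : ∀ B : ℂ → ℝ, ContDiff ℝ ∞ B → (∀ z, ‖z‖ = 1 → B z = 0) →
      ∫ z in ball (0 : ℂ) 1, (V1 z * dy B z - V2 z * dx B z) =
      ∫ z in ball (0 : ℂ) 1, rho φ z * r z * B z) :
    μ * ∫ z in ball (0 : ℂ) 1, (V1 z ^ 2 + V2 z ^ 2) ≤
      (∫ z in ball (0 : ℂ) 1, rho φ z * p z ^ 2) + ∫ z in ball (0 : ℂ) 1, rho φ z * r z ^ 2 := by
  sorry

/-- P5 (energy identity + Hodge, files `Energy*.lean`), for every real `c0` (`c0 = 0` and `c0 = 1`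
are used; this also contains the case `u(p) = 0`). -/
theorem energy_le {φ : ℂ → ℂ} {U W : ℂ → ℝ} {μ c0 : ℝ} (h : Setting φ U μ) (hW : WSet φ W μ c0)
    {β : ℂ} (hβ : ‖β‖ = 1) :
    IntegrableOn (fun ζ => c0 ^ 2 * (RR β ζ ^ 2 * ‖φ ζ‖ ^ 2 * rho φ ζ)
      + 2 * (W ζ ^ 2 * ‖MM' β ζ‖ ^ 2) - 2 * c0 * (RR β ζ * kap φ β ζ * W ζ)) (ball 0 1) ∧
    μ * ∫ ζ in ball (0 : ℂ) 1, (c0 ^ 2 * (RR β ζ ^ 2 * ‖φ ζ‖ ^ 2 * rho φ ζ)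
      + 2 * (W ζ ^ 2 * ‖MM' β ζ‖ ^ 2) - 2 * c0 * (RR β ζ * kap φ β ζ * W ζ)) ≤
    c0 ^ 2 * (∫ ζ in ball (0 : ℂ) 1, ‖hp φ β ζ‖ ^ 2) +
      c0 * μ * ∫ ζ in ball (0 : ℂ) 1, rho φ ζ * W ζ * (MM β ζ ^ 2).re := by
  sorry

/-- P6 (Parseval, file `Pars.lean`). -/
theorem parseval {φ : ℂ → ℂ} (hφ : Conf φ) :
    IntegrableOn (fun ζ => ‖hp φ 1 ζ‖ ^ 2) (ball 0 1) ∧
    IntegrableOn (fun ζ => ‖hp φ I ζ‖ ^ 2) (ball 0 1) ∧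
    (∫ ζ in ball (0 : ℂ) 1, ‖hp φ 1 ζ‖ ^ 2) + (∫ ζ in ball (0 : ℂ) 1, ‖hp φ I ζ‖ ^ 2) =
      4 * ∫ ζ in ball (0 : ℂ) 1, rho φ ζ := by
  sorry

/-- N0 < 0 (file `N0.lean`). -/
theorem n0_neg {φ : ℂ → ℂ} (hφ : Conf φ) {β : ℂ} (hβ : ‖β‖ = 1) :
    IntegrableOn (n0 φ β) (ball 0 1) ∧ ∫ ζ in ball (0 : ℂ) 1, n0 φ β ζ < 0 := by
  sorry

end Crest.Agent.R101.Iface
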