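import Crest.Agent.R101.NullZ
import Crest.Agent.R101.Defs
import Crest.Agent.Lib.InjHolo

/-!
# `N0 < 0` on the disc

The Joukowski map `J ζ = ζ + 1/ζ` maps the lower half disc onto the upper half plane; the integral
of `n0 φ 1` over the lower half disc becomes `∫_HP |z|^4 nDens(lz z)` with `z = φ ∘ J⁻¹`.
-/

set_option autoImplicit false

open MeasureTheory Set Filter Complex Metric
open scoped Topology ComplexConjugate

namespace Crest.Agent.R101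

/-- Bieberbach's inequality transported to the upper half plane. -/
def BieberbachHP : Prop := ∀ v : ℂ → ℂ, DifferentiableOn ℂ v HP → InjOn v HP →
  ∀ ξ ∈ HP, ‖(ξ.im : ℂ) * (deriv (deriv v) ξ / deriv v ξ) - I‖ ≤ 2

/-- Joukowski -/
noncomputable def Jk (ζ : ℂ) : ℂ := ζ + 1 / ζ

/-- lower half disc -/
def Dm : Set ℂ := {ζ : ℂ | ‖ζ‖ < 1 ∧ ζ.im < 0}

theorem isOpen_Dm : IsOpen Dm :=
  (isOpen_lt continuous_norm continuous_const).inter
    (isOpen_lt Complex.continuous_im continuous_const)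

theorem Dm_ne_zero {ζ : ℂ} (h : ζ ∈ Dm) : ζ ≠ 0 := by
  rintro rfl; simpa using h.2

theorem Jk_im (ζ : ℂ) (h : ζ ≠ 0) : (Jk ζ).im = ζ.im * (1 - 1 / ‖ζ‖ ^ 2) := by
  have hn : ‖ζ‖ ^ 2 ≠ 0 := by
    have := norm_pos_iff.2 h
    positivity
  rw [Jk, Complex.add_im, one_div, Complex.inv_im, Complex.normSq_eq_norm_sq]
  field_simp
  ring

theorem Jk_maps : MapsTo Jk Dm HP := by
  intro ζ hζ
  have h0 := Dm_ne_zero hζ
  have hn := norm_pos_iff.2 h0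
  rw [mem_HP, Jk_im ζ h0]
  have h1 : ‖ζ‖ ^ 2 < 1 := by
    have := hζ.1
    nlinarith
  have h2 : 1 < 1 / ‖ζ‖ ^ 2 := by
    rw [lt_div_iff₀ (by positivity)]; linarith
  nlinarith [hζ.2]

theorem Jk_inj : InjOn Jk Dm := by
  intro a ha b hb hab
  have ha0 := Dm_ne_zero ha
  have hb0 := Dm_ne_zero hb
  by_contra hne
  have h1 : (a - b) * (1 - 1 / (a * b)) = 0 := by
    have : Jk a - Jk b = 0 := by rw [hab, sub_self]
    rw [← this, Jk, Jk]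
    field_simp
    ring
  rcases mul_eq_zero.1 h1 with h2 | h2
  · exact hne (sub_eq_zero.1 h2)
  · have h3 : a * b = 1 := by
      have : a * b ≠ 0 := mul_ne_zero ha0 hb0
      field_simp at h2
      linear_combination h2
    have h4 : ‖a‖ * ‖b‖ = 1 := by rw [← norm_mul, h3, norm_one]
    have := ha.1
    have := hb.1
    nlinarith [norm_nonneg a, norm_nonneg b]

theorem Jk_surj : SurjOn Jk Dm HP := by
  intro ξ hξ
  obtain ⟨s, hs⟩ : ∃ s : ℂ, s ^ 2 = ξ ^ 2 - 4 := ⟨_, Complex.cpow_nat_inv_pow _ two_ne_zero⟩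
  set r1 := (ξ + s) / 2 with hr1
  set r2 := (ξ - s) / 2 with hr2
  have hprod : r1 * r2 = 1 := by
    rw [hr1, hr2]; linear_combination (-1/4 : ℂ) * hs
  have hsum : r1 + r2 = ξ := by rw [hr1, hr2]; ring
  have h1 : r1 ≠ 0 := left_ne_zero_of_mul_eq_one hprod
  have h2 : r2 ≠ 0 := right_ne_zero_of_mul_eq_one hprod
  have key : ∀ a b : ℂ, a * b = 1 → a + b = ξ → ‖a‖ < 1 → a ∈ Dm ∧ Jk a = ξ := by
    intro a b hab hs hn
    have ha : a ≠ 0 := left_ne_zero_of_mul_eq_one hab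
    have hJ : Jk a = ξ := by
      rw [Jk, ← hs]
      have : b = 1 / a := by field_simp; linear_combination hab
      rw [this]
    refine ⟨⟨hn, ?_⟩, hJ⟩
    have h3 := Jk_im a ha
    rw [hJ] at h3
    have hξ' : 0 < ξ.im := hξ
    have hna := norm_pos_iff.2 ha
    have h4 : 1 < 1 / ‖a‖ ^ 2 := by
      rw [lt_div_iff₀ (by positivity)]; nlinarith
    by_contra hcon
    push Not at hcon
    nlinarith
  rcases lt_trichotomy ‖r1‖ 1 with h | h | h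
  · obtain ⟨hm, hJ⟩ := key r1 r2 hprod hsum h
    exact ⟨r1, hm, hJ⟩
  · exfalso
    have hJ : Jk r1 = ξ := by
      rw [Jk, ← hsum]
      have : r2 = 1 / r1 := by field_simp; linear_combination hprod
      rw [this]
    have h3 := Jk_im r1 h1
    rw [hJ, h] at h3
    have hξ' : 0 < ξ.im := hξ
    norm_num at h3
    linarith
  · have h3 : ‖r1‖ * ‖r2‖ = 1 := by rw [← norm_mul, hprod, norm_one]
    have h4 : ‖r2‖ < 1 := by nlinarith [norm_pos_iff.2 h2]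
    obtain ⟨hm, hJ⟩ := key r2 r1 (by rw [mul_comm]; exact hprod) (by rw [add_comm]; exact hsum) h4
    exact ⟨r2, hm, hJ⟩

theorem Jk_image : Jk '' Dm = HP := Subset.antisymm Jk_maps.image_subset Jk_surj

theorem Jk_hasDerivAt {ζ : ℂ} (h : ζ ≠ 0) : HasDerivAt Jk (MM' 1 ζ) ζ := by
  have h1 : HasDerivAt (fun x : ℂ => x + x⁻¹) (1 + -(ζ ^ 2)⁻¹) ζ :=
    (hasDerivAt_id ζ).add (hasDerivAt_inv h)
  have e : Jk = fun x : ℂ => x + x⁻¹ := by funext x; rw [Jk, one_div]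
  rw [e]
  refine h1.congr_deriv ?_
  rw [MM', map_one]; rw [neg_div, one_div]; ring

theorem Jk_diff : DifferentiableOn ℂ Jk Dm := fun _ hζ =>
  (Jk_hasDerivAt (Dm_ne_zero hζ)).differentiableAt.differentiableWithinAt

theorem MM'_ne {ζ : ℂ} (h : ‖ζ‖ < 1) (h0 : ζ ≠ 0) : MM' 1 ζ ≠ 0 := by
  intro hc
  rw [MM', map_one] at hc
  have h1 : ζ ^ 2 = 1 := by
    field_simp at hc
    linear_combination hc
  have h2 : ‖ζ‖ ^ 2 = 1 := by rw [← norm_pow, h1, norm_one]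
  nlinarith [norm_nonneg ζ]

theorem Jk_norm_bound {ζ : ℂ} (h : ‖ζ‖ < 1) (h0 : ζ ≠ 0) : ‖ζ‖ ≤ 3 / (1 + ‖Jk ζ‖) := by
  have hn := norm_pos_iff.2 h0
  rw [le_div_iff₀ (by positivity)]
  have h1 : ‖Jk ζ‖ ≤ ‖ζ‖ + 1 / ‖ζ‖ := by
    rw [Jk]
    refine (norm_add_le _ _).trans ?_
    rw [norm_div, norm_one]
  calc ‖ζ‖ * (1 + ‖Jk ζ‖) ≤ ‖ζ‖ * (1 + (‖ζ‖ + 1 / ‖ζ‖)) := by gcongr
    _ = ‖ζ‖ + ‖ζ‖ ^ 2 + 1 := by field_simp; ring
    _ ≤ 3 := by nlinarith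

/-- Schwarz -/
theorem schwarz_bound {φ : ℂ → ℂ} (hφ : DifferentiableOn ℂ φ (ball 0 1)) (h0 : φ 0 = 0) {C : ℝ}
    (hb : ∀ ζ ∈ ball (0:ℂ) 1, ‖φ ζ‖ ≤ C) {ζ : ℂ} (hζ : ζ ∈ ball (0:ℂ) 1) :
    ‖φ ζ‖ ≤ (C + 1) * ‖ζ‖ := by
  have hC : 0 ≤ C := (norm_nonneg _).trans (hb 0 (by simp))
  have hmaps : MapsTo φ (ball 0 1) (closedBall (φ 0) (C + 1)) := by
    intro w hw
    rw [h0, mem_closedBall_zero_iff]
    have := hb w hw
    linarith
  have := Complex.dist_le_div_mul_dist_of_mapsTo_ball hφ hmaps hζ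
  rw [h0, dist_zero_right, dist_zero_right] at this
  simpa using this

/-- the data for the half plane -/
theorem zdata_of (hD : BieberbachHP) {φ : ℂ → ℂ} (hφ : DifferentiableOn ℂ φ (ball 0 1))
    (hinj : InjOn φ (ball 0 1)) (h0 : φ 0 = 0) {C : ℝ} (hb : ∀ ζ ∈ ball (0:ℂ) 1, ‖φ ζ‖ ≤ C)
    {g : ℂ → ℂ} (hg : DifferentiableOn ℂ g HP) (hginj : InjOn g HP) (hgm : g '' HP = Dm)
    (hgf : ∀ ξ ∈ HP, Jk (g ξ) = ξ) : ZData (φ ∘ g) ((C + 1) * 3) := by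
  have hC : 0 ≤ C := (norm_nonneg _).trans (hb 0 (by simp))
  have hmaps : ∀ ξ ∈ HP, g ξ ∈ Dm := fun ξ hξ => by
    rw [← hgm]; exact mem_image_of_mem g hξ
  have hmaps' : MapsTo g HP (ball 0 1) := fun ξ hξ => by
    rw [mem_ball_zero_iff]; exact (hmaps ξ hξ).1
  have hd : DifferentiableOn ℂ (φ ∘ g) HP := hφ.comp hg hmaps'
  have hi : InjOn (φ ∘ g) HP := hinj.comp hginj hmaps'
  have hne : ∀ ξ ∈ HP, (φ ∘ g) ξ ≠ 0 := by
    intro ξ hξ hc
    have h1 := hinj (hmaps' hξ) (by simp : (0:ℂ) ∈ ball (0:ℂ) 1) (by rw [h0]; exact hc)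
    exact Dm_ne_zero (hmaps ξ hξ) h1
  have hdne : ∀ ξ ∈ HP, deriv (φ ∘ g) ξ ≠ 0 := fun ξ hξ =>
    Crest.Agent.Lib.deriv_ne_zero_of_injOn isOpen_HP hd hi hξ
  refine ⟨hd, hne, hdne, ?_, ?_, ?_⟩
  · intro ξ hξ
    have h1 := schwarz_bound hφ h0 hb (hmaps' hξ)
    have h2 := Jk_norm_bound (hmaps ξ hξ).1 (Dm_ne_zero (hmaps ξ hξ))
    rw [hgf ξ hξ] at h2
    calc ‖(φ ∘ g) ξ‖ ≤ (C + 1) * ‖g ξ‖ := h1
      _ ≤ (C + 1) * (3 / (1 + ‖ξ‖)) := by gcongr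
      _ = _ := by ring
  · exact fun ξ hξ => hD _ hd hi ξ hξ
  · intro ξ hξ
    set z := φ ∘ g with hz
    have hv : DifferentiableOn ℂ (fun x => (z x)⁻¹) HP := hd.inv hne
    have hvi : InjOn (fun x => (z x)⁻¹) HP := by
      intro a ha b hb' hab
      exact hi ha hb' (inv_injective hab)
    have h1 := hD _ hv hvi ξ hξ
    have hzan : ∀ x ∈ HP, AnalyticAt ℂ z x := fun x hx => hd.analyticAt (isOpen_HP.mem_nhds hx)
    have hd1 : ∀ x ∈ HP, deriv (fun x => (z x)⁻¹) x = -deriv z x / z x ^ 2 := by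
      intro x hx
      exact ((hzan x hx).differentiableAt.hasDerivAt.inv (hne x hx)).deriv
    have hd2 : deriv (deriv (fun x => (z x)⁻¹)) ξ =
        deriv (fun x => -deriv z x / z x ^ 2) ξ := by
      apply Filter.EventuallyEq.deriv_eq
      filter_upwards [isOpen_HP.mem_nhds hξ] with x hx using hd1 x hx
    have hzξ := hne ξ hξ
    have hdzξ := hdne ξ hξ
    have h3 : HasDerivAt (fun x => -deriv z x / z x ^ 2)
        ((-(deriv (deriv z) ξ) * z ξ ^ 2 - -(deriv z ξ) * (2 * z ξ ^ (2-1) * deriv z ξ)) /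
          (z ξ ^ 2) ^ 2) ξ := by
      have h4 := (hzan ξ hξ).deriv.differentiableAt.hasDerivAt.neg
      have h5 := (hzan ξ hξ).differentiableAt.hasDerivAt.pow 2
      have := h4.div h5 (pow_ne_zero 2 hzξ)
      exact this
    rw [hd2, h3.deriv, hd1 ξ hξ] at h1
    have e : ((-(deriv (deriv z) ξ) * z ξ ^ 2 - -(deriv z ξ) * (2 * z ξ ^ (2-1) * deriv z ξ)) /
          (z ξ ^ 2) ^ 2) / (-deriv z ξ / z ξ ^ 2)
        = deriv (deriv z) ξ / deriv z ξ - 2 * (deriv z ξ / z ξ) := by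
      field_simp
      ring
    rw [e] at h1
    exact h1

/-- multiplication by `c` as a real linear map has determinant `‖c‖²` -/
theorem det_smulRight (c : ℂ) :
    (((1 : ℂ →L[ℂ] ℂ).smulRight c).restrictScalars ℝ : ℂ →L[ℝ] ℂ).det = ‖c‖ ^ 2 := by
  have h1 : ((((1 : ℂ →L[ℂ] ℂ).smulRight c).restrictScalars ℝ : ℂ →L[ℝ] ℂ) : ℂ →ₗ[ℝ] ℂ)
      = Algebra.lmul ℝ ℂ c := by
    ext x; simp [mul_comm]
  rw [ContinuousLinearMap.det, h1, ← Algebra.norm_apply, Algebra.norm_complex_apply,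
    Complex.normSq_eq_norm_sq]

/-- the key algebraic identity -/
theorem n0_alg (p dp J' : ℂ) (R : ℝ) (hp : p ≠ 0) (hJ : J' ≠ 0) :
    ‖J'‖ ^ 2 * (‖p‖ ^ 4 * nDens ((R : ℂ) * ((dp / J') / p)))
      = R ^ 2 * (‖dp‖ ^ 2 * R + 2 * (J' * p * conj dp).im) ^ 2 / (2 * ‖J'‖ ^ 2)
        - R ^ 2 * ‖p‖ ^ 2 * ‖dp‖ ^ 2 := by
  have hp' := norm_pos_iff.2 hp
  have hJ' := norm_pos_iff.2 hJ
  set l := (R : ℂ) * ((dp / J') / p) with hl
  have h1 : l.re ^ 2 + l.im ^ 2 = R ^ 2 * ‖dp‖ ^ 2 / (‖J'‖ ^ 2 * ‖p‖ ^ 2) := by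
    have : l.re ^ 2 + l.im ^ 2 = ‖l‖ ^ 2 := by
      rw [Complex.sq_norm, Complex.normSq_apply]; ring
    rw [this, hl, norm_mul, norm_div, norm_div, Complex.norm_real, Real.norm_eq_abs, mul_pow,
      sq_abs, div_pow, div_pow]
    field_simp
  have h2 : l.im = - (R * (J' * p * conj dp).im / (‖J'‖ ^ 2 * ‖p‖ ^ 2)) := by
    have e : l = ((R / (‖J'‖ ^ 2 * ‖p‖ ^ 2) : ℝ) : ℂ) * conj (J' * p * conj dp) := by
      rw [hl]
      have e1 : ((‖J'‖ ^ 2 : ℝ) : ℂ) = J' * conj J' := by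
        rw [Complex.mul_conj, Complex.normSq_eq_norm_sq]
      have e2 : ((‖p‖ ^ 2 : ℝ) : ℂ) = p * conj p := by
        rw [Complex.mul_conj, Complex.normSq_eq_norm_sq]
      rw [Complex.ofReal_div, Complex.ofReal_mul, e1, e2]
      have h3 : conj J' ≠ 0 := (map_ne_zero _).2 hJ
      have h4 : conj p ≠ 0 := (map_ne_zero _).2 hp
      simp only [map_mul, Complex.conj_conj]
      field_simp
    rw [e, Complex.im_ofReal_mul, Complex.conj_im]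
    ring
  have h3 : nDens l = (l.re ^ 2 + l.im ^ 2 - 2 * l.im) ^ 2 / 2 - (l.re ^ 2 + l.im ^ 2) := by
    unfold nDens; ring
  rw [h3, h1, h2]
  generalize (J' * p * conj dp).im = t
  field_simp
  ring

theorem Jk_eq_MM (ζ : ℂ) : Jk ζ = MM 1 ζ := by
  rw [Jk, MM, map_one]; ring

/-- change of variables -/
theorem n0_lower (hD : BieberbachHP) (s : Finset (ℕ × ℕ × ℕ)) (cf : ℕ × ℕ × ℕ → ℂ)
    (hcert : ∀ l e : ℂ, ‖e - I‖ ≤ 2 → ‖e + 2 * l - I‖ ≤ 2 → nDens l + (nullP s cf l e).re < 0)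
    {φ : ℂ → ℂ} (hφ : DifferentiableOn ℂ φ (ball 0 1))
    (hinj : InjOn φ (ball 0 1)) (h0 : φ 0 = 0) {C : ℝ} (hb : ∀ ζ ∈ ball (0:ℂ) 1, ‖φ ζ‖ ≤ C) :
    IntegrableOn (n0 φ 1) Dm ∧ ∫ ζ in Dm, n0 φ 1 ζ < 0 := by
  obtain ⟨g, hg, hgi, hgm, hgf, hfg⟩ :=
    Crest.Agent.Lib.exists_holomorphic_inverse isOpen_Dm Jk_diff Jk_inj
  rw [Jk_image] at hg hgi hgm hfg
  have hz := zdata_of hD hφ hinj h0 hb hg hgi hgm hfg
  have hDmball : ∀ ζ ∈ Dm, ζ ∈ ball (0:ℂ) 1 := fun ζ hζ => by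
    rw [mem_ball_zero_iff]; exact hζ.1
  have hf' : ∀ x ∈ Dm, HasFDerivWithinAt Jk
      (((1 : ℂ →L[ℂ] ℂ).smulRight (MM' 1 x)).restrictScalars ℝ) Dm x := by
    intro x hx
    exact ((Jk_hasDerivAt (Dm_ne_zero hx)).hasFDerivAt.restrictScalars ℝ).hasFDerivWithinAt
  have hpt : ∀ ζ ∈ Dm, |(((1 : ℂ →L[ℂ] ℂ).smulRight (MM' 1 ζ)).restrictScalars ℝ
      : ℂ →L[ℝ] ℂ).det| • (‖(φ ∘ g) (Jk ζ)‖ ^ 4 * nDens (lz (φ ∘ g) (Jk ζ))) = n0 φ 1 ζ := by
    intro ζ hζ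
    have hζ0 := Dm_ne_zero hζ
    rw [det_smulRight, abs_of_nonneg (by positivity), smul_eq_mul]
    have h1 : (φ ∘ g) (Jk ζ) = φ ζ := by simp only [Function.comp_apply, hgf ζ hζ]
    have hJn : MM' 1 ζ ≠ 0 := MM'_ne hζ.1 hζ0
    have hder : deriv (φ ∘ g) (Jk ζ) = deriv φ ζ / MM' 1 ζ := by
      have h2 : HasDerivAt (φ ∘ g) (deriv (φ ∘ g) (Jk ζ)) (Jk ζ) :=
        hz.hasDerivAt_z (Jk_maps hζ)
      have h3 := h2.comp ζ (Jk_hasDerivAt hζ0)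
      have h4 : (φ ∘ g) ∘ Jk =ᶠ[𝓝 ζ] φ := by
        filter_upwards [isOpen_Dm.mem_nhds hζ] with x hx
        simp only [Function.comp_apply, hgf x hx]
      have h5 := (h3.congr_of_eventuallyEq h4.symm).deriv
      rw [h5]; field_simp
    have hφ0 : φ ζ ≠ 0 := by
      rw [← h1]; exact hz.ne _ (Jk_maps hζ)
    have h2 : lz (φ ∘ g) (Jk ζ) = ((RR 1 ζ : ℝ) : ℂ) * ((deriv φ ζ / MM' 1 ζ) / φ ζ) := by
      rw [lz, hder, h1, RR, Jk_eq_MM]
    rw [h1, h2, n0_alg (φ ζ) (deriv φ ζ) (MM' 1 ζ) (RR 1 ζ) hφ0 hJn]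
    rfl
  have hint : IntegrableOn (n0 φ 1) Dm := by
    have h1 := (integrableOn_image_iff_integrableOn_abs_det_fderiv_smul volume
      isOpen_Dm.measurableSet hf' Jk_inj
      (fun ξ => ‖(φ ∘ g) ξ‖ ^ 4 * nDens (lz (φ ∘ g) ξ))).1 (by
        rw [Jk_image]; exact hz.integrable_nDens)
    exact h1.congr_fun hpt isOpen_Dm.measurableSet
  refine ⟨hint, ?_⟩
  have h2 := integral_image_eq_integral_abs_det_fderiv_smul volume
      isOpen_Dm.measurableSet hf' Jk_inj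
      (fun ξ => ‖(φ ∘ g) ξ‖ ^ 4 * nDens (lz (φ ∘ g) ξ))
  rw [Jk_image, setIntegral_congr_fun isOpen_Dm.measurableSet hpt] at h2
  rw [← h2]
  exact hz.N0_neg s cf hcert

/-- rotation identity -/
theorem n0_rot (φ : ℂ → ℂ) (β : ℂ) {ω : ℂ} (hω : ‖ω‖ = 1) (ζ : ℂ) :
    n0 φ β (ω * ζ) = n0 (fun x => φ (ω * x)) (conj ω * β) ζ := by
  have hω0 : ω ≠ 0 := by rintro rfl; simp at hω
  have hωω : ω * conj ω = 1 := by
    rw [Complex.mul_conj, Complex.normSq_eq_norm_sq, hω]; simp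
  have hinv : conj ω = ω⁻¹ := eq_inv_of_mul_eq_one_right hωω
  have hder : deriv (fun x => φ (ω * x)) ζ = ω * deriv φ (ω * ζ) := by
    have := deriv_comp_mul_left ω φ ζ
    simpa using this
  have hMM : MM (conj ω * β) ζ = MM β (ω * ζ) := by
    rw [MM, MM, map_mul, Complex.conj_conj, hinv]
    field_simp
  have hMM' : MM' (conj ω * β) ζ = ω * MM' β (ω * ζ) := by
    rw [MM', MM', map_mul, Complex.conj_conj, hinv]
    field_simp
  have hRR : RR (conj ω * β) ζ = RR β (ω * ζ) := by rw [RR, RR, hMM]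
  have hrho : rho (fun x => φ (ω * x)) ζ = rho φ (ω * ζ) := by
    rw [rho, rho, hder, norm_mul, hω, one_mul]
  have hkap : kap (fun x => φ (ω * x)) (conj ω * β) ζ = kap φ β (ω * ζ) := by
    rw [kap, kap, hrho, hRR, hMM', hder, map_mul]
    have : ω * MM' β (ω * ζ) * φ (ω * ζ) * (conj ω * conj (deriv φ (ω * ζ)))
        = (ω * conj ω) * (MM' β (ω * ζ) * φ (ω * ζ) * conj (deriv φ (ω * ζ))) := by ring
    rw [this, hωω, one_mul]
  rw [n0, n0, hRR, hkap, hrho, hMM', norm_mul, hω, one_mul]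

theorem n0_neg_beta (φ : ℂ → ℂ) (β : ℂ) : n0 φ (-β) = n0 φ β := by
  funext ζ
  have h1 : MM (-β) ζ = -MM β ζ := by rw [MM, MM, map_neg]; ring
  have h2 : MM' (-β) ζ = -MM' β ζ := by rw [MM', MM', map_neg]; ring
  have h3 : RR (-β) ζ = -RR β ζ := by rw [RR, RR, h1, Complex.neg_im]
  have h4 : kap φ (-β) ζ = -kap φ β ζ := by
    rw [kap, kap, h3, h2]
    have : -MM' β ζ * φ ζ * conj (deriv φ ζ) = -(MM' β ζ * φ ζ * conj (deriv φ ζ)) := by ring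
    rw [this, Complex.neg_im]; ring
  rw [n0, n0, h3, h4, h2, norm_neg]; ring

/-- multiplication by a unit as a measure preserving equivalence -/
theorem mp_unit {ω : ℂ} (hω : ‖ω‖ = 1) : MeasurePreserving (fun x : ℂ => ω * x) volume volume := by
  let u : Circle := ⟨ω, mem_sphere_zero_iff_norm.2 hω⟩
  exact (rotation u).measurePreserving

theorem me_unit {ω : ℂ} (hω : ‖ω‖ = 1) : MeasurableEmbedding (fun x : ℂ => ω * x) := by
  let u : Circle := ⟨ω, mem_sphere_zero_iff_norm.2 hω⟩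
  exact (rotation u).toHomeomorph.measurableEmbedding

/-- upper half disc -/
def Dp : Set ℂ := {ζ : ℂ | ‖ζ‖ < 1 ∧ 0 < ζ.im}

theorem isOpen_Dp : IsOpen Dp :=
  (isOpen_lt continuous_norm continuous_const).inter
    (isOpen_lt continuous_const Complex.continuous_im)

theorem volume_im_eq_zero : (volume : Measure ℂ) {ζ : ℂ | ζ.im = 0} = 0 := by
  have hms : MeasurableSet {ζ : ℂ | ζ.im = 0} :=
    (isClosed_eq Complex.continuous_im continuous_const).measurableSet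
  rw [← (Complex.volume_preserving_equiv_real_prod.symm).measure_preimage
    hms.nullMeasurableSet]
  have hs : Complex.measurableEquivRealProd.symm ⁻¹' {ζ : ℂ | ζ.im = 0}
      = (univ ×ˢ {0} : Set (ℝ × ℝ)) := by
    ext p; simp [Complex.measurableEquivRealProd_symm_apply]
  rw [hs, Measure.volume_eq_prod, Measure.prod_prod]
  simp

theorem ball_ae_eq : (ball (0:ℂ) 1 : Set ℂ) =ᵐ[volume] (Dm ∪ Dp : Set ℂ) := by
  have h0 : ∀ᵐ ζ ∂(volume : Measure ℂ), ζ.im ≠ 0 := by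
    rw [ae_iff]; simpa using volume_im_eq_zero
  filter_upwards [h0] with ζ hζ
  apply propext
  show ζ ∈ ball (0:ℂ) 1 ↔ ζ ∈ (Dm ∪ Dp : Set ℂ)
  rw [mem_ball_zero_iff]
  constructor
  · intro h
    rcases lt_or_gt_of_ne hζ with h1 | h1
    · exact Or.inl ⟨h, h1⟩
    · exact Or.inr ⟨h, h1⟩
  · rintro (h | h)
    · exact h.1
    · exact h.1

theorem neg_preimage_Dp : (fun x : ℂ => (-1 : ℂ) * x) ⁻¹' Dp = Dm := by
  ext ζ
  simp only [mem_preimage, Dp, Dm, mem_ofPred_eq, neg_mul, one_mul, norm_neg, Complex.neg_im,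
    Left.neg_pos_iff]

/-- both halves, `β = 1` -/
theorem n0_one (hD : BieberbachHP) (s : Finset (ℕ × ℕ × ℕ)) (cf : ℕ × ℕ × ℕ → ℂ)
    (hcert : ∀ l e : ℂ, ‖e - I‖ ≤ 2 → ‖e + 2 * l - I‖ ≤ 2 → nDens l + (nullP s cf l e).re < 0)
    {φ : ℂ → ℂ} (hφ : DifferentiableOn ℂ φ (ball 0 1))
    (hinj : InjOn φ (ball 0 1)) (h0 : φ 0 = 0) {C : ℝ} (hb : ∀ ζ ∈ ball (0:ℂ) 1, ‖φ ζ‖ ≤ C) :
    IntegrableOn (n0 φ 1) (ball 0 1) ∧ ∫ ζ in ball (0:ℂ) 1, n0 φ 1 ζ < 0 := by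
  obtain ⟨h1, h2⟩ := n0_lower hD s cf hcert hφ hinj h0 hb
  have hneg : ‖(-1 : ℂ)‖ = 1 := by simp
  have hmball : ∀ x : ℂ, x ∈ ball (0:ℂ) 1 → (-1 : ℂ) * x ∈ ball (0:ℂ) 1 := by
    intro x hx
    rw [mem_ball_zero_iff] at hx ⊢
    rw [norm_mul, hneg, one_mul]; exact hx
  have hφ' : DifferentiableOn ℂ (fun x => φ ((-1 : ℂ) * x)) (ball 0 1) := by
    apply hφ.comp (f := fun x : ℂ => (-1 : ℂ) * x)
    · fun_prop
    · exact hmball
  have hinj' : InjOn (fun x => φ ((-1 : ℂ) * x)) (ball 0 1) := by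
    intro a ha b hb' hab
    have := hinj (hmball a ha) (hmball b hb') hab
    simpa using this
  obtain ⟨h3, h4⟩ := n0_lower hD s cf hcert hφ' hinj' (by simpa using h0)
    (C := C) (fun ζ hζ => hb _ (hmball ζ hζ))
  have hrot : ∀ ζ : ℂ, n0 (fun x => φ ((-1 : ℂ) * x)) 1 ζ = n0 φ 1 ((-1 : ℂ) * ζ) := by
    intro ζ
    rw [n0_rot φ 1 hneg ζ]
    have : conj (-1 : ℂ) * 1 = -1 := by simp
    rw [this, n0_neg_beta]
  have h5 : IntegrableOn (n0 φ 1) Dp := by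
    have h6 := (mp_unit hneg).integrableOn_comp_preimage (me_unit hneg) (f := n0 φ 1) (s := Dp)
    rw [neg_preimage_Dp] at h6
    rw [← h6]
    refine h3.congr_fun ?_ isOpen_Dm.measurableSet
    intro ζ _
    exact hrot ζ
  have h7 : ∫ ζ in Dp, n0 φ 1 ζ < 0 := by
    have h6 := (mp_unit hneg).setIntegral_preimage_emb (me_unit hneg) (n0 φ 1) Dp
    rw [neg_preimage_Dp] at h6
    rw [← h6]
    simp_rw [hrot] at h4
    exact h4
  have hdisj : Disjoint Dm Dp := by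
    rw [Set.disjoint_left]
    intro ζ ha hb'
    have := ha.2
    have := hb'.2
    linarith
  constructor
  · rw [IntegrableOn, Measure.restrict_congr_set ball_ae_eq]
    exact h1.union h5
  · rw [setIntegral_congr_set ball_ae_eq, setIntegral_union hdisj isOpen_Dp.measurableSet h1 h5]
    linarith

theorem ball_preimage {ω : ℂ} (hω : ‖ω‖ = 1) :
    (fun x : ℂ => ω * x) ⁻¹' (ball 0 1) = ball (0:ℂ) 1 := by
  ext ζ
  simp [hω]

/-- general `β` -/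
theorem n0_neg_of (hD : BieberbachHP) (s : Finset (ℕ × ℕ × ℕ)) (cf : ℕ × ℕ × ℕ → ℂ)
    (hcert : ∀ l e : ℂ, ‖e - I‖ ≤ 2 → ‖e + 2 * l - I‖ ≤ 2 → nDens l + (nullP s cf l e).re < 0)
    {φ : ℂ → ℂ} (hφ : Conf φ) {β : ℂ} (hβ : ‖β‖ = 1) :
    IntegrableOn (n0 φ β) (ball 0 1) ∧ ∫ ζ in ball (0 : ℂ) 1, n0 φ β ζ < 0 := by
  obtain ⟨C, hb⟩ := hφ.bdd
  have hmball : ∀ x : ℂ, x ∈ ball (0:ℂ) 1 → β * x ∈ ball (0:ℂ) 1 := by
    intro x hx
    rw [mem_ball_zero_iff] at hx ⊢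
    rw [norm_mul, hβ, one_mul]; exact hx
  have hβ0 : β ≠ 0 := by rintro rfl; simp at hβ
  have hφ' : DifferentiableOn ℂ (fun x => φ (β * x)) (ball 0 1) := by
    apply hφ.holo.comp (f := fun x : ℂ => β * x)
    · fun_prop
    · exact hmball
  have hinj' : InjOn (fun x => φ (β * x)) (ball 0 1) := by
    intro a ha b hb' hab
    have := hφ.inj (hmball a ha) (hmball b hb') hab
    exact mul_left_cancel₀ hβ0 this
  obtain ⟨h3, h4⟩ := n0_one hD s cf hcert hφ' hinj' (by simpa using hφ.zero)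
    (C := C) (fun ζ hζ => hb _ (hmball ζ hζ))
  have hrot : ∀ ζ : ℂ, n0 (fun x => φ (β * x)) 1 ζ = n0 φ β (β * ζ) := by
    intro ζ
    rw [n0_rot φ β hβ ζ]
    have : conj β * β = 1 := by
      rw [mul_comm, Complex.mul_conj, Complex.normSq_eq_norm_sq, hβ]; simp
    rw [this]
  constructor
  · have h6 := (mp_unit hβ).integrableOn_comp_preimage (me_unit hβ) (f := n0 φ β) (s := ball 0 1)
    rw [ball_preimage hβ] at h6
    rw [← h6]
    refine h3.congr_fun ?_ isOpen_ball.measurableSet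
    intro ζ _
    exact hrot ζ
  · have h6 := (mp_unit hβ).setIntegral_preimage_emb (me_unit hβ) (n0 φ β) (ball 0 1)
    rw [ball_preimage hβ] at h6
    rw [← h6]
    simp_rw [hrot] at h4
    exact h4

end Crest.Agent.R101
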