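import Crest.Agent.R101.N0
import Crest.Agent.R101.Cert
import Crest.Agent.Lib.Bieberbach

/-! Row 101: the final form of `n0_neg` (statement as in `Iface.lean`). -/

set_option autoImplicit false

open MeasureTheory Metric Set Complex ComplexConjugate Filter Topology

namespace Crest.Agent.R101

theorem bieberbachHP : BieberbachHP := by
  intro v hv hi ξ hξ
  have h := Crest.Agent.Lib.Bieberbach.bieberbach_halfplane' (v := v) hv hi (x := ξ) hξ
  rwa [mul_div_assoc] at h

/-- N0 < 0. -/
theorem n0_neg {φ : ℂ → ℂ} (hφ : Conf φ) {β : ℂ} (hβ : ‖β‖ = 1) :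
    IntegrableOn (n0 φ β) (ball 0 1) ∧ ∫ ζ in ball (0 : ℂ) 1, n0 φ β ζ < 0 :=
  n0_neg_of bieberbachHP certS certF cert hφ hβ

end Crest.Agent.R101
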