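import Mathlib

/-!
# Null identities on the upper half plane

`integral_dbar_eq_zero`: if `G` is real-differentiable on the upper half plane with partial
derivatives `GX, GY` integrable, and `‖G ξ‖ ≤ C * ξ.im / (1+‖ξ‖)^4`, then `∫ (GX + I GY) = 0`.
-/

set_option autoImplicit false

open MeasureTheory Set Filter Complex
open scoped Topology ComplexConjugate

namespace Crest.Agent.R101

/-- The open upper half plane. -/
def HP : Set ℂ := {ξ : ℂ | 0 < ξ.im}

theorem isOpen_HP : IsOpen HP := isOpen_lt continuous_const Complex.continuous_im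

theorem measurableSet_HP : MeasurableSet HP := isOpen_HP.measurableSet

theorem mem_HP {ξ : ℂ} : ξ ∈ HP ↔ 0 < ξ.im := Iff.rfl

/-- `x + y I` -/
def pt (x y : ℝ) : ℂ := ⟨x, y⟩

@[simp] theorem pt_re (x y : ℝ) : (pt x y).re = x := rfl
@[simp] theorem pt_im (x y : ℝ) : (pt x y).im = y := rfl

theorem pt_eq (x y : ℝ) : pt x y = x + y * I := by
  apply Complex.ext <;> simp

theorem integrable_HP_iff {f : ℂ → ℂ} :
    IntegrableOn f HP ↔ IntegrableOn (fun p : ℝ × ℝ => f (pt p.1 p.2)) (univ ×ˢ Ioi 0) := by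
  have h := (Complex.volume_preserving_equiv_real_prod.symm).integrableOn_comp_preimage
    (Complex.measurableEquivRealProd.symm.measurableEmbedding) (f := f) (s := HP)
  have hs : Complex.measurableEquivRealProd.symm ⁻¹' HP = (univ ×ˢ Ioi 0 : Set (ℝ × ℝ)) := by
    ext p; simp [HP, Complex.measurableEquivRealProd_symm_apply]
  rw [hs] at h
  rw [← h]
  rfl

theorem integral_HP_eq {f : ℂ → ℂ} :
    ∫ ξ in HP, f ξ = ∫ p in (univ ×ˢ Ioi 0 : Set (ℝ × ℝ)), f (pt p.1 p.2) := by
  have h := (Complex.volume_preserving_equiv_real_prod.symm).setIntegral_preimage_emb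
    (Complex.measurableEquivRealProd.symm.measurableEmbedding) f HP
  have hs : Complex.measurableEquivRealProd.symm ⁻¹' HP = (univ ×ˢ Ioi 0 : Set (ℝ × ℝ)) := by
    ext p; simp [HP, Complex.measurableEquivRealProd_symm_apply]
  rw [hs] at h
  rw [← h]
  rfl

theorem norm_pt_ge_re (x y : ℝ) : |x| ≤ ‖pt x y‖ := by
  simpa using Complex.abs_re_le_norm (pt x y)

theorem norm_pt_ge_im (x y : ℝ) : |y| ≤ ‖pt x y‖ := by
  simpa using Complex.abs_im_le_norm (pt x y)

/-- integral of the `x`-derivative vanishes -/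
theorem integral_GX {G GX : ℂ → ℂ} {C : ℝ}
    (hG : ∀ ξ ∈ HP, HasDerivAt (fun t : ℝ => G (pt t ξ.im)) (GX ξ) ξ.re)
    (hb : ∀ ξ : ℂ, 0 ≤ ξ.im → ‖G ξ‖ ≤ C * ξ.im / (1 + ‖ξ‖) ^ 4)
    (hi : IntegrableOn GX HP) : ∫ ξ in HP, GX ξ = 0 := by
  rw [integral_HP_eq]
  rw [integrable_HP_iff] at hi
  have hprod : (volume : Measure (ℝ × ℝ)).restrict (univ ×ˢ Ioi 0) =
      ((volume : Measure ℝ).restrict univ).prod ((volume : Measure ℝ).restrict (Ioi 0)) := by
    rw [Measure.prod_restrict]; rfl
  have hi' : Integrable (fun p : ℝ × ℝ => GX (pt p.1 p.2))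
      (((volume : Measure ℝ).restrict univ).prod ((volume : Measure ℝ).restrict (Ioi 0))) := by
    rw [← hprod]; exact hi
  rw [hprod, integral_prod_symm _ hi']
  have hae := hi'.prod_left_ae
  have hae' : ∀ᵐ y ∂((volume : Measure ℝ).restrict (Ioi 0)), 0 < y :=
    ae_restrict_mem measurableSet_Ioi
  have key : (fun y : ℝ => ∫ x, GX (pt x y) ∂((volume : Measure ℝ).restrict univ))
      =ᵐ[(volume : Measure ℝ).restrict (Ioi 0)] fun _ => (0 : ℂ) := by
    filter_upwards [hae, hae'] with y hy hy0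
    rw [Measure.restrict_univ] at hy ⊢
    have hC : Tendsto (fun x : ℝ => C * y / (1 + |x|) ^ 4) atTop (𝓝 0) := by
      apply Tendsto.div_atTop tendsto_const_nhds
      apply (tendsto_pow_atTop (by norm_num)).comp
      exact tendsto_atTop_add_const_left _ _ tendsto_abs_atTop_atTop
    have hC' : Tendsto (fun x : ℝ => C * y / (1 + |x|) ^ 4) atBot (𝓝 0) := by
      apply Tendsto.div_atTop tendsto_const_nhds
      apply (tendsto_pow_atTop (by norm_num)).comp
      exact tendsto_atTop_add_const_left _ _ tendsto_abs_atBot_atTop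
    have hCy : 0 ≤ C * y := by
      have h0 := (norm_nonneg _).trans (hb (pt 0 y) (by simpa using hy0.le))
      simp only [pt_im] at h0
      by_contra hcon
      push Not at hcon
      have : C * y / (1 + ‖pt 0 y‖) ^ 4 < 0 := div_neg_of_neg_of_pos hcon (by positivity)
      linarith
    have hle : ∀ x : ℝ, ‖G (pt x y)‖ ≤ C * y / (1 + |x|) ^ 4 := by
      intro x
      refine (hb (pt x y) (by simpa using hy0.le)).trans ?_
      simp only [pt_im]
      apply div_le_div_of_nonneg_left hCy (by positivity)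
      have := norm_pt_ge_re x y
      gcongr
    have h1 : Tendsto (fun x : ℝ => G (pt x y)) atTop (𝓝 0) :=
      squeeze_zero_norm hle hC
    have h2 : Tendsto (fun x : ℝ => G (pt x y)) atBot (𝓝 0) :=
      squeeze_zero_norm hle hC'
    have h3 : ∀ x : ℝ, HasDerivAt (fun t : ℝ => G (pt t y)) (GX (pt x y)) x := by
      intro x
      exact hG (pt x y) (by simpa [HP] using hy0)
    have := integral_of_hasDerivAt_of_tendsto h3 hy h2 h1
    simpa using this
  rw [integral_congr_ae key]; simp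

/-- integral of the `y`-derivative vanishes -/
theorem integral_GY {G GY : ℂ → ℂ} {C : ℝ}
    (hG : ∀ ξ ∈ HP, HasDerivAt (fun t : ℝ => G (pt ξ.re t)) (GY ξ) ξ.im)
    (hb : ∀ ξ : ℂ, 0 ≤ ξ.im → ‖G ξ‖ ≤ C * ξ.im / (1 + ‖ξ‖) ^ 4)
    (hi : IntegrableOn GY HP) : ∫ ξ in HP, GY ξ = 0 := by
  rw [integral_HP_eq]
  rw [integrable_HP_iff] at hi
  have hprod : (volume : Measure (ℝ × ℝ)).restrict (univ ×ˢ Ioi 0) =
      ((volume : Measure ℝ).restrict univ).prod ((volume : Measure ℝ).restrict (Ioi 0)) := by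
    rw [Measure.prod_restrict]; rfl
  have hi' : Integrable (fun p : ℝ × ℝ => GY (pt p.1 p.2))
      (((volume : Measure ℝ).restrict univ).prod ((volume : Measure ℝ).restrict (Ioi 0))) := by
    rw [← hprod]; exact hi
  rw [hprod, integral_prod _ hi']
  have hC0 : 0 ≤ C := by
    have h0 := (norm_nonneg _).trans (hb (pt 0 1) (by simp))
    simp only [pt_im, mul_one] at h0
    by_contra hcon
    push Not at hcon
    have : C / (1 + ‖pt 0 1‖) ^ 4 < 0 := div_neg_of_neg_of_pos hcon (by positivity)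
    linarith
  have key : (fun x : ℝ => ∫ y, GY (pt x y) ∂((volume : Measure ℝ).restrict (Ioi 0)))
      =ᵐ[(volume : Measure ℝ).restrict univ] fun _ => (0 : ℂ) := by
    filter_upwards [hi'.prod_right_ae] with x hx
    have hle : ∀ y : ℝ, 0 ≤ y → ‖G (pt x y)‖ ≤ C * y / (1 + |y|) ^ 4 := by
      intro y hy
      refine (hb (pt x y) (by simpa using hy)).trans ?_
      simp only [pt_im]
      apply div_le_div_of_nonneg_left (by positivity) (by positivity)
      have := norm_pt_ge_im x y
      gcongr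
    have hle2 : ∀ y : ℝ, 0 ≤ y → ‖G (pt x y)‖ ≤ C / (1 + |y|) ^ 3 := by
      intro y hy
      refine (hle y hy).trans ?_
      rw [div_le_div_iff₀ (by positivity) (by positivity)]
      have h1 : y ≤ 1 + |y| := by linarith [le_abs_self y]
      have h2 : 0 ≤ C * (1 + |y|) ^ 3 := by positivity
      nlinarith [mul_le_mul_of_nonneg_left h1 h2]
    have hG0 : G (pt x 0) = 0 := by
      have := hle 0 le_rfl
      simpa using this
    have h1 : Tendsto (fun y : ℝ => G (pt x y)) atTop (𝓝 0) := by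
      apply squeeze_zero_norm' (a := fun y : ℝ => C / (1 + |y|) ^ 3)
      · filter_upwards [eventually_ge_atTop (0:ℝ)] with y hy using hle2 y hy
      · apply Tendsto.div_atTop tendsto_const_nhds
        apply (tendsto_pow_atTop (by norm_num)).comp
        exact tendsto_atTop_add_const_left _ _ tendsto_abs_atTop_atTop
    have hcont : ContinuousWithinAt (fun y : ℝ => G (pt x y)) (Ici 0) 0 := by
      rw [ContinuousWithinAt, hG0]
      apply squeeze_zero_norm' (a := fun y : ℝ => C * y / (1 + |y|) ^ 4)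
      · filter_upwards [self_mem_nhdsWithin] with y hy using hle y hy
      · have : Tendsto (fun y : ℝ => C * y / (1 + |y|) ^ 4) (𝓝 0)
            (𝓝 (C * 0 / (1 + |(0:ℝ)|) ^ 4)) := by
          apply ContinuousAt.tendsto
          have : (1 + |(0:ℝ)|) ^ 4 ≠ 0 := by simp
          fun_prop (disch := exact this)
        simpa using this.mono_left nhdsWithin_le_nhds
    have h3 : ∀ y ∈ Ioi (0:ℝ), HasDerivAt (fun t : ℝ => G (pt x t)) (GY (pt x y)) y := by
      intro y hy
      exact hG (pt x y) (by simpa [HP] using hy)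
    have := integral_Ioi_of_hasDerivAt_of_tendsto hcont h3 hx h1
    rw [this, hG0]; simp
  rw [integral_congr_ae key]; simp

/-- The `∂̄`-integral vanishes. -/
theorem integral_dbar_eq_zero {G GX GY : ℂ → ℂ} {C : ℝ}
    (hGX : ∀ ξ ∈ HP, HasDerivAt (fun t : ℝ => G (pt t ξ.im)) (GX ξ) ξ.re)
    (hGY : ∀ ξ ∈ HP, HasDerivAt (fun t : ℝ => G (pt ξ.re t)) (GY ξ) ξ.im)
    (hb : ∀ ξ : ℂ, 0 ≤ ξ.im → ‖G ξ‖ ≤ C * ξ.im / (1 + ‖ξ‖) ^ 4)
    (hiX : IntegrableOn GX HP) (hiY : IntegrableOn GY HP) :
    ∫ ξ in HP, (GX ξ + I * GY ξ) = 0 := by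
  rw [integral_add hiX (hiY.const_mul I), integral_const_mul, integral_GX hGX hb hiX,
    integral_GY hGY hb hiY]
  simp

end Crest.Agent.R101
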