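import Crest.Agent.R101.NullInt

/-!
# Null identities for a nonvanishing holomorphic function `z` on the upper half plane

`l = Y z'/z`, `e = Y (z''/z' - 2 z'/z)`.
-/

set_option autoImplicit false

open MeasureTheory Set Filter Complex
open scoped Topology ComplexConjugate

namespace Crest.Agent.R101

/-- The data on the upper half plane. -/
structure ZData (z : ℂ → ℂ) (C : ℝ) : Prop where
  diff : DifferentiableOn ℂ z HP
  ne : ∀ ξ ∈ HP, z ξ ≠ 0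
  dne : ∀ ξ ∈ HP, deriv z ξ ≠ 0
  bd : ∀ ξ ∈ HP, ‖z ξ‖ ≤ C / (1 + ‖ξ‖)
  b1 : ∀ ξ ∈ HP, ‖(ξ.im : ℂ) * (deriv (deriv z) ξ / deriv z ξ) - I‖ ≤ 2
  b2 : ∀ ξ ∈ HP, ‖(ξ.im : ℂ) * (deriv (deriv z) ξ / deriv z ξ - 2 * (deriv z ξ / z ξ)) - I‖ ≤ 2

/-- `l = Y z'/z` -/
noncomputable def lz (z : ℂ → ℂ) (ξ : ℂ) : ℂ := (ξ.im : ℂ) * (deriv z ξ / z ξ)

/-- `e = Y (z''/z' - 2 z'/z)` -/
noncomputable def ez (z : ℂ → ℂ) (ξ : ℂ) : ℂ :=
  (ξ.im : ℂ) * (deriv (deriv z) ξ / deriv z ξ - 2 * (deriv z ξ / z ξ))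

/-- the null density of the monomial `l^a * conj l ^ b * e ^ c`:
`(i/2)(F + l F_l + l̄ F_l̄ + e F_e) + 2 l̄ F + (l̄^2 + l̄ ē) F_l̄` -/
noncomputable def nullD (a b c : ℕ) (l e : ℂ) : ℂ :=
  I / 2 * (1 + a + b + c) * (l ^ a * conj l ^ b * e ^ c)
    + (2 + b) * (l ^ a * conj l ^ (b + 1) * e ^ c)
    + b * (l ^ a * conj l ^ b * e ^ c * conj e)

variable {z : ℂ → ℂ} {C : ℝ}

theorem ZData.lz_le (h : ZData z C) {ξ : ℂ} (hξ : ξ ∈ HP) : ‖lz z ξ‖ ≤ 2 := by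
  have h1 := h.b1 ξ hξ
  have h2 := h.b2 ξ hξ
  have e1 : 2 * lz z ξ = ((ξ.im : ℂ) * (deriv (deriv z) ξ / deriv z ξ) - I)
      - ((ξ.im : ℂ) * (deriv (deriv z) ξ / deriv z ξ - 2 * (deriv z ξ / z ξ)) - I) := by
    rw [lz]; ring
  have e2 : ‖2 * lz z ξ‖ ≤ 2 + 2 := by
    rw [e1]; exact (norm_sub_le _ _).trans (add_le_add h1 h2)
  rw [norm_mul] at e2
  simp only [Complex.norm_ofNat] at e2
  linarith

theorem ZData.ez_sub (h : ZData z C) {ξ : ℂ} (hξ : ξ ∈ HP) : ‖ez z ξ - I‖ ≤ 2 := h.b2 ξ hξ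

theorem ZData.ez_sub' (h : ZData z C) {ξ : ℂ} (hξ : ξ ∈ HP) :
    ‖ez z ξ + 2 * lz z ξ - I‖ ≤ 2 := by
  have h1 := h.b1 ξ hξ
  have e1 : ez z ξ + 2 * lz z ξ - I = (ξ.im : ℂ) * (deriv (deriv z) ξ / deriv z ξ) - I := by
    rw [ez, lz]; ring
  rw [e1]; exact h1

theorem ZData.ez_le (h : ZData z C) {ξ : ℂ} (hξ : ξ ∈ HP) : ‖ez z ξ‖ ≤ 3 := by
  have h1 := h.ez_sub hξ
  calc ‖ez z ξ‖ = ‖(ez z ξ - I) + I‖ := by ring_nf
    _ ≤ ‖ez z ξ - I‖ + ‖I‖ := norm_add_le _ _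
    _ ≤ 2 + 1 := by gcongr; simp
    _ = 3 := by norm_num

theorem ZData.C_nonneg (h : ZData z C) : 0 ≤ C := by
  have h1 := h.bd I (by simp [HP])
  have h2 := (norm_nonneg _).trans h1
  by_contra hcon
  push Not at hcon
  have : C / (1 + ‖I‖) < 0 := div_neg_of_neg_of_pos hcon (by positivity)
  linarith

theorem integrableOn_HP_of_bound {E : Type*} [NormedAddCommGroup E] {f : ℂ → E} {K : ℝ}
    (hf : ContinuousOn f HP)
    (hb : ∀ ξ ∈ HP, ‖f ξ‖ ≤ K / (1 + ‖ξ‖) ^ 4) : IntegrableOn f HP := by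
  have h1 : Integrable (fun ξ : ℂ => K * (1 + ‖ξ‖) ^ (-(4:ℝ))) volume := by
    apply Integrable.const_mul
    apply integrable_one_add_norm
    rw [Complex.finrank_real_complex]; norm_num
  apply Integrable.mono' h1.integrableOn
  · exact hf.aestronglyMeasurable measurableSet_HP
  · filter_upwards [ae_restrict_mem measurableSet_HP] with ξ hξ
    refine (hb ξ hξ).trans (le_of_eq ?_)
    rw [Real.rpow_neg (by positivity), div_eq_mul_inv]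
    congr 2
    exact_mod_cast (Real.rpow_natCast (1 + ‖ξ‖) 4).symm

/-- `q = z''/z' - 2 z'/z` -/
noncomputable def qz (z : ℂ → ℂ) (ξ : ℂ) : ℂ :=
  deriv (deriv z) ξ / deriv z ξ - 2 * (deriv z ξ / z ξ)

/-- holomorphic factor -/
noncomputable def Af (z : ℂ → ℂ) (a c : ℕ) (ξ : ℂ) : ℂ :=
  z ξ ^ 2 * (deriv z ξ / z ξ) ^ a * qz z ξ ^ c

/-- derivative of the holomorphic factor -/
noncomputable def dAf (z : ℂ → ℂ) (a c : ℕ) (ξ : ℂ) : ℂ :=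
  z ξ ^ 2 * (deriv z ξ / z ξ) ^ a *
    ((2 * (deriv z ξ / z ξ) + a * (qz z ξ + deriv z ξ / z ξ)) * qz z ξ ^ c
      + c * qz z ξ ^ (c - 1) * deriv (qz z) ξ)

theorem ZData.analyticAt (h : ZData z C) {ξ : ℂ} (hξ : ξ ∈ HP) : AnalyticAt ℂ z ξ :=
  h.diff.analyticAt (isOpen_HP.mem_nhds hξ)

theorem ZData.hasDerivAt_z (h : ZData z C) {ξ : ℂ} (hξ : ξ ∈ HP) :
    HasDerivAt z (deriv z ξ) ξ := (h.analyticAt hξ).differentiableAt.hasDerivAt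

theorem ZData.hasDerivAt_dz (h : ZData z C) {ξ : ℂ} (hξ : ξ ∈ HP) :
    HasDerivAt (deriv z) (deriv (deriv z) ξ) ξ :=
  (h.analyticAt hξ).deriv.differentiableAt.hasDerivAt

theorem ZData.analyticAt_qz (h : ZData z C) {ξ : ℂ} (hξ : ξ ∈ HP) : AnalyticAt ℂ (qz z) ξ := by
  have h1 := h.analyticAt hξ
  have h2 := h1.deriv
  have h3 := h2.deriv
  exact (h3.div h2 (h.dne ξ hξ)).sub (analyticAt_const.mul (h2.div h1 (h.ne ξ hξ)))

theorem ZData.hasDerivAt_qz (h : ZData z C) {ξ : ℂ} (hξ : ξ ∈ HP) :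
    HasDerivAt (qz z) (deriv (qz z) ξ) ξ := (h.analyticAt_qz hξ).differentiableAt.hasDerivAt

theorem ez_eq (z : ℂ → ℂ) (ξ : ℂ) : ez z ξ = (ξ.im : ℂ) * qz z ξ := rfl

theorem norm_imc {ξ : ℂ} (hξ : ξ ∈ HP) : ‖(ξ.im : ℂ)‖ = ξ.im := by
  rw [Complex.norm_real, Real.norm_eq_abs, abs_of_pos hξ]

theorem ZData.qz_le (h : ZData z C) {ξ : ℂ} (hξ : ξ ∈ HP) : ‖qz z ξ‖ ≤ 3 / ξ.im := by
  have h1 := h.ez_le hξ
  rw [ez_eq, norm_mul, norm_imc hξ] at h1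
  rw [le_div_iff₀ hξ, mul_comm]; exact h1

theorem ZData.dqz_le (h : ZData z C) {ξ : ℂ} (hξ : ξ ∈ HP) :
    ‖(ξ.im : ℂ) * ((ξ.im : ℂ) * deriv (qz z) ξ)‖ ≤ 12 := by
  have hY : 0 < ξ.im := hξ
  have hr : 0 < ξ.im / 2 := by positivity
  have hball : ∀ w ∈ Metric.closedBall ξ (ξ.im / 2), ξ.im / 2 ≤ w.im := by
    intro w hw
    rw [Metric.mem_closedBall, dist_eq_norm] at hw
    have h1 := (Complex.abs_im_le_norm (w - ξ)).trans hw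
    rw [Complex.sub_im] at h1
    have h2 := (abs_le.1 h1).1
    linarith
  have hmem : ∀ w ∈ Metric.closedBall ξ (ξ.im / 2), w ∈ HP := by
    intro w hw
    have := hball w hw
    exact lt_of_lt_of_le hr this
  have hdiff : DiffContOnCl ℂ (qz z) (Metric.ball ξ (ξ.im / 2)) := by
    apply DifferentiableOn.diffContOnCl
    rw [closure_ball _ (ne_of_gt hr)]
    intro w hw
    exact (h.analyticAt_qz (hmem w hw)).differentiableAt.differentiableWithinAt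
  have h1 : ‖deriv (qz z) ξ‖ ≤ (6 / ξ.im) / (ξ.im / 2) := by
    apply Complex.norm_deriv_le_of_forall_mem_sphere_norm_le hr hdiff
    intro w hw
    have hw' := Metric.sphere_subset_closedBall hw
    have h2 := h.qz_le (hmem w hw')
    have h3 := hball w hw'
    refine h2.trans ?_
    rw [div_le_div_iff₀ (lt_of_lt_of_le hr h3) hY]
    linarith
  rw [norm_mul, norm_mul, norm_imc hξ]
  calc ξ.im * (ξ.im * ‖deriv (qz z) ξ‖) ≤ ξ.im * (ξ.im * ((6 / ξ.im) / (ξ.im / 2))) := by gcongr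
    _ = 12 := by field_simp; norm_num

theorem ZData.hasDerivAt_Af (h : ZData z C) (a c : ℕ) {ξ : ℂ} (hξ : ξ ∈ HP) :
    HasDerivAt (Af z a c) (dAf z a c ξ) ξ := by
  have h1 := h.hasDerivAt_z hξ
  have h2 := h.hasDerivAt_dz hξ
  have h5 := h.hasDerivAt_qz hξ
  have hz := h.ne ξ hξ
  have hdz := h.dne ξ hξ
  have h3 := ((h1.pow 2).mul ((h2.div h1 hz).pow a)).mul (h5.pow c)
  refine h3.congr_deriv ?_
  have hq : deriv (deriv z) ξ * z ξ - deriv z ξ * deriv z ξ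
      = deriv z ξ * z ξ * (qz z ξ + deriv z ξ / z ξ) := by
    rw [qz]; field_simp; ring
  simp only [dAf, Pi.div_apply, Pi.pow_apply, Pi.mul_apply, hq]
  generalize deriv (qz z) ξ = dq
  generalize qz z ξ = q
  rcases Nat.eq_zero_or_pos a with rfl | ha
  · simp only [pow_zero, Nat.cast_zero, zero_mul, mul_zero, add_zero, mul_one, Nat.cast_ofNat]
    field_simp
    ring
  · obtain ⟨k, rfl⟩ : ∃ k, a = k + 1 := ⟨a - 1, by omega⟩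
    simp only [Nat.add_sub_cancel, Nat.cast_add, Nat.cast_one, pow_succ (deriv z ξ / z ξ) k,
      Nat.cast_ofNat]
    generalize (deriv z ξ / z ξ) ^ k = Q
    field_simp
    ring

theorem ZData.continuousOn_Af (h : ZData z C) (a c : ℕ) : ContinuousOn (Af z a c) HP :=
  fun _ hξ => (h.hasDerivAt_Af a c hξ).continuousAt.continuousWithinAt

theorem ZData.continuousOn_z (h : ZData z C) : ContinuousOn z HP :=
  fun _ hξ => (h.hasDerivAt_z hξ).continuousAt.continuousWithinAt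

theorem ZData.continuousOn_dz (h : ZData z C) : ContinuousOn (deriv z) HP :=
  fun _ hξ => (h.hasDerivAt_dz hξ).continuousAt.continuousWithinAt

theorem ZData.continuousOn_qz (h : ZData z C) : ContinuousOn (qz z) HP :=
  fun _ hξ => (h.analyticAt_qz hξ).continuousAt.continuousWithinAt

theorem ZData.continuousOn_dqz (h : ZData z C) : ContinuousOn (deriv (qz z)) HP :=
  fun _ hξ => (h.analyticAt_qz hξ).deriv.continuousAt.continuousWithinAt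

theorem ZData.continuousOn_q (h : ZData z C) :
    ContinuousOn (fun ξ => deriv z ξ / z ξ) HP :=
  h.continuousOn_dz.div h.continuousOn_z h.ne

theorem continuousOn_imc : ContinuousOn (fun ξ : ℂ => (ξ.im : ℂ)) HP := by fun_prop

theorem ZData.continuousOn_lz (h : ZData z C) : ContinuousOn (lz z) HP :=
  continuousOn_imc.mul h.continuousOn_q

theorem ZData.continuousOn_ez (h : ZData z C) : ContinuousOn (ez z) HP :=
  continuousOn_imc.mul h.continuousOn_qz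

theorem ZData.continuousOn_dAf (h : ZData z C) (a c : ℕ) : ContinuousOn (dAf z a c) HP :=
  ((h.continuousOn_z.pow 2).mul (h.continuousOn_q.pow a)).mul
    ((((continuousOn_const.mul h.continuousOn_q).add
      (continuousOn_const.mul (h.continuousOn_qz.add h.continuousOn_q))).mul
        (h.continuousOn_qz.pow c)).add
      ((continuousOn_const.mul (h.continuousOn_qz.pow _)).mul h.continuousOn_dqz))

/-- derivative along horizontal lines -/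
theorem hasDerivAt_horiz {f : ℂ → ℂ} {f' ξ : ℂ} (hf : HasDerivAt f f' ξ) :
    HasDerivAt (fun t : ℝ => f (pt t ξ.im)) f' ξ.re := by
  have h1 : HasDerivAt (fun t : ℝ => pt t ξ.im) 1 ξ.re := by
    have : (fun t : ℝ => pt t ξ.im) = fun t : ℝ => (t : ℂ) + ξ.im * I := by
      funext t; rw [pt_eq]
    rw [this]
    exact (Complex.ofRealCLM.hasDerivAt (x := ξ.re)).add_const _
  have h2 : pt ξ.re ξ.im = ξ := by apply Complex.ext <;> simp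
  have := HasDerivAt.comp_of_eq (h₂ := f) (h := fun t : ℝ => pt t ξ.im) ξ.re hf h1 h2
  rw [mul_one] at this
  exact this

/-- derivative along vertical lines -/
theorem hasDerivAt_vert {f : ℂ → ℂ} {f' ξ : ℂ} (hf : HasDerivAt f f' ξ) :
    HasDerivAt (fun t : ℝ => f (pt ξ.re t)) (I * f') ξ.im := by
  have h1 : HasDerivAt (fun t : ℝ => pt ξ.re t) I ξ.im := by
    have : (fun t : ℝ => pt ξ.re t) = fun t : ℝ => (ξ.re : ℂ) + (t : ℂ) * I := by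
      funext t; rw [pt_eq]
    rw [this]
    have h0 := (Complex.ofRealCLM.hasDerivAt (x := ξ.im)).mul_const I
    simpa using h0.const_add (ξ.re : ℂ)
  have h2 : pt ξ.re ξ.im = ξ := by apply Complex.ext <;> simp
  have := HasDerivAt.comp_of_eq (h₂ := f) (h := fun t : ℝ => pt ξ.re t) ξ.im hf h1 h2
  rw [mul_comm] at this
  exact this

theorem hasDerivAt_conj_real {f : ℝ → ℂ} {f' : ℂ} {t : ℝ} (hf : HasDerivAt f f' t) :
    HasDerivAt (fun s => conj (f s)) (conj f') t := by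
  have := (Complex.conjCLE.toContinuousLinearMap.hasFDerivAt (x := f t)).comp_hasDerivAt t hf
  exact this

/-- the primitive -/
noncomputable def Gf (z : ℂ → ℂ) (a b c : ℕ) (ξ : ℂ) : ℂ :=
  (ξ.im : ℂ) ^ (1 + a + b + c) * Af z a c ξ * conj (Af z b 0 ξ)

noncomputable def GfX (z : ℂ → ℂ) (a b c : ℕ) (ξ : ℂ) : ℂ :=
  (ξ.im : ℂ) ^ (1 + a + b + c) *
    (dAf z a c ξ * conj (Af z b 0 ξ) + Af z a c ξ * conj (dAf z b 0 ξ))

noncomputable def GfY (z : ℂ → ℂ) (a b c : ℕ) (ξ : ℂ) : ℂ :=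
  (1 + a + b + c) * (ξ.im : ℂ) ^ (a + b + c) * Af z a c ξ * conj (Af z b 0 ξ)
  + (ξ.im : ℂ) ^ (1 + a + b + c) *
    (I * dAf z a c ξ * conj (Af z b 0 ξ) - I * Af z a c ξ * conj (dAf z b 0 ξ))

theorem ZData.hasDerivAt_GfX (h : ZData z C) (a b c : ℕ) {ξ : ℂ} (hξ : ξ ∈ HP) :
    HasDerivAt (fun t : ℝ => Gf z a b c (pt t ξ.im)) (GfX z a b c ξ) ξ.re := by
  have h1 := hasDerivAt_horiz (h.hasDerivAt_Af a c hξ)
  have h2 := hasDerivAt_conj_real (hasDerivAt_horiz (h.hasDerivAt_Af b 0 hξ))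
  have h3 := (h1.mul h2).const_mul ((ξ.im : ℂ) ^ (1 + a + b + c))
  have e : (fun t : ℝ => Gf z a b c (pt t ξ.im)) = fun t : ℝ => (ξ.im : ℂ) ^ (1 + a + b + c) *
      (((fun t : ℝ => Af z a c (pt t ξ.im)) * fun s : ℝ => conj (Af z b 0 (pt s ξ.im))) t) := by
    funext t; simp only [Gf, pt_im, Pi.mul_apply]; ring
  rw [e]
  refine h3.congr_deriv ?_
  have h4 : pt ξ.re ξ.im = ξ := by apply Complex.ext <;> simp
  simp only [GfX, h4]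

theorem ZData.hasDerivAt_GfY (h : ZData z C) (a b c : ℕ) {ξ : ℂ} (hξ : ξ ∈ HP) :
    HasDerivAt (fun t : ℝ => Gf z a b c (pt ξ.re t)) (GfY z a b c ξ) ξ.im := by
  have h1 := hasDerivAt_vert (h.hasDerivAt_Af a c hξ)
  have h2 := hasDerivAt_conj_real (hasDerivAt_vert (h.hasDerivAt_Af b 0 hξ))
  have h0 : HasDerivAt (fun t : ℝ => ((t : ℂ)) ^ (1 + a + b + c))
      ((1 + a + b + c) * (ξ.im : ℂ) ^ (a + b + c)) ξ.im := by
    have h00 := (Complex.ofRealCLM.hasDerivAt (x := ξ.im)).pow (1 + a + b + c)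
    have e1 : 1 + a + b + c - 1 = a + b + c := by omega
    refine h00.congr_deriv ?_
    simp [e1]
  have h3 := h0.mul (h1.mul h2)
  have e : (fun t : ℝ => Gf z a b c (pt ξ.re t)) = (fun t : ℝ => (t : ℂ) ^ (1 + a + b + c)) *
      ((fun t : ℝ => Af z a c (pt ξ.re t)) * fun s : ℝ => conj (Af z b 0 (pt ξ.re s))) := by
    funext t; simp only [Gf, pt_im, Pi.mul_apply]; ring
  rw [e]
  refine h3.congr_deriv ?_
  have h4 : pt ξ.re ξ.im = ξ := by apply Complex.ext <;> simp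
  simp only [GfY, h4, Pi.mul_apply, map_mul, Complex.conj_I]
  ring

theorem continuousOn_conj_comp {f : ℂ → ℂ} (hf : ContinuousOn f HP) :
    ContinuousOn (fun ξ => conj (f ξ)) HP := Complex.continuous_conj.comp_continuousOn hf

theorem ZData.continuousOn_GfX (h : ZData z C) (a b c : ℕ) : ContinuousOn (GfX z a b c) HP := by
  have h1 := h.continuousOn_Af a c
  have h2' := continuousOn_conj_comp (h.continuousOn_Af b 0)
  have h3 := h.continuousOn_dAf a c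
  have h4' := continuousOn_conj_comp (h.continuousOn_dAf b 0)
  exact (continuousOn_imc.pow _).mul ((h3.mul h2').add (h1.mul h4'))

theorem ZData.continuousOn_GfY (h : ZData z C) (a b c : ℕ) : ContinuousOn (GfY z a b c) HP := by
  have h1 := h.continuousOn_Af a c
  have h2' := continuousOn_conj_comp (h.continuousOn_Af b 0)
  have h3 := h.continuousOn_dAf a c
  have h4' := continuousOn_conj_comp (h.continuousOn_dAf b 0)
  exact (((continuousOn_const.mul (continuousOn_imc.pow _)).mul h1).mul h2').add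
    ((continuousOn_imc.pow _).mul (((continuousOn_const.mul h3).mul h2').sub
      ((continuousOn_const.mul h1).mul h4')))

/-- `Y^(a+c) Af = z^2 l^a e^c` -/
theorem pow_mul_Af (z : ℂ → ℂ) (a c : ℕ) (ξ : ℂ) :
    (ξ.im : ℂ) ^ (a + c) * Af z a c ξ = z ξ ^ 2 * lz z ξ ^ a * ez z ξ ^ c := by
  rw [Af, lz, ez_eq, mul_pow, mul_pow]; ring

theorem pow_mul_Af0 (z : ℂ → ℂ) (b : ℕ) (ξ : ℂ) :
    (ξ.im : ℂ) ^ b * Af z b 0 ξ = z ξ ^ 2 * lz z ξ ^ b := by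
  simpa using pow_mul_Af z b 0 ξ

/-- `Y^(b+1) * dAf_b = z^2 l^b ((2+b) l + b e)` -/
theorem im_mul_dAf0 (z : ℂ → ℂ) (b : ℕ) (ξ : ℂ) :
    (ξ.im : ℂ) ^ (b + 1) * dAf z b 0 ξ =
      z ξ ^ 2 * lz z ξ ^ b * ((2 + b) * lz z ξ + b * ez z ξ) := by
  rw [dAf, lz, ez_eq, mul_pow]
  simp only [pow_zero, Nat.cast_zero, zero_mul, mul_one, add_zero]
  ring

theorem im_mul_dAf (z : ℂ → ℂ) (a c : ℕ) (ξ : ℂ) :
    (ξ.im : ℂ) ^ (a + c + 1) * dAf z a c ξ =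
      z ξ ^ 2 * lz z ξ ^ a * (((2 + a) * lz z ξ + a * ez z ξ) * ez z ξ ^ c
        + c * ez z ξ ^ (c - 1) * ((ξ.im : ℂ) * ((ξ.im : ℂ) * deriv (qz z) ξ))) := by
  rcases Nat.eq_zero_or_pos c with rfl | hc
  · simp only [add_zero, pow_zero, mul_one, Nat.cast_zero, zero_mul]
    exact im_mul_dAf0 z a ξ
  · obtain ⟨k, rfl⟩ : ∃ k, c = k + 1 := ⟨c - 1, by omega⟩
    rw [dAf, lz, ez_eq]
    simp only [Nat.add_sub_cancel, mul_pow]
    ring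

theorem ZData.norm_Af (h : ZData z C) (a c : ℕ) {ξ : ℂ} (hξ : ξ ∈ HP) :
    ‖(ξ.im : ℂ) ^ (a + c) * Af z a c ξ‖ ≤ 2 ^ a * 3 ^ c * ‖z ξ‖ ^ 2 := by
  rw [pow_mul_Af, norm_mul, norm_mul, norm_pow, norm_pow, norm_pow]
  have h1 := h.lz_le hξ
  have h2 := h.ez_le hξ
  calc ‖z ξ‖ ^ 2 * ‖lz z ξ‖ ^ a * ‖ez z ξ‖ ^ c ≤ ‖z ξ‖ ^ 2 * 2 ^ a * 3 ^ c := by gcongr
    _ = _ := by ring

theorem ZData.norm_Af0 (h : ZData z C) (b : ℕ) {ξ : ℂ} (hξ : ξ ∈ HP) :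
    ‖(ξ.im : ℂ) ^ b * Af z b 0 ξ‖ ≤ 2 ^ b * ‖z ξ‖ ^ 2 := by
  simpa using h.norm_Af b 0 hξ

/-- an explicit bound for the derivative factor -/
noncomputable def Kd (a c : ℕ) : ℝ := 2 ^ a * ((4 + 5 * a) * 3 ^ c + c * 3 ^ (c - 1) * 12)

theorem Kd_nonneg (a c : ℕ) : 0 ≤ Kd a c := by unfold Kd; positivity

theorem ZData.norm_dAf (h : ZData z C) (a c : ℕ) {ξ : ℂ} (hξ : ξ ∈ HP) :
    ‖(ξ.im : ℂ) ^ (a + c + 1) * dAf z a c ξ‖ ≤ Kd a c * ‖z ξ‖ ^ 2 := by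
  rw [im_mul_dAf, norm_mul, norm_mul, norm_pow, norm_pow]
  have h2 := h.lz_le hξ
  have h3 := h.ez_le hξ
  have h6 := h.dqz_le hξ
  have h4 : ‖(2 + (a:ℂ)) * lz z ξ + a * ez z ξ‖ ≤ 4 + 5 * a := by
    calc ‖(2 + (a:ℂ)) * lz z ξ + a * ez z ξ‖ ≤ ‖(2 + (a:ℂ)) * lz z ξ‖ + ‖a * ez z ξ‖ :=
          norm_add_le _ _
      _ ≤ (2 + a) * 2 + a * 3 := by
          rw [norm_mul, norm_mul]
          have : ‖(2 + (a:ℂ))‖ ≤ 2 + a := by
            refine (norm_add_le _ _).trans ?_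
            simp
          have h5 : ‖(a:ℂ)‖ = a := by simp
          rw [h5]
          gcongr
      _ = 4 + 5 * a := by ring
  have h7 : ‖((2 + a) * lz z ξ + a * ez z ξ) * ez z ξ ^ c
        + c * ez z ξ ^ (c - 1) * ((ξ.im : ℂ) * ((ξ.im : ℂ) * deriv (qz z) ξ))‖
      ≤ (4 + 5 * a) * 3 ^ c + c * 3 ^ (c - 1) * 12 := by
    refine (norm_add_le _ _).trans ?_
    rw [norm_mul, norm_pow, norm_mul, norm_mul, norm_pow]
    have h5 : ‖(c:ℂ)‖ = c := by simp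
    rw [h5]
    gcongr
  calc ‖z ξ‖ ^ 2 * ‖lz z ξ‖ ^ a * ‖((2 + a) * lz z ξ + a * ez z ξ) * ez z ξ ^ c
        + c * ez z ξ ^ (c - 1) * ((ξ.im : ℂ) * ((ξ.im : ℂ) * deriv (qz z) ξ))‖
      ≤ ‖z ξ‖ ^ 2 * 2 ^ a * ((4 + 5 * a) * 3 ^ c + c * 3 ^ (c - 1) * 12) := by gcongr
    _ = _ := by unfold Kd; ring

theorem ZData.norm_dAf0 (h : ZData z C) (b : ℕ) {ξ : ℂ} (hξ : ξ ∈ HP) :
    ‖(ξ.im : ℂ) ^ (b + 1) * dAf z b 0 ξ‖ ≤ Kd b 0 * ‖z ξ‖ ^ 2 := by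
  simpa using h.norm_dAf b 0 hξ

theorem ZData.z4_le (h : ZData z C) {ξ : ℂ} (hξ : ξ ∈ HP) :
    ‖z ξ‖ ^ 2 * ‖z ξ‖ ^ 2 ≤ C ^ 4 / (1 + ‖ξ‖) ^ 4 := by
  have h1 := h.bd ξ hξ
  calc ‖z ξ‖ ^ 2 * ‖z ξ‖ ^ 2 = ‖z ξ‖ ^ 4 := by ring
    _ ≤ (C / (1 + ‖ξ‖)) ^ 4 := by gcongr
    _ = _ := by rw [div_pow]

theorem ZData.norm_Gf (h : ZData z C) (a b c : ℕ) {ξ : ℂ} (hξ : 0 ≤ ξ.im) :
    ‖Gf z a b c ξ‖ ≤ (2 ^ a * 3 ^ c * 2 ^ b * C ^ 4) * ξ.im / (1 + ‖ξ‖) ^ 4 := by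
  rcases hξ.eq_or_lt with h0 | hpos
  · have : Gf z a b c ξ = 0 := by
      rw [Gf, ← h0]
      simp
    rw [this, ← h0]; simp
  · have hmem : ξ ∈ HP := hpos
    have e : Gf z a b c ξ = (ξ.im : ℂ) * ((ξ.im : ℂ) ^ (a + c) * Af z a c ξ) *
        conj ((ξ.im : ℂ) ^ b * Af z b 0 ξ) := by
      rw [Gf, map_mul, map_pow, Complex.conj_ofReal]; ring
    rw [e, norm_mul, norm_mul, norm_imc hmem, RCLike.norm_conj]
    have h1 := h.norm_Af a c hmem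
    have h2 := h.norm_Af0 b hmem
    have h3 := h.z4_le hmem
    calc ξ.im * ‖(ξ.im : ℂ) ^ (a + c) * Af z a c ξ‖ * ‖(ξ.im : ℂ) ^ b * Af z b 0 ξ‖
        ≤ ξ.im * (2 ^ a * 3 ^ c * ‖z ξ‖ ^ 2) * (2 ^ b * ‖z ξ‖ ^ 2) := by gcongr
      _ = 2 ^ a * 3 ^ c * 2 ^ b * ξ.im * (‖z ξ‖ ^ 2 * ‖z ξ‖ ^ 2) := by ring
      _ ≤ 2 ^ a * 3 ^ c * 2 ^ b * ξ.im * (C ^ 4 / (1 + ‖ξ‖) ^ 4) := by gcongr
      _ = _ := by ring

theorem ZData.norm_part (h : ZData z C) (a b c : ℕ) {ξ : ℂ} (hξ : ξ ∈ HP) :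
    ‖(ξ.im : ℂ) ^ (1 + a + b + c) * (dAf z a c ξ * conj (Af z b 0 ξ))‖
      ≤ (Kd a c * 2 ^ b * C ^ 4) / (1 + ‖ξ‖) ^ 4 := by
  have e : (ξ.im : ℂ) ^ (1 + a + b + c) * (dAf z a c ξ * conj (Af z b 0 ξ))
      = ((ξ.im : ℂ) ^ (a + c + 1) * dAf z a c ξ) * conj ((ξ.im : ℂ) ^ b * Af z b 0 ξ) := by
    rw [map_mul, map_pow, Complex.conj_ofReal]; ring
  rw [e, norm_mul, RCLike.norm_conj]
  have h1 := h.norm_dAf a c hξ
  have h2 := h.norm_Af0 b hξ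
  have h3 := h.z4_le hξ
  have h4 := Kd_nonneg a c
  calc ‖(ξ.im : ℂ) ^ (a + c + 1) * dAf z a c ξ‖ * ‖(ξ.im : ℂ) ^ b * Af z b 0 ξ‖
      ≤ (Kd a c * ‖z ξ‖ ^ 2) * (2 ^ b * ‖z ξ‖ ^ 2) := by gcongr
    _ = Kd a c * 2 ^ b * (‖z ξ‖ ^ 2 * ‖z ξ‖ ^ 2) := by ring
    _ ≤ Kd a c * 2 ^ b * (C ^ 4 / (1 + ‖ξ‖) ^ 4) := by gcongr
    _ = _ := by ring

theorem ZData.norm_part' (h : ZData z C) (a b c : ℕ) {ξ : ℂ} (hξ : ξ ∈ HP) :
    ‖(ξ.im : ℂ) ^ (1 + a + b + c) * (Af z a c ξ * conj (dAf z b 0 ξ))‖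
      ≤ (2 ^ a * 3 ^ c * Kd b 0 * C ^ 4) / (1 + ‖ξ‖) ^ 4 := by
  have e : (ξ.im : ℂ) ^ (1 + a + b + c) * (Af z a c ξ * conj (dAf z b 0 ξ))
      = ((ξ.im : ℂ) ^ (a + c) * Af z a c ξ) * conj ((ξ.im : ℂ) ^ (b + 1) * dAf z b 0 ξ) := by
    rw [map_mul, map_pow, Complex.conj_ofReal]; ring
  rw [e, norm_mul, RCLike.norm_conj]
  have h1 := h.norm_Af a c hξ
  have h2 := h.norm_dAf0 b hξ
  have h3 := h.z4_le hξ
  have h4 := Kd_nonneg b 0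
  calc ‖(ξ.im : ℂ) ^ (a + c) * Af z a c ξ‖ * ‖(ξ.im : ℂ) ^ (b + 1) * dAf z b 0 ξ‖
      ≤ (2 ^ a * 3 ^ c * ‖z ξ‖ ^ 2) * (Kd b 0 * ‖z ξ‖ ^ 2) := by gcongr
    _ = 2 ^ a * 3 ^ c * Kd b 0 * (‖z ξ‖ ^ 2 * ‖z ξ‖ ^ 2) := by ring
    _ ≤ 2 ^ a * 3 ^ c * Kd b 0 * (C ^ 4 / (1 + ‖ξ‖) ^ 4) := by gcongr
    _ = _ := by ring

theorem ZData.norm_part0 (h : ZData z C) (a b c : ℕ) {ξ : ℂ} (hξ : ξ ∈ HP) :
    ‖(1 + a + b + c) * (ξ.im : ℂ) ^ (a + b + c) * Af z a c ξ * conj (Af z b 0 ξ)‖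
      ≤ ((1 + a + b + c) * (2 ^ a * 3 ^ c * 2 ^ b) * C ^ 4) / (1 + ‖ξ‖) ^ 4 := by
  have e : (1 + a + b + c) * (ξ.im : ℂ) ^ (a + b + c) * Af z a c ξ * conj (Af z b 0 ξ)
      = (1 + a + b + c) * (((ξ.im : ℂ) ^ (a + c) * Af z a c ξ) *
        conj ((ξ.im : ℂ) ^ b * Af z b 0 ξ)) := by
    rw [map_mul, map_pow, Complex.conj_ofReal]; ring
  have e2 : ‖(1 + a + b + c : ℂ)‖ = 1 + a + b + c := by
    have : (1 + a + b + c : ℂ) = ((1 + a + b + c : ℕ) : ℂ) := by push_cast; ring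
    rw [this, Complex.norm_natCast]; push_cast; ring
  rw [e, norm_mul, norm_mul, RCLike.norm_conj, e2]
  have h1 := h.norm_Af a c hξ
  have h2 := h.norm_Af0 b hξ
  have h3 := h.z4_le hξ
  calc (1 + a + b + c) * (‖(ξ.im : ℂ) ^ (a + c) * Af z a c ξ‖ * ‖(ξ.im : ℂ) ^ b * Af z b 0 ξ‖)
      ≤ (1 + a + b + c) * ((2 ^ a * 3 ^ c * ‖z ξ‖ ^ 2) * (2 ^ b * ‖z ξ‖ ^ 2)) := by gcongr
    _ = (1 + a + b + c) * (2 ^ a * 3 ^ c * 2 ^ b) * (‖z ξ‖ ^ 2 * ‖z ξ‖ ^ 2) := by ring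
    _ ≤ (1 + a + b + c) * (2 ^ a * 3 ^ c * 2 ^ b) * (C ^ 4 / (1 + ‖ξ‖) ^ 4) := by gcongr
    _ = _ := by ring

theorem ZData.integrableOn_GfX (h : ZData z C) (a b c : ℕ) : IntegrableOn (GfX z a b c) HP := by
  apply integrableOn_HP_of_bound (h.continuousOn_GfX a b c)
    (K := Kd a c * 2 ^ b * C ^ 4 + 2 ^ a * 3 ^ c * Kd b 0 * C ^ 4)
  intro ξ hξ
  rw [GfX, mul_add, add_div]
  exact (norm_add_le _ _).trans (add_le_add (h.norm_part a b c hξ) (h.norm_part' a b c hξ))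

theorem ZData.integrableOn_GfY (h : ZData z C) (a b c : ℕ) : IntegrableOn (GfY z a b c) HP := by
  apply integrableOn_HP_of_bound (h.continuousOn_GfY a b c)
    (K := (1 + a + b + c) * (2 ^ a * 3 ^ c * 2 ^ b) * C ^ 4 +
      (Kd a c * 2 ^ b * C ^ 4 + 2 ^ a * 3 ^ c * Kd b 0 * C ^ 4))
  intro ξ hξ
  rw [GfY, add_div, add_div]
  refine (norm_add_le _ _).trans (add_le_add (h.norm_part0 a b c hξ) ?_)
  have e : (ξ.im : ℂ) ^ (1 + a + b + c) *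
      (I * dAf z a c ξ * conj (Af z b 0 ξ) - I * Af z a c ξ * conj (dAf z b 0 ξ))
      = I * ((ξ.im : ℂ) ^ (1 + a + b + c) * (dAf z a c ξ * conj (Af z b 0 ξ)))
        - I * ((ξ.im : ℂ) ^ (1 + a + b + c) * (Af z a c ξ * conj (dAf z b 0 ξ))) := by ring
  rw [e]
  refine (norm_sub_le _ _).trans ?_
  have e3 : ∀ x : ℂ, ‖I * x‖ = ‖x‖ := fun x => by rw [norm_mul, Complex.norm_I, one_mul]
  rw [e3, e3]
  exact add_le_add (h.norm_part a b c hξ) (h.norm_part' a b c hξ)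

theorem nullD_eq (z : ℂ → ℂ) (a b c : ℕ) (ξ : ℂ) :
    GfX z a b c ξ + I * GfY z a b c ξ
      = 2 * (((‖z ξ‖ ^ 4 : ℝ) : ℂ) * nullD a b c (lz z ξ) (ez z ξ)) := by
  have hz4 : ((‖z ξ‖ ^ 4 : ℝ) : ℂ) = z ξ ^ 2 * conj (z ξ ^ 2) := by
    rw [Complex.mul_conj, Complex.normSq_eq_norm_sq, norm_pow]
    push_cast; ring
  have h1 : GfX z a b c ξ + I * GfY z a b c ξ
      = 2 * ((ξ.im : ℂ) ^ (1 + a + b + c) * (Af z a c ξ * conj (dAf z b 0 ξ)))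
        + I * ((1 + a + b + c) * (ξ.im : ℂ) ^ (a + b + c) * Af z a c ξ * conj (Af z b 0 ξ)) := by
    rw [GfX, GfY]
    linear_combination ((ξ.im : ℂ) ^ (1 + a + b + c) * dAf z a c ξ * conj (Af z b 0 ξ)
      - (ξ.im : ℂ) ^ (1 + a + b + c) * Af z a c ξ * conj (dAf z b 0 ξ)) * Complex.I_mul_I
  have h2 : (ξ.im : ℂ) ^ (1 + a + b + c) * (Af z a c ξ * conj (dAf z b 0 ξ))
      = (z ξ ^ 2 * lz z ξ ^ a * ez z ξ ^ c) *
        conj (z ξ ^ 2 * lz z ξ ^ b * ((2 + b) * lz z ξ + b * ez z ξ)) := by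
    rw [← pow_mul_Af, ← im_mul_dAf0]
    simp only [map_mul, map_pow, Complex.conj_ofReal]; ring
  have h3 : (ξ.im : ℂ) ^ (a + b + c) * Af z a c ξ * conj (Af z b 0 ξ)
      = (z ξ ^ 2 * lz z ξ ^ a * ez z ξ ^ c) * conj (z ξ ^ 2 * lz z ξ ^ b) := by
    rw [← pow_mul_Af, ← pow_mul_Af0]
    simp only [map_mul, map_pow, Complex.conj_ofReal]; ring
  rw [h1, h2]
  have h4 : I * ((1 + a + b + c) * (ξ.im : ℂ) ^ (a + b + c) * Af z a c ξ * conj (Af z b 0 ξ))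
      = I * (1 + a + b + c) *
        ((z ξ ^ 2 * lz z ξ ^ a * ez z ξ ^ c) * conj (z ξ ^ 2 * lz z ξ ^ b)) := by
    rw [← h3]; ring
  rw [h4, hz4, nullD]
  simp only [map_mul, map_pow, map_add, Complex.conj_natCast, Complex.conj_ofNat]
  ring

theorem ZData.integral_nullD (h : ZData z C) (a b c : ℕ) :
    ∫ ξ in HP, ((‖z ξ‖ ^ 4 : ℝ) : ℂ) * nullD a b c (lz z ξ) (ez z ξ) = 0 := by
  have h1 := integral_dbar_eq_zero (fun ξ hξ => h.hasDerivAt_GfX a b c hξ)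
    (fun ξ hξ => h.hasDerivAt_GfY a b c hξ) (fun ξ hξ => h.norm_Gf a b c hξ)
    (h.integrableOn_GfX a b c) (h.integrableOn_GfY a b c)
  have h2 : ∫ ξ in HP, (GfX z a b c ξ + I * GfY z a b c ξ)
      = ∫ ξ in HP, 2 * (((‖z ξ‖ ^ 4 : ℝ) : ℂ) * nullD a b c (lz z ξ) (ez z ξ)) := by
    apply setIntegral_congr_fun measurableSet_HP
    intro ξ hξ
    exact nullD_eq z a b c ξ
  rw [h1, integral_const_mul] at h2
  have h3 : (2:ℂ) ≠ 0 := two_ne_zero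
  exact (mul_eq_zero.1 h2.symm).resolve_left h3

theorem ZData.integrable_nullD (h : ZData z C) (a b c : ℕ) :
    IntegrableOn (fun ξ => ((‖z ξ‖ ^ 4 : ℝ) : ℂ) * nullD a b c (lz z ξ) (ez z ξ)) HP := by
  have h1 : IntegrableOn (fun ξ => (1/2 : ℂ) * (GfX z a b c ξ + I * GfY z a b c ξ)) HP :=
    ((h.integrableOn_GfX a b c).add ((h.integrableOn_GfY a b c).const_mul I)).const_mul _
  refine h1.congr_fun ?_ measurableSet_HP
  intro ξ hξ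
  have h2 := nullD_eq z a b c ξ
  simp only
  rw [h2]; ring

/-- the null density of a polynomial `F = ∑ cf (a,b,c) l^a l̄^b e^c` -/
noncomputable def nullP (s : Finset (ℕ × ℕ × ℕ)) (cf : ℕ × ℕ × ℕ → ℂ) (l e : ℂ) : ℂ :=
  ∑ p ∈ s, cf p * nullD p.1 p.2.1 p.2.2 l e

/-- the real part of a finite linear combination of null densities -/
theorem ZData.integral_null_sum (h : ZData z C) (s : Finset (ℕ × ℕ × ℕ))
    (cf : ℕ × ℕ × ℕ → ℂ) :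
    IntegrableOn (fun ξ => ‖z ξ‖ ^ 4 * (nullP s cf (lz z ξ) (ez z ξ)).re) HP ∧
    ∫ ξ in HP, ‖z ξ‖ ^ 4 * (nullP s cf (lz z ξ) (ez z ξ)).re = 0 := by
  have hI : IntegrableOn (fun ξ => ∑ p ∈ s, cf p * (((‖z ξ‖ ^ 4 : ℝ) : ℂ) *
      nullD p.1 p.2.1 p.2.2 (lz z ξ) (ez z ξ))) HP := by
    apply integrable_finsetSum
    intro p _
    exact (h.integrable_nullD p.1 p.2.1 p.2.2).const_mul _
  have hval : ∫ ξ in HP, ∑ p ∈ s, cf p * (((‖z ξ‖ ^ 4 : ℝ) : ℂ) *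
      nullD p.1 p.2.1 p.2.2 (lz z ξ) (ez z ξ)) = 0 := by
    rw [integral_finsetSum]
    · apply Finset.sum_eq_zero
      intro p _
      rw [integral_const_mul, h.integral_nullD p.1 p.2.1 p.2.2, mul_zero]
    · intro p _
      exact (h.integrable_nullD p.1 p.2.1 p.2.2).const_mul _
  have e : ∀ ξ, ‖z ξ‖ ^ 4 * (nullP s cf (lz z ξ) (ez z ξ)).re
      = RCLike.re (∑ p ∈ s, cf p * (((‖z ξ‖ ^ 4 : ℝ) : ℂ) *
      nullD p.1 p.2.1 p.2.2 (lz z ξ) (ez z ξ))) := by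
    intro ξ
    have : ∑ p ∈ s, cf p * (((‖z ξ‖ ^ 4 : ℝ) : ℂ) * nullD p.1 p.2.1 p.2.2 (lz z ξ) (ez z ξ))
        = ((‖z ξ‖ ^ 4 : ℝ) : ℂ) * nullP s cf (lz z ξ) (ez z ξ) := by
      rw [nullP, Finset.mul_sum]; apply Finset.sum_congr rfl; intro p _; ring
    rw [this]
    simp only [RCLike.re_eq_complex_re]
    rw [Complex.re_ofReal_mul]
  simp_rw [e]
  refine ⟨hI.re, ?_⟩
  rw [integral_re hI, hval]; simp

/-- the density of `N0` -/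
noncomputable def nDens (l : ℂ) : ℝ :=
  l.im ^ 2 - l.re ^ 2 - 2 * (l.re ^ 2 + l.im ^ 2) * l.im + (l.re ^ 2 + l.im ^ 2) ^ 2 / 2

theorem ZData.integrable_nDens (h : ZData z C) :
    IntegrableOn (fun ξ => ‖z ξ‖ ^ 4 * nDens (lz z ξ)) HP := by
  have hc : Continuous nDens := by unfold nDens; fun_prop
  apply integrableOn_HP_of_bound (K := C ^ 4 * 28)
  · exact (h.continuousOn_z.norm.pow 4).mul (hc.comp_continuousOn h.continuousOn_lz)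
  · intro ξ hξ
    have h1 := h.z4_le hξ
    have h2 := h.lz_le hξ
    have h3 : (lz z ξ).re ^ 2 + (lz z ξ).im ^ 2 ≤ 4 := by
      have := Complex.sq_norm (lz z ξ)
      rw [Complex.normSq_apply] at this
      nlinarith [norm_nonneg (lz z ξ)]
    have h4 : |nDens (lz z ξ)| ≤ 28 := by
      unfold nDens
      set x := (lz z ξ).re
      set y := (lz z ξ).im
      have hy : y ^ 2 ≤ 4 := by nlinarith [sq_nonneg x]
      have hy1 : |y| ≤ 2 := abs_le_of_sq_le_sq (by nlinarith) (by norm_num)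
      have hy2 := abs_le.1 hy1
      have hx : 0 ≤ x ^ 2 := sq_nonneg x
      have hy0 : 0 ≤ y ^ 2 := sq_nonneg y
      have hp : 0 ≤ x ^ 2 + y ^ 2 := by positivity
      have h5 : (x ^ 2 + y ^ 2) * y ≤ 8 := by nlinarith
      have h6 : -8 ≤ (x ^ 2 + y ^ 2) * y := by nlinarith
      have h7 : (x ^ 2 + y ^ 2) ^ 2 ≤ 16 := by nlinarith
      have h8 : 0 ≤ (x ^ 2 + y ^ 2) ^ 2 := by positivity
      rw [abs_le]
      constructor <;> nlinarith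
    rw [norm_mul, norm_pow, norm_norm, Real.norm_eq_abs]
    have h5 : ‖z ξ‖ ^ 4 ≤ C ^ 4 / (1 + ‖ξ‖) ^ 4 := by
      calc ‖z ξ‖ ^ 4 = ‖z ξ‖ ^ 2 * ‖z ξ‖ ^ 2 := by ring
        _ ≤ _ := h1
    calc ‖z ξ‖ ^ 4 * |nDens (lz z ξ)| ≤ C ^ 4 / (1 + ‖ξ‖) ^ 4 * 28 := by
          gcongr
      _ = _ := by ring

/-- If the polynomial certificate holds pointwise, then `∫ |z|^4 n(l) < 0`. -/
theorem ZData.N0_neg (h : ZData z C) (s : Finset (ℕ × ℕ × ℕ)) (cf : ℕ × ℕ × ℕ → ℂ)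
    (hcert : ∀ l e : ℂ, ‖e - I‖ ≤ 2 → ‖e + 2 * l - I‖ ≤ 2 →
      nDens l + (nullP s cf l e).re < 0) :
    ∫ ξ in HP, ‖z ξ‖ ^ 4 * nDens (lz z ξ) < 0 := by
  obtain ⟨h1, h2⟩ := h.integral_null_sum s cf
  have h3 := h.integrable_nDens
  have h4 : ∫ ξ in HP, ‖z ξ‖ ^ 4 * nDens (lz z ξ)
      = ∫ ξ in HP, ‖z ξ‖ ^ 4 * (nDens (lz z ξ) + (nullP s cf (lz z ξ) (ez z ξ)).re) := by
    have : (fun ξ => ‖z ξ‖ ^ 4 * (nDens (lz z ξ) + (nullP s cf (lz z ξ) (ez z ξ)).re))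
        = fun ξ => ‖z ξ‖ ^ 4 * nDens (lz z ξ) + ‖z ξ‖ ^ 4 * (nullP s cf (lz z ξ) (ez z ξ)).re := by
      funext ξ; ring
    rw [this, integral_add h3 h1, h2, add_zero]
  rw [h4]
  have h5 : IntegrableOn (fun ξ => -(‖z ξ‖ ^ 4 *
      (nDens (lz z ξ) + (nullP s cf (lz z ξ) (ez z ξ)).re))) HP := by
    have := (h3.add h1).neg
    refine this.congr_fun ?_ measurableSet_HP
    intro ξ _
    simp only [Pi.neg_apply, Pi.add_apply]; ring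
  have hpos : ∀ ξ ∈ HP, 0 < -(‖z ξ‖ ^ 4 *
      (nDens (lz z ξ) + (nullP s cf (lz z ξ) (ez z ξ)).re)) := by
    intro ξ hξ
    have h6 := hcert (lz z ξ) (ez z ξ) (h.ez_sub hξ) (h.ez_sub' hξ)
    have h7 : 0 < ‖z ξ‖ ^ 4 := by
      have := norm_pos_iff.2 (h.ne ξ hξ)
      positivity
    nlinarith
  have h8 : 0 < ∫ ξ in HP, -(‖z ξ‖ ^ 4 *
      (nDens (lz z ξ) + (nullP s cf (lz z ξ) (ez z ξ)).re)) := by
    rw [setIntegral_pos_iff_support_of_nonneg_ae]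
    · have hsub : HP ⊆ Function.support (fun ξ => -(‖z ξ‖ ^ 4 *
          (nDens (lz z ξ) + (nullP s cf (lz z ξ) (ez z ξ)).re))) ∩ HP := by
        intro ξ hξ
        exact ⟨(hpos ξ hξ).ne', hξ⟩
      refine lt_of_lt_of_le ?_ (measure_mono hsub)
      exact isOpen_HP.measure_pos _ ⟨I, by simp [HP]⟩
    · filter_upwards [ae_restrict_mem measurableSet_HP] with ξ hξ using (hpos ξ hξ).le
    · exact h5
  rw [integral_neg] at h8
  linarith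

end Crest.Agent.R101
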