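import Mathlib
import Crest.Agent.Lib.InjHolo
import Crest.Agent.Lib.RiemannMap
import Crest.Agent.R101.Defs

/-!
# Row 101 (S0133): pull back of the Neumann problem to the unit disc (P1)

Change of variables and conformal invariance.
-/

set_option autoImplicit false

open MeasureTheory Metric Set Complex ComplexConjugate Filter Topology
open scoped Gradient ContDiff

namespace Crest.Agent.R101.PB

open Crest.Agent.R101

noncomputable section

/-- `ℝ²` -/
abbrev E2 : Type := EuclideanSpace ℝ (Fin 2)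

/-- the isometry `ℂ ≃ ℝ²` -/
def e : ℂ ≃ₗᵢ[ℝ] E2 := Complex.orthonormalBasisOneI.repr

theorem e_mp : MeasurePreserving e volume volume :=
  Complex.orthonormalBasisOneI.measurePreserving_repr

/-- the isometry `w ↦ e (w + p)` -/
def AA (p : ℂ) (w : ℂ) : E2 := e (w + p)

/-- its inverse -/
def BB (p : ℂ) (x : E2) : ℂ := e.symm x - p

theorem AA_BB (p : ℂ) (x : E2) : AA p (BB p x) = x := by
  simp [AA, BB]

theorem BB_AA (p : ℂ) (w : ℂ) : BB p (AA p w) = w := by
  simp [AA, BB]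

/-- the homeomorphism -/
def AH (p : ℂ) : ℂ ≃ₜ E2 where
  toFun := AA p
  invFun := BB p
  left_inv := BB_AA p
  right_inv := AA_BB p
  continuous_toFun := by unfold AA; fun_prop
  continuous_invFun := by unfold BB; fun_prop

theorem AA_mp (p : ℂ) : MeasurePreserving (AA p) volume volume :=
  e_mp.comp (measurePreserving_add_right volume p)

theorem AA_me (p : ℂ) : MeasurableEmbedding (AA p) := (AH p).measurableEmbedding

theorem hasFDerivAt_AA (p w : ℂ) :
    HasFDerivAt (AA p) (e.toContinuousLinearEquiv : ℂ →L[ℝ] E2) w := by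
  have h := (e.toContinuousLinearEquiv : ℂ →L[ℝ] E2).hasFDerivAt (x := w + p)
  exact h.comp w ((hasFDerivAt_id w).add_const p)

theorem contDiff_BB (p : ℂ) : ContDiff ℝ 1 (BB p) := by
  unfold BB
  exact (e.symm.toContinuousLinearEquiv.contDiff).sub contDiff_const

/-- multiplication by `a` as a real linear map -/
def mulR (a : ℂ) : ℂ →L[ℝ] ℂ := (ContinuousLinearMap.toSpanSingleton ℂ a).restrictScalars ℝ

theorem mulR_apply (a z : ℂ) : mulR a z = z * a := by
  simp [mulR, ContinuousLinearMap.toSpanSingleton_apply]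

/-- determinant of the multiplication by `a` -/
theorem abs_det_mulR (a : ℂ) : |(mulR a).det| = ‖a‖ ^ 2 := by
  have h : (mulR a).det = ‖a‖ ^ 2 := by
    simp [mulR, ContinuousLinearMap.det, LinearMap.det_restrictScalars,
      Algebra.norm_complex_eq, Complex.normSq_eq_norm_sq]
  rw [h, abs_of_nonneg (by positivity)]

/-- data of the conformal map onto `Ω - p` -/
structure Dat (Ω : Set E2) (p : ℂ) (φ g : ℂ → ℂ) : Prop where
  hopen : IsOpen Ω
  holo : DifferentiableOn ℂ φ (ball 0 1)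
  inj : InjOn φ (ball 0 1)
  img : φ '' ball 0 1 = AA p ⁻¹' Ω
  zero : φ 0 = 0
  gholo : DifferentiableOn ℂ g (AA p ⁻¹' Ω)
  gmaps : MapsTo g (AA p ⁻¹' Ω) (ball 0 1)
  gφ : ∀ z ∈ ball (0 : ℂ) 1, g (φ z) = z
  φg : ∀ w ∈ AA p ⁻¹' Ω, φ (g w) = w

/-- `Φ z = e (φ z + p)` -/
def Phi (p : ℂ) (φ : ℂ → ℂ) (z : ℂ) : E2 := AA p (φ z)

section

variable {Ω : Set E2} {p : ℂ} {φ g : ℂ → ℂ} (D : Dat Ω p φ g)

include D

theorem Dat.mapsTo : MapsTo (Phi p φ) (ball 0 1) Ω := by
  intro z hz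
  have : φ z ∈ φ '' ball 0 1 := mem_image_of_mem φ hz
  rw [D.img] at this
  exact this

theorem Dat.hasDerivAt {z : ℂ} (hz : z ∈ ball (0 : ℂ) 1) : HasDerivAt φ (deriv φ z) z :=
  ((D.holo z hz).differentiableAt (isOpen_ball.mem_nhds hz)).hasDerivAt

theorem Dat.hasFDerivAt {z : ℂ} (hz : z ∈ ball (0 : ℂ) 1) :
    HasFDerivAt φ (mulR (deriv φ z)) z :=
  (D.hasDerivAt hz).hasFDerivAt.restrictScalars ℝ

theorem Dat.hasFDerivAt_Phi {z : ℂ} (hz : z ∈ ball (0 : ℂ) 1) :
    HasFDerivAt (Phi p φ) ((e.toContinuousLinearEquiv : ℂ →L[ℝ] E2).comp (mulR (deriv φ z))) z :=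
  (hasFDerivAt_AA p (φ z)).comp z (D.hasFDerivAt hz)

/-- change of variables: integrals -/
theorem Dat.integral (F : E2 → ℝ) :
    ∫ x in Ω, F x = ∫ z in ball (0 : ℂ) 1, rho φ z * F (Phi p φ z) := by
  have h1 : ∫ x in Ω, F x = ∫ w in AA p ⁻¹' Ω, F (AA p w) :=
    ((AA_mp p).setIntegral_preimage_emb (AA_me p) F Ω).symm
  rw [h1, ← D.img]
  rw [integral_image_eq_integral_abs_det_fderiv_smul volume measurableSet_ball
    (fun z hz => (D.hasFDerivAt hz).hasFDerivWithinAt) D.inj]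
  refine setIntegral_congr_fun measurableSet_ball fun z _ => ?_
  simp only [abs_det_mulR, smul_eq_mul]
  rfl

/-- change of variables: integrability -/
theorem Dat.integrableOn (F : E2 → ℝ) :
    IntegrableOn F Ω ↔ IntegrableOn (fun z => rho φ z * F (Phi p φ z)) (ball (0 : ℂ) 1) := by
  have h1 : IntegrableOn (fun w => F (AA p w)) (AA p ⁻¹' Ω) ↔ IntegrableOn F Ω :=
    (AA_mp p).integrableOn_comp_preimage (AA_me p)
  rw [← h1, ← D.img]
  rw [integrableOn_image_iff_integrableOn_abs_det_fderiv_smul volume measurableSet_ball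
    (fun z hz => (D.hasFDerivAt hz).hasFDerivWithinAt) D.inj]
  refine integrableOn_congr_fun (fun z _ => ?_) measurableSet_ball
  simp only [abs_det_mulR, smul_eq_mul]
  rfl

theorem Dat.contDiffOn_phi : ContDiffOn ℝ 1 φ (ball 0 1) := by
  have h : AnalyticOnNhd ℂ φ (ball 0 1) := D.holo.analyticOnNhd isOpen_ball
  exact (h.contDiffOn (n := 1) isOpen_ball.uniqueDiffOn).restrict_scalars ℝ

theorem Dat.contDiffOn_Phi : ContDiffOn ℝ 1 (Phi p φ) (ball 0 1) := by
  have h : ContDiff ℝ 1 (AA p) := by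
    unfold AA
    exact e.toContinuousLinearEquiv.contDiff.comp (contDiff_id.add contDiff_const)
  exact h.comp_contDiffOn D.contDiffOn_phi

theorem Dat.isOpen_pre : IsOpen (AA p ⁻¹' Ω) := D.hopen.preimage (AH p).continuous

theorem Dat.contDiffOn_g : ContDiffOn ℝ 1 g (AA p ⁻¹' Ω) := by
  have h : AnalyticOnNhd ℂ g (AA p ⁻¹' Ω) := D.gholo.analyticOnNhd D.isOpen_pre
  exact (h.contDiffOn (n := 1) D.isOpen_pre.uniqueDiffOn).restrict_scalars ℝ

/-- conformal invariance of the Dirichlet density -/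
theorem Dat.g2_comp {u : E2 → ℝ} (hu : ContDiffOn ℝ 1 u Ω) {z : ℂ} (hz : z ∈ ball (0 : ℂ) 1) :
    g2 (fun z => u (Phi p φ z)) z = rho φ z * ‖∇ u (Phi p φ z)‖ ^ 2 := by
  have hd : DifferentiableAt ℝ u (Phi p φ z) :=
    (hu.differentiableOn (by norm_num) _ (D.mapsTo hz)).differentiableAt
      (D.hopen.mem_nhds (D.mapsTo hz))
  have h1 := (hd.hasGradientAt.hasFDerivAt.comp z (D.hasFDerivAt_Phi hz)).fderiv
  have h2 : ∀ v : ℂ, fderiv ℝ (fun z => u (Phi p φ z)) z v =
      inner ℝ (∇ u (Phi p φ z)) (e (v * deriv φ z)) := by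
    intro v
    have h3 : fderiv ℝ (fun z => u (Phi p φ z)) z = _ := h1
    rw [h3]
    simp [mulR_apply]
  set G : ℂ := e.symm (∇ u (Phi p φ z)) with hG
  have h4 : ∀ c : ℂ, inner ℝ (∇ u (Phi p φ z)) (e c) = inner ℝ G c := by
    intro c
    rw [hG, ← e.inner_map_map, LinearIsometryEquiv.apply_symm_apply]
  have h5 : ‖∇ u (Phi p φ z)‖ = ‖G‖ := by rw [hG, LinearIsometryEquiv.norm_map]
  rw [g2, dx, dy, h2, h2, h4, h4, h5, rho]
  rw [Complex.inner, Complex.inner, ← Complex.normSq_eq_norm_sq, ← Complex.normSq_eq_norm_sq]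
  simp only [Complex.mul_re, Complex.conj_re, Complex.conj_im, Complex.mul_im, Complex.I_re,
    Complex.I_im, Complex.one_re, Complex.one_im, Complex.normSq_apply]
  ring

end

end

end Crest.Agent.R101.PB
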