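import Crest.Agent.R101.PBCore

/-!
# Row 101 (S0133), P1: the pulled back eigenvalue problem
-/

set_option autoImplicit false

open MeasureTheory Metric Set Complex ComplexConjugate Filter Topology
open scoped Gradient ContDiff

namespace Crest.Agent.R101

namespace PB

noncomputable section

/-! ### existence of the conformal map -/

theorem exists_dat {Ω : Set E2} (hopen : IsOpen Ω) (hbdd : Bornology.IsBounded Ω)
    (hsc : IsSimplyConnected Ω) {x₀ : E2} (hx₀ : x₀ ∈ Ω) :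
    ∃ (p : ℂ) (φ g : ℂ → ℂ), Dat Ω p φ g ∧ Phi p φ 0 = x₀ := by
  set p : ℂ := e.symm x₀ with hp
  have hA0 : AA p 0 = x₀ := by simp [AA, hp]
  have ho : IsOpen (AA p ⁻¹' Ω) := hopen.preimage (AH p).continuous
  have hs : IsSimplyConnected (AA p ⁻¹' Ω) := ((AH p).isSimplyConnected_preimage).mpr hsc
  have hne : AA p ⁻¹' Ω ≠ univ := by
    intro h
    have h1 : Ω = univ := by
      rw [eq_univ_iff_forall]
      intro x
      have h2 : BB p x ∈ AA p ⁻¹' Ω := by rw [h]; trivial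
      have h3 : AA p (BB p x) ∈ Ω := h2
      rwa [AA_BB] at h3
    rw [h1] at hbdd
    exact NormedSpace.unbounded_univ ℝ E2 hbdd
  have h0 : (0 : ℂ) ∈ AA p ⁻¹' Ω := by
    change AA p 0 ∈ Ω
    rw [hA0]; exact hx₀
  obtain ⟨g, hg, hginj, hgimg, hg0⟩ := Lib.RiemannMap.riemann_mapping ho hs hne h0
  obtain ⟨φ, hφ, hφinj, hφimg, hφg, hgφ⟩ := Lib.exists_holomorphic_inverse ho hg hginj
  rw [hgimg] at hφ hφinj hφimg hgφ
  refine ⟨p, φ, g, ⟨hopen, hφ, hφinj, hφimg, ?_, hg, ?_, hgφ, hφg⟩, ?_⟩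
  · have h := hφg 0 h0
    rwa [hg0] at h
  · intro w hw
    rw [← hgimg]; exact mem_image_of_mem g hw
  · have h1 : φ 0 = 0 := by
      have h := hφg 0 h0
      rwa [hg0] at h
    rw [Phi, h1, hA0]

/-! ### admissible functions -/

theorem rho_nonneg (φ : ℂ → ℂ) (z : ℂ) : 0 ≤ rho φ z := by unfold rho; positivity

theorem g2_nonneg (v : ℂ → ℝ) (z : ℂ) : 0 ≤ g2 v z := by unfold g2; positivity

theorem continuousOn_fderiv {v : ℂ → ℝ} (hv : ContDiffOn ℝ 1 v (ball 0 1)) :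
    ContinuousOn (fderiv ℝ v) (ball (0 : ℂ) 1) :=
  hv.continuousOn_fderiv_of_isOpen isOpen_ball le_rfl

theorem continuousOn_dx {v : ℂ → ℝ} (hv : ContDiffOn ℝ 1 v (ball 0 1)) :
    ContinuousOn (dx v) (ball (0 : ℂ) 1) :=
  (continuousOn_fderiv hv).clm_apply continuousOn_const

theorem continuousOn_dy {v : ℂ → ℝ} (hv : ContDiffOn ℝ 1 v (ball 0 1)) :
    ContinuousOn (dy v) (ball (0 : ℂ) 1) :=
  (continuousOn_fderiv hv).clm_apply continuousOn_const

theorem continuousOn_g2 {v : ℂ → ℝ} (hv : ContDiffOn ℝ 1 v (ball 0 1)) :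
    ContinuousOn (g2 v) (ball (0 : ℂ) 1) :=
  ((continuousOn_dx hv).pow 2).add ((continuousOn_dy hv).pow 2)

theorem continuousOn_ip {v w : ℂ → ℝ} (hv : ContDiffOn ℝ 1 v (ball 0 1))
    (hw : ContDiffOn ℝ 1 w (ball 0 1)) : ContinuousOn (ip v w) (ball (0 : ℂ) 1) :=
  ((continuousOn_dx hv).mul (continuousOn_dx hw)).add
    ((continuousOn_dy hv).mul (continuousOn_dy hw))

theorem continuousOn_rho {φ : ℂ → ℂ} (hφ : DifferentiableOn ℂ φ (ball 0 1)) :
    ContinuousOn (rho φ) (ball (0 : ℂ) 1) := by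
  have h : ContinuousOn (deriv φ) (ball (0 : ℂ) 1) :=
    (hφ.deriv isOpen_ball).continuousOn
  exact (h.norm).pow 2

theorem aesm {f : ℂ → ℝ} (hf : ContinuousOn f (ball (0 : ℂ) 1)) :
    AEStronglyMeasurable f (volume.restrict (ball (0 : ℂ) 1)) :=
  hf.aestronglyMeasurable measurableSet_ball

section

variable {φ : ℂ → ℂ} (hφ : DifferentiableOn ℂ φ (ball 0 1)) {v w : ℂ → ℝ}

theorem integrableOn_ip (hv : Adm φ v) (hw : Adm φ w) : IntegrableOn (ip v w) (ball (0 : ℂ) 1) := by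
  refine Integrable.mono' (hv.en.add hw.en) (aesm (continuousOn_ip hv.c1 hw.c1)) ?_
  refine Eventually.of_forall fun z => ?_
  simp only [ip, Pi.add_apply, g2, Real.norm_eq_abs]
  rw [abs_le]
  constructor <;> nlinarith [sq_nonneg (dx v z + dx w z), sq_nonneg (dy v z + dy w z),
    sq_nonneg (dx v z - dx w z), sq_nonneg (dy v z - dy w z), sq_nonneg (dx v z),
    sq_nonneg (dx w z), sq_nonneg (dy v z), sq_nonneg (dy w z)]

include hφ in
theorem integrableOn_mul (hv : Adm φ v) (hw : Adm φ w) :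
    IntegrableOn (fun z => rho φ z * v z * w z) (ball (0 : ℂ) 1) := by
  refine Integrable.mono' (hv.l2.add hw.l2)
    (aesm (((continuousOn_rho hφ).mul hv.c1.continuousOn).mul hw.c1.continuousOn)) ?_
  refine Eventually.of_forall fun z => ?_
  simp only [Pi.add_apply, Real.norm_eq_abs]
  have h0 := rho_nonneg φ z
  rw [mul_assoc, abs_mul, abs_of_nonneg h0, ← mul_add]
  refine mul_le_mul_of_nonneg_left ?_ h0
  rw [abs_le]
  constructor <;> nlinarith [sq_nonneg (v z + w z), sq_nonneg (v z - w z), sq_nonneg (v z),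
    sq_nonneg (w z)]

theorem diffAt {v : ℂ → ℝ} (hv : ContDiffOn ℝ 1 v (ball 0 1)) {z : ℂ}
    (hz : z ∈ ball (0 : ℂ) 1) : DifferentiableAt ℝ v z :=
  (hv.differentiableOn (by norm_num) z hz).differentiableAt (isOpen_ball.mem_nhds hz)

theorem fderiv_add_mul (hv : ContDiffOn ℝ 1 v (ball 0 1)) (hw : ContDiffOn ℝ 1 w (ball 0 1))
    (t : ℝ) {z : ℂ} (hz : z ∈ ball (0 : ℂ) 1) (h : ℂ) :
    fderiv ℝ (fun z => v z + t * w z) z h = fderiv ℝ v z h + t * fderiv ℝ w z h := by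
  have h1 := (diffAt hv hz).hasFDerivAt.add ((diffAt hw hz).hasFDerivAt.const_mul t)
  have h2 : fderiv ℝ (fun z => v z + t * w z) z = fderiv ℝ v z + t • fderiv ℝ w z := h1.fderiv
  rw [h2]
  simp

theorem g2_add_mul (hv : ContDiffOn ℝ 1 v (ball 0 1)) (hw : ContDiffOn ℝ 1 w (ball 0 1))
    (t : ℝ) {z : ℂ} (hz : z ∈ ball (0 : ℂ) 1) :
    g2 (fun z => v z + t * w z) z = g2 v z + (2 * t) * ip v w z + t ^ 2 * g2 w z := by
  simp only [g2, ip, dx, dy, fderiv_add_mul hv hw t hz]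
  ring

include hφ in
theorem adm_add_mul (hv : Adm φ v) (hw : Adm φ w) (t : ℝ) : Adm φ (fun z => v z + t * w z) := by
  refine ⟨hv.c1.add (contDiffOn_const.mul hw.c1), ?_, ?_⟩
  · have h := (hv.l2.add ((integrableOn_mul hφ hv hw).const_mul (2 * t))).add
      (hw.l2.const_mul (t ^ 2))
    refine h.congr (Eventually.of_forall fun z => ?_)
    simp only [Pi.add_apply]
    ring
  · have h := (hv.en.add ((integrableOn_ip hv hw).const_mul (2 * t))).add
      (hw.en.const_mul (t ^ 2))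
    refine h.congr ?_
    refine (ae_restrict_iff' measurableSet_ball).mpr (Eventually.of_forall fun z hz => ?_)
    rw [g2_add_mul hv.c1 hw.c1 t hz]
    simp only [Pi.add_apply]

include hφ in
theorem integral_sq_add_mul (hv : Adm φ v) (hw : Adm φ w) (t : ℝ) :
    ∫ z in ball (0 : ℂ) 1, rho φ z * (v z + t * w z) ^ 2 =
      (∫ z in ball (0 : ℂ) 1, rho φ z * v z ^ 2) +
      (2 * t) * (∫ z in ball (0 : ℂ) 1, rho φ z * v z * w z) +
      t ^ 2 * ∫ z in ball (0 : ℂ) 1, rho φ z * w z ^ 2 := by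
  have h1 : IntegrableOn (fun z => rho φ z * v z ^ 2 + (2 * t) * (rho φ z * v z * w z))
      (ball (0 : ℂ) 1) := hv.l2.add ((integrableOn_mul hφ hv hw).const_mul (2 * t))
  rw [← integral_const_mul, ← integral_const_mul, ← integral_add hv.l2
    ((integrableOn_mul hφ hv hw).const_mul (2 * t)), ← integral_add h1
    (hw.l2.const_mul (t ^ 2))]
  refine integral_congr_ae (Eventually.of_forall fun z => ?_)
  ring

theorem integral_g2_add_mul (hv : Adm φ v) (hw : Adm φ w) (t : ℝ) :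
    ∫ z in ball (0 : ℂ) 1, g2 (fun z => v z + t * w z) z =
      (∫ z in ball (0 : ℂ) 1, g2 v z) + (2 * t) * (∫ z in ball (0 : ℂ) 1, ip v w z) +
      t ^ 2 * ∫ z in ball (0 : ℂ) 1, g2 w z := by
  have h1 : IntegrableOn (fun z => g2 v z + (2 * t) * ip v w z)
      (ball (0 : ℂ) 1) := hv.en.add ((integrableOn_ip hv hw).const_mul (2 * t))
  rw [← integral_const_mul, ← integral_const_mul, ← integral_add hv.en
    ((integrableOn_ip hv hw).const_mul (2 * t)), ← integral_add h1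
    (hw.en.const_mul (t ^ 2))]
  exact setIntegral_congr_fun measurableSet_ball fun z hz => g2_add_mul hv.c1 hw.c1 t hz

theorem adm_const (hr : IntegrableOn (rho φ) (ball (0 : ℂ) 1)) (c : ℝ) : Adm φ (fun _ => c) := by
  refine ⟨contDiffOn_const, hr.mul_const _, ?_⟩
  have : g2 (fun _ : ℂ => c) = fun _ => 0 := by
    funext z
    simp [g2, dx, dy]
  rw [this]
  exact integrableOn_zero

theorem integrableOn_rho_mul (hφ : DifferentiableOn ℂ φ (ball 0 1))
    (hr : IntegrableOn (rho φ) (ball (0 : ℂ) 1)) (hv : Adm φ v) :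
    IntegrableOn (fun z => rho φ z * v z) (ball (0 : ℂ) 1) := by
  have h := integrableOn_mul hφ hv (adm_const hr 1)
  simpa using h

/-! ### variations -/

theorem eq_zero_of_forall {a b : ℝ} (h : ∀ t : ℝ, 0 ≤ 2 * t * a + t ^ 2 * b) : a = 0 := by
  by_contra ha
  have h1 : 0 < a ^ 2 := by positivity
  have h2 : 0 < |b| + 1 := by positivity
  have h3 := h (-(a / (|b| + 1)))
  have h4 : 2 * -(a / (|b| + 1)) * a + (-(a / (|b| + 1))) ^ 2 * b =
      -(a ^ 2 / (|b| + 1)) * (2 - b / (|b| + 1)) := by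
    field_simp
    ring
  rw [h4] at h3
  have h5 : b / (|b| + 1) ≤ 1 := by
    rw [div_le_one h2]
    linarith [le_abs_self b]
  have h6 : 0 < a ^ 2 / (|b| + 1) := by positivity
  nlinarith

/-- Euler-Lagrange equation from minimality -/
theorem weak_of_min {U : ℂ → ℝ} (hφ : DifferentiableOn ℂ φ (ball 0 1))
    (hr : IntegrableOn (rho φ) (ball (0 : ℂ) 1)) (hr0 : 0 < ∫ z in ball (0 : ℂ) 1, rho φ z)
    (hU : Adm φ U) (hmean : ∫ z in ball (0 : ℂ) 1, rho φ z * U z = 0)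
    (hmin : ∀ v, Adm φ v → ∫ z in ball (0 : ℂ) 1, rho φ z * v z = 0 →
      (∫ z in ball (0 : ℂ) 1, g2 U z) * (∫ z in ball (0 : ℂ) 1, rho φ z * v z ^ 2) ≤
      (∫ z in ball (0 : ℂ) 1, g2 v z) * (∫ z in ball (0 : ℂ) 1, rho φ z * U z ^ 2))
    {v : ℂ → ℝ} (hv : Adm φ v) :
    (∫ z in ball (0 : ℂ) 1, rho φ z * U z ^ 2) * ∫ z in ball (0 : ℂ) 1, ip U v z =
      (∫ z in ball (0 : ℂ) 1, g2 U z) * ∫ z in ball (0 : ℂ) 1, rho φ z * U z * v z := by
  set c : ℝ := (∫ z in ball (0 : ℂ) 1, rho φ z * v z) / ∫ z in ball (0 : ℂ) 1, rho φ z with hc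
  set v' : ℂ → ℝ := fun z => v z + (-c) * (fun _ => (1 : ℝ)) z with hv'
  have h1 := adm_const (φ := φ) hr 1
  have hav : Adm φ v' := adm_add_mul hφ hv h1 (-c)
  have hmv : ∫ z in ball (0 : ℂ) 1, rho φ z * v' z = 0 := by
    have h2 : ∀ z, rho φ z * v' z = rho φ z * v z + (-c) * rho φ z := fun z => by
      simp only [hv']; ring
    simp_rw [h2]
    rw [integral_add (integrableOn_rho_mul hφ hr hv) (hr.const_mul _), integral_const_mul, hc]
    field_simp
    ring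
  have hip : ∫ z in ball (0 : ℂ) 1, ip U v' z = ∫ z in ball (0 : ℂ) 1, ip U v z := by
    refine setIntegral_congr_fun measurableSet_ball fun z hz => ?_
    simp only [ip, dx, dy, hv', fderiv_add_mul hv.c1 h1.c1 (-c) hz]
    simp
  have hmul : ∫ z in ball (0 : ℂ) 1, rho φ z * U z * v' z =
      ∫ z in ball (0 : ℂ) 1, rho φ z * U z * v z := by
    have h2 : ∀ z, rho φ z * U z * v' z = rho φ z * U z * v z + (-c) * (rho φ z * U z) :=
      fun z => by simp only [hv']; ring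
    simp_rw [h2]
    rw [integral_add (integrableOn_mul hφ hU hv) ((integrableOn_rho_mul hφ hr hU).const_mul _),
      integral_const_mul, hmean, mul_zero, add_zero]
  rw [← hip, ← hmul]
  have key : (∫ z in ball (0 : ℂ) 1, rho φ z * U z ^ 2) * (∫ z in ball (0 : ℂ) 1, ip U v' z) -
      (∫ z in ball (0 : ℂ) 1, g2 U z) * (∫ z in ball (0 : ℂ) 1, rho φ z * U z * v' z) = 0 := by
    apply eq_zero_of_forall (b := (∫ z in ball (0 : ℂ) 1, rho φ z * U z ^ 2) *
      (∫ z in ball (0 : ℂ) 1, g2 v' z) - (∫ z in ball (0 : ℂ) 1, g2 U z) *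
      (∫ z in ball (0 : ℂ) 1, rho φ z * v' z ^ 2))
    intro t
    have h2 := hmin (fun z => U z + t * v' z) (adm_add_mul hφ hU hav t) (by
      have h3 : ∀ z, rho φ z * (U z + t * v' z) = rho φ z * U z + t * (rho φ z * v' z) :=
        fun z => by ring
      simp_rw [h3]
      rw [integral_add (integrableOn_rho_mul hφ hr hU)
        ((integrableOn_rho_mul hφ hr hav).const_mul _), integral_const_mul, hmean, hmv]
      ring)
    rw [integral_g2_add_mul hU hav, integral_sq_add_mul hφ hU hav] at h2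
    nlinarith [h2]
  linarith

end

/-! ### push forward of test functions -/

section push

variable {Ω : Set E2} {p : ℂ} {φ g : ℂ → ℂ} (D : Dat Ω p φ g)

include D

theorem Dat.g_Phi {z : ℂ} (hz : z ∈ ball (0 : ℂ) 1) : g (BB p (Phi p φ z)) = z := by
  rw [Phi, BB_AA]; exact D.gφ z hz

theorem Dat.push_c1 {v : ℂ → ℝ} (hv : ContDiffOn ℝ 1 v (ball 0 1)) :
    ContDiffOn ℝ 1 (fun x => v (g (BB p x))) Ω := by
  have h1 : MapsTo (BB p) Ω (AA p ⁻¹' Ω) := by
    intro x hx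
    change AA p (BB p x) ∈ Ω
    rw [AA_BB]; exact hx
  exact (hv.comp D.contDiffOn_g D.gmaps).comp (contDiff_BB p).contDiffOn h1

theorem Dat.g2_push {v : ℂ → ℝ} (hv : ContDiffOn ℝ 1 v (ball 0 1)) {z : ℂ}
    (hz : z ∈ ball (0 : ℂ) 1) :
    g2 v z = rho φ z * ‖∇ (fun x => v (g (BB p x))) (Phi p φ z)‖ ^ 2 := by
  rw [← D.g2_comp (D.push_c1 hv) hz]
  have h1 : (fun z => v (g (BB p (Phi p φ z)))) =ᶠ[𝓝 z] v := by
    filter_upwards [isOpen_ball.mem_nhds hz] with y hy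
    rw [D.g_Phi hy]
  simp only [g2, dx, dy, h1.fderiv_eq]

theorem Dat.rho_int (hb : Bornology.IsBounded Ω) : IntegrableOn (rho φ) (ball (0 : ℂ) 1) := by
  have h1 : IntegrableOn (fun _ : E2 => (1 : ℝ)) Ω :=
    integrableOn_const (hb.measure_lt_top.ne)
  rw [D.integrableOn] at h1
  simpa using h1

theorem Dat.rho_int_pos (hb : Bornology.IsBounded Ω) :
    0 < ∫ z in ball (0 : ℂ) 1, rho φ z := by
  have h1 := D.integral (fun _ => (1 : ℝ))
  simp only [mul_one] at h1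
  rw [← h1, setIntegral_const, smul_eq_mul, mul_one]
  have hne : Ω.Nonempty := ⟨_, D.mapsTo (mem_ball_self one_pos)⟩
  exact ENNReal.toReal_pos (D.hopen.measure_pos volume hne).ne' hb.measure_lt_top.ne

end push

/-- **P1** in terms of `Dat`. -/
theorem setting_of_dat {Ω : Set E2} {p : ℂ} {φ g : ℂ → ℂ} (D : Dat Ω p φ g)
    (hbdd : Bornology.IsBounded Ω)
    (u : E2 → ℝ) (hu : ContDiffOn ℝ 1 u Ω)
    (huL2 : IntegrableOn (fun x => u x ^ 2) Ω) (hgradL2 : IntegrableOn (fun x => ‖∇ u x‖ ^ 2) Ω)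
    (hmean : ∫ x in Ω, u x = 0) (hnz : ∃ x ∈ Ω, u x ≠ 0)
    (hmin : ∀ v : E2 → ℝ, ContDiffOn ℝ 1 v Ω →
      IntegrableOn (fun x => v x ^ 2) Ω → IntegrableOn (fun x => ‖∇ v x‖ ^ 2) Ω →
      ∫ x in Ω, v x = 0 →
      (∫ x in Ω, ‖∇ u x‖ ^ 2) * (∫ x in Ω, v x ^ 2) ≤ (∫ x in Ω, ‖∇ v x‖ ^ 2) * (∫ x in Ω, u x ^ 2))
    (hcrit : ∇ u (Phi p φ 0) = 0) :
    ∃ μ, Setting φ (fun z => u (Phi p φ z)) μ := by
  set U : ℂ → ℝ := fun z => u (Phi p φ z) with hUdef
  have hr := D.rho_int hbdd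
  have hr0 := D.rho_int_pos hbdd
  have hconf : Conf φ := by
    refine ⟨D.holo, D.inj, D.zero, ?_, hr⟩
    obtain ⟨C, hC⟩ := hbdd.exists_norm_le
    refine ⟨C + ‖p‖, fun z hz => ?_⟩
    have h1 := hC _ (D.mapsTo hz)
    rw [Phi, AA, LinearIsometryEquiv.norm_map] at h1
    calc ‖φ z‖ = ‖(φ z + p) - p‖ := by rw [add_sub_cancel_right]
      _ ≤ ‖φ z + p‖ + ‖p‖ := norm_sub_le _ _
      _ ≤ C + ‖p‖ := by linarith
  have hUc1 : ContDiffOn ℝ 1 U (ball 0 1) := hu.comp D.contDiffOn_Phi D.mapsTo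
  have hUl2 : IntegrableOn (fun z => rho φ z * U z ^ 2) (ball (0 : ℂ) 1) :=
    (D.integrableOn _).mp huL2
  have hUg2 : ∀ z ∈ ball (0 : ℂ) 1, rho φ z * ‖∇ u (Phi p φ z)‖ ^ 2 = g2 U z :=
    fun z hz => (D.g2_comp hu hz).symm
  have hUen : IntegrableOn (g2 U) (ball (0 : ℂ) 1) :=
    ((D.integrableOn _).mp hgradL2).congr_fun hUg2 measurableSet_ball
  have hU : Adm φ U := ⟨hUc1, hUl2, hUen⟩
  have hUmean : ∫ z in ball (0 : ℂ) 1, rho φ z * U z = 0 := by
    rw [← hmean, D.integral]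
  have hUsq : ∫ x in Ω, u x ^ 2 = ∫ z in ball (0 : ℂ) 1, rho φ z * U z ^ 2 := D.integral _
  have hUgr : ∫ x in Ω, ‖∇ u x‖ ^ 2 = ∫ z in ball (0 : ℂ) 1, g2 U z := by
    rw [D.integral]
    exact setIntegral_congr_fun measurableSet_ball hUg2
  -- minimality on the disc
  have hminD : ∀ v, Adm φ v → ∫ z in ball (0 : ℂ) 1, rho φ z * v z = 0 →
      (∫ z in ball (0 : ℂ) 1, g2 U z) * (∫ z in ball (0 : ℂ) 1, rho φ z * v z ^ 2) ≤
      (∫ z in ball (0 : ℂ) 1, g2 v z) * (∫ z in ball (0 : ℂ) 1, rho φ z * U z ^ 2) := by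
    intro v hv hv0
    have hgv : ∀ z ∈ ball (0 : ℂ) 1, g (BB p (Phi p φ z)) = z := fun z hz => D.g_Phi hz
    have e2 : ∫ x in Ω, v (g (BB p x)) ^ 2 = ∫ z in ball (0 : ℂ) 1, rho φ z * v z ^ 2 := by
      rw [D.integral]
      refine setIntegral_congr_fun measurableSet_ball fun z hz => ?_
      simp only [hgv z hz]
    have e3 : ∫ x in Ω, v (g (BB p x)) = ∫ z in ball (0 : ℂ) 1, rho φ z * v z := by
      rw [D.integral]
      refine setIntegral_congr_fun measurableSet_ball fun z hz => ?_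
      simp only [hgv z hz]
    have e4 : ∫ x in Ω, ‖∇ (fun x => v (g (BB p x))) x‖ ^ 2 =
        ∫ z in ball (0 : ℂ) 1, g2 v z := by
      rw [D.integral]
      exact setIntegral_congr_fun measurableSet_ball fun z hz => (D.g2_push hv.c1 hz).symm
    have h := hmin (fun x => v (g (BB p x))) (D.push_c1 hv.c1) ?_ ?_ (by rw [e3, hv0])
    · rw [e2, e4, hUsq, hUgr] at h
      exact h
    · rw [D.integrableOn]
      refine hv.l2.congr_fun (fun z hz => ?_) measurableSet_ball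
      simp only [hgv z hz]
    · rw [D.integrableOn]
      exact hv.en.congr_fun (fun z hz => D.g2_push hv.c1 hz) measurableSet_ball
  have hnzD : ∃ z ∈ ball (0 : ℂ) 1, U z ≠ 0 := by
    obtain ⟨x, hx, hxu⟩ := hnz
    have hB : BB p x ∈ AA p ⁻¹' Ω := by
      change AA p (BB p x) ∈ Ω
      rw [AA_BB]; exact hx
    refine ⟨g (BB p x), D.gmaps hB, ?_⟩
    have : Phi p φ (g (BB p x)) = x := by
      rw [Phi, D.φg _ hB, AA_BB]
    simp only [hUdef, this]
    exact hxu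
  -- `∫ ρ U² > 0`
  have hrne : ∀ z ∈ ball (0 : ℂ) 1, 0 < rho φ z := by
    intro z hz
    have := Lib.deriv_ne_zero_of_injOn isOpen_ball D.holo D.inj hz
    rw [rho]
    positivity
  have hA : 0 < ∫ z in ball (0 : ℂ) 1, rho φ z * U z ^ 2 := by
    have h0 : 0 ≤ ∫ z in ball (0 : ℂ) 1, rho φ z * U z ^ 2 :=
      integral_nonneg fun z => mul_nonneg (rho_nonneg φ z) (sq_nonneg _)
    refine lt_of_le_of_ne h0 fun h1 => ?_
    have h2 := (setIntegral_eq_zero_iff_of_nonneg_ae (Eventually.of_forall fun z =>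
      mul_nonneg (rho_nonneg φ z) (sq_nonneg _)) hUl2).mp h1.symm
    have h3 := Measure.eqOn_open_of_ae_eq h2 isOpen_ball
      ((continuousOn_rho D.holo).mul (hUc1.continuousOn.pow 2)) continuousOn_const
    obtain ⟨z, hz, hz0⟩ := hnzD
    have h4 : rho φ z * U z ^ 2 = 0 := h3 hz
    have h5 := mul_pos (hrne z hz) (pow_pos (abs_pos.mpr hz0) 2)
    rw [sq_abs, h4] at h5
    exact lt_irrefl _ h5
  -- `∫ |∇U|² > 0`
  have hB : 0 < ∫ z in ball (0 : ℂ) 1, g2 U z := by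
    have h0 : 0 ≤ ∫ z in ball (0 : ℂ) 1, g2 U z := integral_nonneg fun z => g2_nonneg U z
    refine lt_of_le_of_ne h0 fun h1 => ?_
    have h2 := (setIntegral_eq_zero_iff_of_nonneg_ae (Eventually.of_forall fun z =>
      g2_nonneg U z) hUen).mp h1.symm
    have h3 := Measure.eqOn_open_of_ae_eq h2 isOpen_ball (continuousOn_g2 hUc1)
      continuousOn_const
    have h4 : ∀ z ∈ ball (0 : ℂ) 1, fderiv ℝ U z = 0 := by
      intro z hz
      have h5 : g2 U z = 0 := h3 hz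
      have h6 : dx U z = 0 ∧ dy U z = 0 := by
        unfold g2 at h5
        constructor <;> nlinarith [sq_nonneg (dx U z), sq_nonneg (dy U z)]
      apply ContinuousLinearMap.ext
      intro h
      have h7 : h = (h.re : ℝ) • (1 : ℂ) + (h.im : ℝ) • I := by
        apply Complex.ext <;> simp
      rw [h7, map_add, map_smul, map_smul]
      change h.re • dx U z + h.im • dy U z = _
      rw [h6.1, h6.2]; simp
    have h5 : ∀ x ∈ ball (0 : ℂ) 1, ∀ y ∈ ball (0 : ℂ) 1, U x = U y := by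
      intro x hx y hy
      exact isOpen_ball.is_const_of_fderiv_eq_zero (𝕜 := ℝ)
        (convex_ball (0 : ℂ) 1).isPreconnected (hUc1.differentiableOn (by norm_num)) h4 hx hy
    obtain ⟨z, hz, hz0⟩ := hnzD
    have h6 : ∫ x in ball (0 : ℂ) 1, rho φ x * U x = U z * ∫ x in ball (0 : ℂ) 1, rho φ x := by
      rw [← integral_const_mul]
      refine setIntegral_congr_fun measurableSet_ball fun x hx => ?_
      change rho φ x * U x = U z * rho φ x
      rw [h5 x hx z hz, mul_comm]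
    rw [hUmean] at h6
    rcases mul_eq_zero.mp h6.symm with h7 | h7
    · exact hz0 h7
    · exact hr0.ne' h7
  refine ⟨(∫ z in ball (0 : ℂ) 1, g2 U z) / ∫ z in ball (0 : ℂ) 1, rho φ z * U z ^ 2,
    hconf, div_pos hB hA, hU, ?_, ?_, ?_, hnzD⟩
  · intro v hv
    have h := weak_of_min D.holo hr hr0 hU hUmean hminD hv
    rw [div_mul_eq_mul_div, eq_div_iff hA.ne', ← h]
    ring
  · intro v hv hv0
    rw [div_mul_eq_mul_div, div_le_iff₀ hA]
    exact hminD v hv hv0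
  · have hz : (0 : ℂ) ∈ ball (0 : ℂ) 1 := mem_ball_self one_pos
    have hd : DifferentiableAt ℝ u (Phi p φ 0) :=
      (hu.differentiableOn (by norm_num) _ (D.mapsTo hz)).differentiableAt
        (D.hopen.mem_nhds (D.mapsTo hz))
    have h1 := (hd.hasGradientAt.hasFDerivAt.comp (0 : ℂ) (D.hasFDerivAt_Phi hz)).fderiv
    have h2 : fderiv ℝ U 0 = _ := h1
    rw [h2, hcrit]
    simp

end

end PB

/-- P1 (pull back). -/
theorem pullback
    (Ω : Set (EuclideanSpace ℝ (Fin 2))) (hopen : IsOpen Ω)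
    (hbdd : Bornology.IsBounded Ω) (hsc : IsSimplyConnected Ω)
    (u : EuclideanSpace ℝ (Fin 2) → ℝ) (hu : ContDiffOn ℝ 1 u Ω)
    (huL2 : IntegrableOn (fun x => u x ^ 2) Ω) (hgradL2 : IntegrableOn (fun x => ‖∇ u x‖ ^ 2) Ω)
    (hmean : ∫ x in Ω, u x = 0) (hnz : ∃ x ∈ Ω, u x ≠ 0)
    (hmin : ∀ v : EuclideanSpace ℝ (Fin 2) → ℝ, ContDiffOn ℝ 1 v Ω →
      IntegrableOn (fun x => v x ^ 2) Ω → IntegrableOn (fun x => ‖∇ v x‖ ^ 2) Ω →
      ∫ x in Ω, v x = 0 →
      (∫ x in Ω, ‖∇ u x‖ ^ 2) * (∫ x in Ω, v x ^ 2) ≤ (∫ x in Ω, ‖∇ v x‖ ^ 2) * (∫ x in Ω, u x ^ 2))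
    (x₀ : EuclideanSpace ℝ (Fin 2)) (hx₀ : x₀ ∈ Ω) (hcrit : ∇ u x₀ = 0) :
    ∃ (φ : ℂ → ℂ) (U : ℂ → ℝ) (μ : ℝ), Setting φ U μ := by
  obtain ⟨p, φ, g, D, hx⟩ := PB.exists_dat hopen hbdd hsc hx₀
  obtain ⟨μ, h⟩ := PB.setting_of_dat D hbdd u hu huL2 hgradL2 hmean hnz hmin (by rw [hx]; exact hcrit)
  exact ⟨φ, _, μ, h⟩

end Crest.Agent.R101
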