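import Crest.Agent.R101.Defs

/-! Row 101: Stokes lemmas with cut-offs (helper328). -/

set_option autoImplicit false

open MeasureTheory Metric Set Complex ComplexConjugate Filter Topology
open scoped ContDiff

namespace Crest.Agent.R101

section General

variable {F G : Type*} [NormedAddCommGroup F] [NormedSpace ℝ F]
  [NormedAddCommGroup G] [NormedSpace ℝ G]

/-- compactly supported `C¹` function: the integral of every directional derivative is `0`. -/
theorem integral_fderiv_apply_eq_zero {f : ℂ → F} (hf : ContDiff ℝ 1 f) (hc : HasCompactSupport f)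
    (v : ℂ) : ∫ z, fderiv ℝ f z v = 0 := by
  have hint : Integrable f := hf.continuous.integrable_of_hasCompactSupport hc
  have hcont : Continuous (fun z => fderiv ℝ f z v) :=
    (hf.continuous_fderiv one_ne_zero).clm_apply continuous_const
  have hcs : HasCompactSupport (fun z => fderiv ℝ f z v) := by
    have := hc.fderiv (𝕜 := ℝ)
    exact this.comp_left (g := fun A : ℂ →L[ℝ] F => A v) (by simp)
  have hint' : Integrable (fun z => fderiv ℝ f z v) := hcont.integrable_of_hasCompactSupport hcs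
  have key := integral_bilinear_hasFDerivAt_right_eq_neg_left_of_integrable
    (μ := (volume : Measure ℂ)) (f := fun _ : ℂ => (1 : ℝ)) (f' := fun _ => 0)
    (g := f) (g' := fun z => fderiv ℝ f z) (v := v) (B := ContinuousLinearMap.lsmul ℝ ℝ)
    (by simp) (by simpa using hint') (by simpa using hint)
    (fun x _ => hasFDerivAt_const _ _)
    (fun x _ => (hf.differentiable (by simp) x).hasFDerivAt)
  simpa using key

theorem integral_fderiv_eq_zero [CompleteSpace F] {f : ℂ → F} (hf : ContDiff ℝ 1 f)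
    (hc : HasCompactSupport f) : ∫ z, fderiv ℝ f z = 0 := by
  have hint' : Integrable (fun z => fderiv ℝ f z) :=
    (hf.continuous_fderiv one_ne_zero).integrable_of_hasCompactSupport (hc.fderiv (𝕜 := ℝ))
  ext v
  rw [ContinuousLinearMap.integral_apply hint']
  simpa using integral_fderiv_apply_eq_zero hf hc v

/-- General Stokes lemma with cut-offs `k n`. -/
theorem integral_op_eq_zero [CompleteSpace F] [CompleteSpace G] {U : Set ℂ} (hU : IsOpen U)
    {X : ℂ → F} (hX : ContDiffOn ℝ 1 X U) (L : (ℂ →L[ℝ] F) →L[ℝ] G)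
    {k : ℕ → ℂ → ℝ} (hk : ∀ n, ContDiff ℝ 1 (k n)) (hkc : ∀ n, HasCompactSupport (k n))
    (hks : ∀ n, tsupport (k n) ⊆ U) (hk1 : ∀ n z, |k n z| ≤ 1)
    (hke : ∀ z ∈ U, ∀ᶠ n in atTop, k n =ᶠ[𝓝 z] fun _ => 1)
    {g : ℂ → ℝ} (hg : IntegrableOn g U)
    (hb : ∀ n, ∀ z ∈ U, ‖L ((fderiv ℝ (k n) z).smulRight (X z))‖ ≤ g z)
    (hi : IntegrableOn (fun z => L (fderiv ℝ X z)) U) :
    ∫ z in U, L (fderiv ℝ X z) = 0 := by
  -- the truncated fields
  set Y : ℕ → ℂ → F := fun n z => k n z • X z with hY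
  have hYc : ∀ n, HasCompactSupport (Y n) := fun n => (hkc n).smul_right
  have hYs : ∀ n, tsupport (Y n) ⊆ U := fun n =>
    (closure_mono (Function.support_smul_subset_left _ _)).trans (hks n)
  have hYd : ∀ n, ContDiff ℝ 1 (Y n) := by
    intro n
    rw [contDiff_iff_contDiffAt]
    intro x
    by_cases hx : x ∈ tsupport (Y n)
    · exact (hk n).contDiffAt.smul (hX.contDiffAt (hU.mem_nhds (hYs n hx)))
    · have h0 : Y n =ᶠ[𝓝 x] fun _ => 0 := notMem_tsupport_iff_eventuallyEq.1 hx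
      exact contDiffAt_const.congr_of_eventuallyEq h0
  have hfd : ∀ n, ∀ z ∈ U, fderiv ℝ (Y n) z =
      k n z • fderiv ℝ X z + (fderiv ℝ (k n) z).smulRight (X z) := by
    intro n z hz
    have h1 : DifferentiableAt ℝ (k n) z := (hk n).differentiable (by simp) z
    have h2 : DifferentiableAt ℝ X z :=
      (hX.contDiffAt (hU.mem_nhds hz)).differentiableAt (by simp)
    exact fderiv_smul h1 h2
  have hzero : ∀ n, ∫ z in U, L (fderiv ℝ (Y n) z) = 0 := by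
    intro n
    have hint' : Integrable (fun z => fderiv ℝ (Y n) z) :=
      ((hYd n).continuous_fderiv one_ne_zero).integrable_of_hasCompactSupport ((hYc n).fderiv (𝕜 := ℝ))
    have h0 : ∫ z, L (fderiv ℝ (Y n) z) = 0 := by
      rw [L.integral_comp_comm hint', integral_fderiv_eq_zero (hYd n) (hYc n), map_zero]
    rw [← h0]
    refine setIntegral_eq_integral_of_forall_compl_eq_zero fun z hz => ?_
    have : z ∉ tsupport (Y n) := fun h => hz (hYs n h)
    have h2 : fderiv ℝ (Y n) z = 0 := by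
      have := notMem_subset (tsupport_fderiv_subset ℝ (f := Y n)) this
      exact image_eq_zero_of_notMem_tsupport this
    rw [h2, map_zero]
  have hlim : Tendsto (fun n => ∫ z in U, L (fderiv ℝ (Y n) z)) atTop
      (𝓝 (∫ z in U, L (fderiv ℝ X z))) := by
    refine tendsto_integral_of_dominated_convergence (fun z => ‖L (fderiv ℝ X z)‖ + g z)
      ?_ (hi.norm.add hg) ?_ ?_
    · intro n
      exact (L.continuous.comp ((hYd n).continuous_fderiv one_ne_zero)).aestronglyMeasurable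
    · intro n
      refine (ae_restrict_iff' hU.measurableSet).2 (Eventually.of_forall fun z hz => ?_)
      rw [hfd n z hz, map_add, map_smul]
      refine (norm_add_le _ _).trans (add_le_add ?_ (hb n z hz))
      rw [norm_smul, Real.norm_eq_abs]
      exact mul_le_of_le_one_left (norm_nonneg _) (hk1 n z)
    · refine (ae_restrict_iff' hU.measurableSet).2 (Eventually.of_forall fun z hz => ?_)
      refine tendsto_const_nhds.congr' ?_
      filter_upwards [hke z hz] with n hn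
      have : Y n =ᶠ[𝓝 z] X := by
        filter_upwards [hn] with w hw
        simp [hY, hw]
      rw [this.fderiv_eq]
  have h2 : Tendsto (fun n => ∫ z in U, L (fderiv ℝ (Y n) z)) atTop (𝓝 0) := by
    simp only [hzero]; exact tendsto_const_nhds
  exact tendsto_nhds_unique hlim h2

end General

section Transition

/-- the derivative of `Real.smoothTransition` is bounded. -/
theorem exists_smoothTransition_deriv_bound :
    ∃ C : ℝ, 0 < C ∧ ∀ x, |deriv Real.smoothTransition x| ≤ C := by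
  have hcont : Continuous (deriv Real.smoothTransition) :=
    (Real.smoothTransition.contDiff (n := 1)).continuous_deriv le_rfl
  obtain ⟨C, hC⟩ := (isCompact_Icc (a := (0:ℝ)) (b := 1)).exists_bound_of_continuousOn
    hcont.continuousOn
  refine ⟨max C 1, by positivity, fun x => ?_⟩
  by_cases hx : x ∈ Icc (0 : ℝ) 1
  · exact (hC x hx).trans (le_max_left _ _)
  · have h0 : deriv Real.smoothTransition x = 0 := by
      rw [mem_Icc, not_and_or, not_le, not_le] at hx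
      rcases hx with h | h
      · have : Real.smoothTransition =ᶠ[𝓝 x] fun _ => 0 := by
          filter_upwards [Iio_mem_nhds h] with y hy
          exact Real.smoothTransition.zero_of_nonpos (le_of_lt hy)
        rw [this.deriv_eq]; simp
      · have : Real.smoothTransition =ᶠ[𝓝 x] fun _ => 1 := by
          filter_upwards [Ioi_mem_nhds h] with y hy
          exact Real.smoothTransition.one_of_one_le (le_of_lt hy)
        rw [this.deriv_eq]; simp
    rw [h0]; simp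

theorem deriv_smoothTransition_of_not_mem {x : ℝ} (hx : x ∉ Ioo (0 : ℝ) 1) :
    deriv Real.smoothTransition x = 0 := by
  have hcont : Continuous (deriv Real.smoothTransition) :=
    (Real.smoothTransition.contDiff (n := 1)).continuous_deriv le_rfl
  rw [mem_Ioo, not_and_or, not_lt, not_lt] at hx
  rcases hx with h | h
  · -- closure argument
    have hz : ∀ y ∈ Iio (0:ℝ), deriv Real.smoothTransition y = 0 := by
      intro y hy
      have : Real.smoothTransition =ᶠ[𝓝 y] fun _ => 0 := by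
        filter_upwards [Iio_mem_nhds hy] with y hy
        exact Real.smoothTransition.zero_of_nonpos (le_of_lt hy)
      rw [this.deriv_eq]; simp
    have hcl : x ∈ closure (Iio (0:ℝ)) := by rw [closure_Iio]; exact h
    have hclosed : IsClosed {y | deriv Real.smoothTransition y = 0} :=
      isClosed_eq hcont continuous_const
    exact hclosed.closure_subset_iff.2 hz hcl
  · have hz : ∀ y ∈ Ioi (1:ℝ), deriv Real.smoothTransition y = 0 := by
      intro y hy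
      have : Real.smoothTransition =ᶠ[𝓝 y] fun _ => 1 := by
        filter_upwards [Ioi_mem_nhds hy] with y hy
        exact Real.smoothTransition.one_of_one_le (le_of_lt hy)
      rw [this.deriv_eq]; simp
    have hcl : x ∈ closure (Ioi (1:ℝ)) := by rw [closure_Ioi]; exact h
    have hclosed : IsClosed {y | deriv Real.smoothTransition y = 0} :=
      isClosed_eq hcont continuous_const
    exact hclosed.closure_subset_iff.2 hz hcl


theorem hasFDerivAt_cut {f : ℂ → ℝ} {f' : ℂ →L[ℝ] ℝ} {z : ℂ} (hf : HasFDerivAt f f' z) :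
    HasFDerivAt (fun w => Real.smoothTransition (f w))
      (deriv Real.smoothTransition (f z) • f') z := by
  have h1 : HasDerivAt Real.smoothTransition (deriv Real.smoothTransition (f z)) (f z) :=
    ((Real.smoothTransition.contDiff (n := 1)).differentiable one_ne_zero _).hasDerivAt
  exact h1.comp_hasFDerivAt z hf

theorem abs_smoothTransition_le (x : ℝ) : |Real.smoothTransition x| ≤ 1 := by
  rw [abs_of_nonneg (Real.smoothTransition.nonneg x)]
  exact Real.smoothTransition.le_one x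

end Transition

section HalfPlane

/-- `A ↦ A 1 + I A I` (twice the `∂̄` of the linear map). -/
noncomputable def dbarL : (ℂ →L[ℝ] ℂ) →L[ℝ] ℂ :=
  (ContinuousLinearMap.apply ℝ ℂ (1 : ℂ)) +
    (ContinuousLinearMap.mul ℝ ℂ I).comp (ContinuousLinearMap.apply ℝ ℂ (I : ℂ))

theorem dbarL_apply (A : ℂ →L[ℝ] ℂ) : dbarL A = A 1 + I * A I := rfl

theorem norm_dbarL_smulRight_le (A : ℂ →L[ℝ] ℝ) (x : ℂ) :
    ‖dbarL (A.smulRight x)‖ ≤ 2 * ‖A‖ * ‖x‖ := by
  rw [dbarL_apply]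
  simp only [ContinuousLinearMap.smulRight_apply]
  refine (norm_add_le _ _).trans ?_
  have h1 : ‖A 1 • x‖ ≤ ‖A‖ * ‖x‖ := by
    rw [norm_smul]
    refine mul_le_mul_of_nonneg_right ?_ (norm_nonneg _)
    simpa using A.le_opNorm 1
  have h2 : ‖I * (A I • x)‖ ≤ ‖A‖ * ‖x‖ := by
    rw [norm_mul, norm_I, one_mul, norm_smul]
    refine mul_le_mul_of_nonneg_right ?_ (norm_nonneg _)
    simpa using A.le_opNorm I
  linarith

/-- Stokes on the upper half plane, `∂̄` version. -/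
theorem stokes_halfplane {X : ℂ → ℂ} (hX : ContDiffOn ℝ 1 X {ξ | 0 < ξ.im})
    {g : ℂ → ℝ} (hg : IntegrableOn g {ξ : ℂ | 0 < ξ.im})
    (hb1 : ∀ ξ : ℂ, 0 < ξ.im → ‖X ξ‖ ≤ ξ.im * g ξ) (hb2 : ∀ ξ : ℂ, 0 < ξ.im → ‖X ξ‖ ≤ g ξ)
    (hi : IntegrableOn (fun ξ => fderiv ℝ X ξ 1 + I * fderiv ℝ X ξ I) {ξ : ℂ | 0 < ξ.im}) :
    ∫ ξ in {ξ : ℂ | 0 < ξ.im}, (fderiv ℝ X ξ 1 + I * fderiv ℝ X ξ I) = 0 := by
  obtain ⟨Cs, hCs, hCb⟩ := exists_smoothTransition_deriv_bound
  have hU : IsOpen {ξ : ℂ | 0 < ξ.im} := isOpen_lt continuous_const continuous_im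
  set k : ℕ → ℂ → ℝ := fun n ξ => Real.smoothTransition (((n:ℝ)+1) * ξ.im - 1) *
    Real.smoothTransition (2 - ‖ξ‖ ^ 2 / ((n:ℝ)+1) ^ 2) with hk
  have hN : ∀ n : ℕ, (0:ℝ) < (n:ℝ) + 1 := fun n => by positivity
  have hN1 : ∀ n : ℕ, (1:ℝ) ≤ (n:ℝ) + 1 := fun n => by linarith [(Nat.cast_nonneg n : (0:ℝ) ≤ n)]
  -- derivatives of the factors
  have hd1 : ∀ (n : ℕ) (ξ : ℂ), HasFDerivAt (fun ξ : ℂ => ((n:ℝ)+1) * ξ.im - 1)
      (((n:ℝ)+1) • imCLM) ξ := by
    intro n ξ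
    have := (imCLM.hasFDerivAt (x := ξ)).const_mul ((n:ℝ)+1)
    simpa using this.sub_const 1
  have hd2 : ∀ (n : ℕ) (ξ : ℂ), HasFDerivAt (fun ξ : ℂ => 2 - ‖ξ‖ ^ 2 / ((n:ℝ)+1) ^ 2)
      (-((((n:ℝ)+1) ^ 2)⁻¹ • (2 • innerSL ℝ ξ))) ξ := by
    intro n ξ
    have h := (hasStrictFDerivAt_norm_sq ξ).hasFDerivAt.const_mul ((((n:ℝ)+1) ^ 2)⁻¹)
    have h2 := h.const_sub 2
    refine h2.congr_of_eventuallyEq (Eventually.of_forall fun w => ?_)
    simp only
    ring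
  have hkd : ∀ (n : ℕ) (ξ : ℂ), HasFDerivAt (k n)
      (Real.smoothTransition (((n:ℝ)+1) * ξ.im - 1) •
          (deriv Real.smoothTransition (2 - ‖ξ‖ ^ 2 / ((n:ℝ)+1) ^ 2) •
            (-((((n:ℝ)+1) ^ 2)⁻¹ • (2 • innerSL ℝ ξ)))) +
        Real.smoothTransition (2 - ‖ξ‖ ^ 2 / ((n:ℝ)+1) ^ 2) •
          (deriv Real.smoothTransition (((n:ℝ)+1) * ξ.im - 1) • (((n:ℝ)+1) • imCLM))) ξ :=
    fun n ξ => (hasFDerivAt_cut (hd1 n ξ)).mul (hasFDerivAt_cut (hd2 n ξ))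
  have hksupp : ∀ n, tsupport (k n) ⊆
      {ξ : ℂ | 1 / ((n:ℝ)+1) ≤ ξ.im} ∩ closedBall 0 (2 * ((n:ℝ)+1)) := by
    intro n
    refine closure_minimal ?_ ((isClosed_le continuous_const continuous_im).inter isClosed_closedBall)
    intro ξ hξ
    rw [Function.mem_support] at hξ
    have h1 : 0 < ((n:ℝ)+1) * ξ.im - 1 := by
      by_contra hcon
      exact hξ (by simp only [hk]; rw [Real.smoothTransition.zero_of_nonpos (not_lt.1 hcon), zero_mul])
    have h2 : 0 < 2 - ‖ξ‖ ^ 2 / ((n:ℝ)+1) ^ 2 := by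
      by_contra hcon
      exact hξ (by simp only [hk]; rw [Real.smoothTransition.zero_of_nonpos (not_lt.1 hcon), mul_zero])
    constructor
    · rw [mem_ofPred_eq, div_le_iff₀ (hN n)]; nlinarith
    · rw [mem_closedBall_zero_iff]
      have h3 : ‖ξ‖ ^ 2 < 2 * ((n:ℝ)+1) ^ 2 := by
        have := sub_pos.1 h2
        rwa [div_lt_iff₀ (by have := hN n; positivity)] at this
      nlinarith [norm_nonneg ξ, hN n]
  refine integral_op_eq_zero (F := ℂ) (G := ℂ) hU hX dbarL (k := k) ?_ ?_ ?_ ?_ ?_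
    (g := fun ξ => 12 * Cs * g ξ) (hg.const_mul _) ?_ hi
  · intro n
    have h1 : ContDiff ℝ 1 (fun ξ : ℂ => ((n:ℝ)+1) * ξ.im - 1) :=
      (contDiff_const.mul imCLM.contDiff).sub contDiff_const
    have h2 : ContDiff ℝ 1 (fun ξ : ℂ => 2 - ‖ξ‖ ^ 2 / ((n:ℝ)+1) ^ 2) :=
      contDiff_const.sub ((contDiff_norm_sq ℝ).div_const _)
    exact ((Real.smoothTransition.contDiff (n := 1)).comp h1).mul
      ((Real.smoothTransition.contDiff (n := 1)).comp h2)
  · intro n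
    exact HasCompactSupport.of_support_subset_isCompact (isCompact_closedBall 0 (2 * ((n:ℝ)+1)))
      ((subset_tsupport _).trans ((hksupp n).trans inter_subset_right))
  · intro n ξ hξ
    have := (hksupp n hξ).1
    rw [mem_ofPred_eq] at this ⊢
    exact lt_of_lt_of_le (by have := hN n; positivity) this
  · intro n ξ
    simp only [hk]
    rw [abs_mul]
    exact mul_le_one₀ (abs_smoothTransition_le _) (abs_nonneg _) (abs_smoothTransition_le _)
  · intro ξ hξ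
    rw [mem_ofPred_eq] at hξ
    obtain ⟨N0, hN0⟩ := exists_nat_gt (max (3 / ξ.im) (‖ξ‖ + 1))
    filter_upwards [eventually_ge_atTop N0] with n hn
    have hn' : (N0:ℝ) ≤ n := by exact_mod_cast hn
    have h3 : 3 / ξ.im < (n:ℝ) + 1 := by
      have := (le_max_left (3 / ξ.im) (‖ξ‖ + 1)).trans_lt hN0
      linarith
    have h4 : ‖ξ‖ + 1 < (n:ℝ) + 1 := by
      have := (le_max_right (3 / ξ.im) (‖ξ‖ + 1)).trans_lt hN0
      linarith
    have hnear : ∀ᶠ w in 𝓝 ξ, ξ.im * (2/3) < w.im ∧ ‖w‖ < ‖ξ‖ + 1 := by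
      refine (continuous_im.continuousAt.eventually (Ioi_mem_nhds (by linarith))).and
        (continuous_norm.continuousAt.eventually (Iio_mem_nhds (by linarith)))
    filter_upwards [hnear] with w hw
    have h5 : (1:ℝ) ≤ ((n:ℝ)+1) * w.im - 1 := by
      have h6 : 3 < ((n:ℝ)+1) * ξ.im := by rwa [div_lt_iff₀ hξ] at h3
      nlinarith [hN n, hw.1]
    have h7 : (1:ℝ) ≤ 2 - ‖w‖ ^ 2 / ((n:ℝ)+1) ^ 2 := by
      have : ‖w‖ ^ 2 / ((n:ℝ)+1) ^ 2 ≤ 1 := by
        rw [div_le_one (by have := hN n; positivity)]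
        exact pow_le_pow_left₀ (norm_nonneg _) (by linarith [hw.2]) 2
      linarith
    simp only [hk]
    rw [Real.smoothTransition.one_of_one_le h5, Real.smoothTransition.one_of_one_le h7, one_mul]
  · intro n ξ hξ
    rw [mem_ofPred_eq] at hξ
    rw [(hkd n ξ).fderiv]
    refine (norm_dbarL_smulRight_le _ _).trans ?_
    set a := Real.smoothTransition (((n:ℝ)+1) * ξ.im - 1) with ha
    set b := Real.smoothTransition (2 - ‖ξ‖ ^ 2 / ((n:ℝ)+1) ^ 2) with hb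
    set a' := deriv Real.smoothTransition (((n:ℝ)+1) * ξ.im - 1) with ha'
    set b' := deriv Real.smoothTransition (2 - ‖ξ‖ ^ 2 / ((n:ℝ)+1) ^ 2) with hb'
    have e1 : ‖a • (b' • (-((((n:ℝ)+1) ^ 2)⁻¹ • (2 • innerSL ℝ ξ))))‖ ≤ 4 * Cs := by
      rw [norm_smul, norm_smul, norm_neg, norm_smul]
      have i1 : ‖(2 • innerSL ℝ ξ : ℂ →L[ℝ] ℝ)‖ ≤ 2 * ‖ξ‖ := by
        refine (norm_nsmul_le).trans ?_
        rw [innerSL_apply_norm]; norm_num
      have i2 : ‖a‖ ≤ 1 := by rw [Real.norm_eq_abs]; exact abs_smoothTransition_le _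
      have i3 : ‖b'‖ * (‖((((n:ℝ)+1) ^ 2)⁻¹)‖ * ‖(2 • innerSL ℝ ξ : ℂ →L[ℝ] ℝ)‖) ≤ 4 * Cs := by
        by_cases hcase : 2 - ‖ξ‖ ^ 2 / ((n:ℝ)+1) ^ 2 ∈ Ioo (0:ℝ) 1
        · have h3 : ‖ξ‖ ^ 2 < 2 * ((n:ℝ)+1) ^ 2 := by
            have := sub_pos.1 hcase.1
            rwa [div_lt_iff₀ (by have := hN n; positivity)] at this
          have h4 : ‖ξ‖ ≤ 2 * ((n:ℝ)+1) := by nlinarith [norm_nonneg ξ, hN n]
          have h5 : ‖((((n:ℝ)+1) ^ 2)⁻¹)‖ * ‖(2 • innerSL ℝ ξ : ℂ →L[ℝ] ℝ)‖ ≤ 4 := by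
            rw [norm_inv, Real.norm_of_nonneg (by positivity), inv_mul_le_iff₀ (by have := hN n; positivity)]
            refine i1.trans ?_
            nlinarith [hN1 n]
          calc ‖b'‖ * (‖((((n:ℝ)+1) ^ 2)⁻¹)‖ * ‖(2 • innerSL ℝ ξ : ℂ →L[ℝ] ℝ)‖)
              ≤ Cs * 4 := mul_le_mul (hCb _) h5 (by positivity) hCs.le
            _ = 4 * Cs := by ring
        · have : b' = 0 := deriv_smoothTransition_of_not_mem hcase
          rw [this]; simp; positivity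
      calc ‖a‖ * (‖b'‖ * (‖((((n:ℝ)+1) ^ 2)⁻¹)‖ * ‖(2 • innerSL ℝ ξ : ℂ →L[ℝ] ℝ)‖))
          ≤ 1 * (4 * Cs) := mul_le_mul i2 i3 (by positivity) (by norm_num)
        _ = 4 * Cs := one_mul _
    have e2 : ‖b • (a' • (((n:ℝ)+1) • imCLM))‖ * ξ.im ≤ 2 * Cs := by
      rw [norm_smul, norm_smul, norm_smul]
      have i1 : ‖(imCLM : ℂ →L[ℝ] ℝ)‖ ≤ 1 := by rw [imCLM_norm]
      have i2 : ‖b‖ ≤ 1 := by rw [Real.norm_eq_abs]; exact abs_smoothTransition_le _
      have i3 : ‖a'‖ * (‖((n:ℝ)+1)‖ * ‖(imCLM : ℂ →L[ℝ] ℝ)‖) * ξ.im ≤ 2 * Cs := by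
        by_cases hcase : ((n:ℝ)+1) * ξ.im - 1 ∈ Ioo (0:ℝ) 1
        · have h4 : ((n:ℝ)+1) * ξ.im ≤ 2 := by linarith [hcase.2]
          rw [Real.norm_of_nonneg (hN n).le]
          calc ‖a'‖ * (((n:ℝ)+1) * ‖(imCLM : ℂ →L[ℝ] ℝ)‖) * ξ.im
              = ‖a'‖ * (((n:ℝ)+1) * ξ.im) * ‖(imCLM : ℂ →L[ℝ] ℝ)‖ := by ring
            _ ≤ Cs * 2 * 1 := by
              refine mul_le_mul (mul_le_mul (hCb _) h4 ?_ hCs.le) i1 (norm_nonneg _) (by positivity)
              have := hN n; positivity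
            _ = 2 * Cs := by ring
        · have : a' = 0 := deriv_smoothTransition_of_not_mem hcase
          rw [this]; simp; positivity
      calc ‖b‖ * (‖a'‖ * (‖((n:ℝ)+1)‖ * ‖(imCLM : ℂ →L[ℝ] ℝ)‖)) * ξ.im
          = ‖b‖ * (‖a'‖ * (‖((n:ℝ)+1)‖ * ‖(imCLM : ℂ →L[ℝ] ℝ)‖) * ξ.im) := by ring
        _ ≤ 1 * (2 * Cs) := mul_le_mul i2 i3 (by positivity) (by norm_num)
        _ = 2 * Cs := one_mul _
    have hg0 : 0 ≤ g ξ := (norm_nonneg _).trans (hb2 ξ hξ)
    set A := a • (b' • (-((((n:ℝ)+1) ^ 2)⁻¹ • (2 • innerSL ℝ ξ)))) with hA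
    set B := b • (a' • (((n:ℝ)+1) • imCLM)) with hB
    have hAB : ‖A + B‖ * ‖X ξ‖ ≤ 6 * Cs * g ξ := by
      calc ‖A + B‖ * ‖X ξ‖ ≤ (‖A‖ + ‖B‖) * ‖X ξ‖ :=
            mul_le_mul_of_nonneg_right (norm_add_le _ _) (norm_nonneg _)
        _ = ‖A‖ * ‖X ξ‖ + ‖B‖ * ‖X ξ‖ := by ring
        _ ≤ (4 * Cs) * g ξ + ‖B‖ * (ξ.im * g ξ) :=
            add_le_add (mul_le_mul e1 (hb2 ξ hξ) (norm_nonneg _) (by positivity))
              (mul_le_mul_of_nonneg_left (hb1 ξ hξ) (norm_nonneg _))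
        _ = (4 * Cs) * g ξ + (‖B‖ * ξ.im) * g ξ := by ring
        _ ≤ (4 * Cs) * g ξ + (2 * Cs) * g ξ := by
            have := mul_le_mul_of_nonneg_right e2 hg0
            linarith
        _ = 6 * Cs * g ξ := by ring
    calc 2 * ‖A + B‖ * ‖X ξ‖ = 2 * (‖A + B‖ * ‖X ξ‖) := by ring
      _ ≤ 2 * (6 * Cs * g ξ) := by linarith
      _ = 12 * Cs * g ξ := by ring


theorem integrable_halfplane_decay (C : ℝ) :
    Integrable (fun ξ : ℂ => C * (1 + ‖ξ‖) ^ (-3 : ℝ)) := by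
  refine Integrable.const_mul ?_ C
  exact integrable_one_add_norm (by rw [Complex.finrank_real_complex]; norm_num)

/-- Stokes on the upper half plane for fields `O(Y (1+|ξ|)^{-4})`. -/
theorem stokes_halfplane_decay {X : ℂ → ℂ} (hX : ContDiffOn ℝ 1 X {ξ | 0 < ξ.im})
    {C : ℝ} (hb : ∀ ξ : ℂ, 0 < ξ.im → ‖X ξ‖ ≤ C * ξ.im / (1 + ‖ξ‖) ^ 4)
    (hi : IntegrableOn (fun ξ => fderiv ℝ X ξ 1 + I * fderiv ℝ X ξ I) {ξ : ℂ | 0 < ξ.im}) :
    ∫ ξ in {ξ : ℂ | 0 < ξ.im}, (fderiv ℝ X ξ 1 + I * fderiv ℝ X ξ I) = 0 := by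
  have hC : 0 ≤ C := by
    have h := (norm_nonneg _).trans (hb I (by simp))
    have h2 : (0:ℝ) < (1 + ‖I‖) ^ 4 := by positivity
    have h3 := mul_nonneg h h2.le
    rw [div_mul_cancel₀ _ h2.ne'] at h3
    simpa using h3
  have key : ∀ ξ : ℂ, (1 + ‖ξ‖) ^ (-3 : ℝ) = ((1 + ‖ξ‖) ^ 3)⁻¹ := by
    intro ξ
    have h0 : (0:ℝ) < 1 + ‖ξ‖ := by positivity
    rw [Real.rpow_neg h0.le]
    norm_cast
  refine stokes_halfplane hX (integrable_halfplane_decay C).integrableOn ?_ ?_ hi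
  · intro ξ hξ
    refine (hb ξ hξ).trans ?_
    rw [key ξ]
    have h0 : (1:ℝ) ≤ 1 + ‖ξ‖ := by linarith [norm_nonneg ξ]
    have h1 : ((1 + ‖ξ‖) ^ 4)⁻¹ ≤ ((1 + ‖ξ‖) ^ 3)⁻¹ :=
      inv_anti₀ (by positivity) (pow_le_pow_right₀ h0 (by norm_num))
    calc C * ξ.im / (1 + ‖ξ‖) ^ 4 = (C * ξ.im) * ((1 + ‖ξ‖) ^ 4)⁻¹ := by rw [div_eq_mul_inv]
      _ ≤ (C * ξ.im) * ((1 + ‖ξ‖) ^ 3)⁻¹ := mul_le_mul_of_nonneg_left h1 (by positivity)
      _ = ξ.im * (C * ((1 + ‖ξ‖) ^ 3)⁻¹) := by ring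
  · intro ξ hξ
    refine (hb ξ hξ).trans ?_
    rw [key ξ, div_le_iff₀ (by positivity)]
    have h0 : (0:ℝ) < 1 + ‖ξ‖ := by positivity
    have h1 : ξ.im ≤ 1 + ‖ξ‖ := by
      have := (le_abs_self ξ.im).trans (abs_im_le_norm ξ)
      linarith
    have h2 : C * ((1 + ‖ξ‖) ^ 3)⁻¹ * (1 + ‖ξ‖) ^ 4 = C * (1 + ‖ξ‖) := by
      field_simp
    rw [h2]
    exact mul_le_mul_of_nonneg_left h1 hC

end HalfPlane

section Disc

/-- `A ↦ (A 1).1 + (A I).2`, the divergence. -/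
noncomputable def divL : (ℂ →L[ℝ] ℝ × ℝ) →L[ℝ] ℝ :=
  (ContinuousLinearMap.fst ℝ ℝ ℝ).comp (ContinuousLinearMap.apply ℝ (ℝ × ℝ) (1 : ℂ)) +
    (ContinuousLinearMap.snd ℝ ℝ ℝ).comp (ContinuousLinearMap.apply ℝ (ℝ × ℝ) (I : ℂ))

theorem divL_apply (A : ℂ →L[ℝ] ℝ × ℝ) : divL A = (A 1).1 + (A I).2 := rfl

set_option maxHeartbeats 1000000 in
/-- Stokes on the punctured unit disc for fields with controlled radial component. -/
theorem stokes_disc {X1 X2 : ℂ → ℝ} (h1 : ContDiffOn ℝ 1 X1 (ball 0 1 \ {0}))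
    (h2 : ContDiffOn ℝ 1 X2 (ball 0 1 \ {0}))
    {g : ℂ → ℝ} (hg : IntegrableOn g (ball (0 : ℂ) 1))
    (hb : ∀ z : ℂ, z ∈ ball (0 : ℂ) 1 → z ≠ 0 →
      |X1 z * z.re + X2 z * z.im| ≤ (1 - ‖z‖) * ‖z‖ ^ 2 * g z)
    (hi : IntegrableOn (fun z => dx X1 z + dy X2 z) (ball (0 : ℂ) 1)) :
    ∫ z in ball (0 : ℂ) 1, (dx X1 z + dy X2 z) = 0 := by
  obtain ⟨Cs, hCs, hCb⟩ := exists_smoothTransition_deriv_bound
  set U : Set ℂ := ball 0 1 \ {0} with hUdef
  have hU : IsOpen U := isOpen_ball.sdiff isClosed_singleton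
  have hUae : U =ᵐ[volume] ball (0:ℂ) 1 := by
    exact sdiff_ae_eq_self.2 (measure_mono_null inter_subset_right (by simp))
  have hN : ∀ n : ℕ, (0:ℝ) < (n:ℝ) + 1 := fun n => by positivity
  -- the field
  set X : ℂ → ℝ × ℝ := fun z => (X1 z, X2 z) with hXdef
  have hX : ContDiffOn ℝ 1 X U := h1.prodMk h2
  have hXd : ∀ z ∈ U, divL (fderiv ℝ X z) = dx X1 z + dy X2 z := by
    intro z hz
    have d1 : DifferentiableAt ℝ X1 z :=
      (h1.contDiffAt (hU.mem_nhds hz)).differentiableAt (by simp)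
    have d2 : DifferentiableAt ℝ X2 z :=
      (h2.contDiffAt (hU.mem_nhds hz)).differentiableAt (by simp)
    have : fderiv ℝ X z = (fderiv ℝ X1 z).prod (fderiv ℝ X2 z) :=
      (d1.hasFDerivAt.prodMk d2.hasFDerivAt).fderiv
    rw [this, divL_apply]
    rfl
  set k : ℕ → ℂ → ℝ := fun n z => Real.smoothTransition (((n:ℝ)+1) * (1 - ‖z‖ ^ 2) - 1) *
    Real.smoothTransition (((n:ℝ)+1) * ‖z‖ ^ 2 - 1) with hk
  have hd1 : ∀ (n : ℕ) (z : ℂ), HasFDerivAt (fun z : ℂ => ((n:ℝ)+1) * (1 - ‖z‖ ^ 2) - 1)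
      (-(((n:ℝ)+1) • ((2:ℕ) • (innerSL ℝ z : ℂ →L[ℝ] ℝ)))) z := by
    intro n z
    have h := (((hasStrictFDerivAt_norm_sq z).hasFDerivAt.const_mul ((n:ℝ)+1)).const_sub
      ((n:ℝ)+1)).sub_const 1
    refine h.congr_of_eventuallyEq (Eventually.of_forall fun w => ?_)
    simp only
    ring
  have hd2 : ∀ (n : ℕ) (z : ℂ), HasFDerivAt (fun z : ℂ => ((n:ℝ)+1) * ‖z‖ ^ 2 - 1)
      (((n:ℝ)+1) • ((2:ℕ) • (innerSL ℝ z : ℂ →L[ℝ] ℝ))) z := by
    intro n z
    exact ((hasStrictFDerivAt_norm_sq z).hasFDerivAt.const_mul ((n:ℝ)+1)).sub_const 1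
  have hkd : ∀ (n : ℕ) (z : ℂ), HasFDerivAt (k n)
      (Real.smoothTransition (((n:ℝ)+1) * (1 - ‖z‖ ^ 2) - 1) •
          (deriv Real.smoothTransition (((n:ℝ)+1) * ‖z‖ ^ 2 - 1) •
            (((n:ℝ)+1) • ((2:ℕ) • (innerSL ℝ z : ℂ →L[ℝ] ℝ)))) +
        Real.smoothTransition (((n:ℝ)+1) * ‖z‖ ^ 2 - 1) •
          (deriv Real.smoothTransition (((n:ℝ)+1) * (1 - ‖z‖ ^ 2) - 1) •
            (-(((n:ℝ)+1) • ((2:ℕ) • (innerSL ℝ z : ℂ →L[ℝ] ℝ)))))) z :=
    fun n z => (hasFDerivAt_cut (hd1 n z)).mul (hasFDerivAt_cut (hd2 n z))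
  have hksupp : ∀ n, tsupport (k n) ⊆
      {z : ℂ | 1 / ((n:ℝ)+1) ≤ ‖z‖ ^ 2} ∩ {z : ℂ | 1 / ((n:ℝ)+1) ≤ 1 - ‖z‖ ^ 2} := by
    intro n
    refine closure_minimal ?_ ((isClosed_le continuous_const (by fun_prop)).inter
      (isClosed_le continuous_const (by fun_prop)))
    intro z hz
    rw [Function.mem_support] at hz
    have e1 : 0 < ((n:ℝ)+1) * (1 - ‖z‖ ^ 2) - 1 := by
      by_contra hcon
      exact hz (by simp only [hk]; rw [Real.smoothTransition.zero_of_nonpos (not_lt.1 hcon), zero_mul])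
    have e2 : 0 < ((n:ℝ)+1) * ‖z‖ ^ 2 - 1 := by
      by_contra hcon
      exact hz (by simp only [hk]; rw [Real.smoothTransition.zero_of_nonpos (not_lt.1 hcon), mul_zero])
    constructor
    · rw [mem_ofPred_eq, div_le_iff₀ (hN n)]; nlinarith
    · rw [mem_ofPred_eq, div_le_iff₀ (hN n)]; nlinarith
  have hksub : ∀ n, tsupport (k n) ⊆ U := by
    intro n z hz
    obtain ⟨a1, a2⟩ := hksupp n hz
    rw [mem_ofPred_eq] at a1 a2
    have hp : 0 < 1 / ((n:ℝ)+1) := by have := hN n; positivity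
    refine ⟨?_, ?_⟩
    · rw [mem_ball_zero_iff]
      nlinarith [norm_nonneg z]
    · intro h
      rw [mem_singleton_iff] at h
      rw [h] at a1
      simp at a1
      linarith [hN n]
  have hres := integral_op_eq_zero (F := ℝ × ℝ) (G := ℝ) hU hX divL (k := k)
    (g := fun z => 8 * Cs * g z) ?_ ?_ hksub ?_ ?_
    ((hg.mono_set sdiff_subset).const_mul _) ?_ ?_
  · rw [← setIntegral_congr_set hUae, ← hres]
    exact setIntegral_congr_fun hU.measurableSet fun z hz => (hXd z hz).symm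
  · intro n
    have c1 : ContDiff ℝ 1 (fun z : ℂ => ((n:ℝ)+1) * (1 - ‖z‖ ^ 2) - 1) :=
      (contDiff_const.mul (contDiff_const.sub (contDiff_norm_sq ℝ))).sub contDiff_const
    have c2 : ContDiff ℝ 1 (fun z : ℂ => ((n:ℝ)+1) * ‖z‖ ^ 2 - 1) :=
      (contDiff_const.mul (contDiff_norm_sq ℝ)).sub contDiff_const
    exact ((Real.smoothTransition.contDiff (n := 1)).comp c1).mul
      ((Real.smoothTransition.contDiff (n := 1)).comp c2)
  · intro n
    refine HasCompactSupport.of_support_subset_isCompact (isCompact_closedBall (0:ℂ) 1)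
      ((subset_tsupport _).trans ((hksub n).trans (sdiff_subset.trans ball_subset_closedBall)))
  · intro n z
    simp only [hk]
    rw [abs_mul]
    exact mul_le_one₀ (abs_smoothTransition_le _) (abs_nonneg _) (abs_smoothTransition_le _)
  · intro z hz
    have hz1 : ‖z‖ < 1 := mem_ball_zero_iff.1 hz.1
    have hz0 : 0 < ‖z‖ := norm_pos_iff.2 hz.2
    have hq : 0 < 1 - ‖z‖ ^ 2 := by nlinarith
    have hq2 : 0 < ‖z‖ ^ 2 := by positivity
    obtain ⟨N0, hN0⟩ := exists_nat_gt (max (3 / (1 - ‖z‖ ^ 2)) (3 / ‖z‖ ^ 2))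
    filter_upwards [eventually_ge_atTop N0] with n hn
    have hn' : (N0:ℝ) ≤ n := by exact_mod_cast hn
    have h3 : 3 / (1 - ‖z‖ ^ 2) < (n:ℝ) + 1 := by
      have := (le_max_left (3 / (1 - ‖z‖ ^ 2)) (3 / ‖z‖ ^ 2)).trans_lt hN0
      linarith
    have h4 : 3 / ‖z‖ ^ 2 < (n:ℝ) + 1 := by
      have := (le_max_right (3 / (1 - ‖z‖ ^ 2)) (3 / ‖z‖ ^ 2)).trans_lt hN0
      linarith
    rw [div_lt_iff₀ hq] at h3
    rw [div_lt_iff₀ hq2] at h4
    have hnear : ∀ᶠ w in 𝓝 z, (1 - ‖z‖ ^ 2) * (2/3) < 1 - ‖w‖ ^ 2 ∧ ‖z‖ ^ 2 * (2/3) < ‖w‖ ^ 2 := by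
      have c1 : Continuous (fun w : ℂ => 1 - ‖w‖ ^ 2) := by fun_prop
      have c2 : Continuous (fun w : ℂ => ‖w‖ ^ 2) := by fun_prop
      exact (c1.continuousAt.eventually (Ioi_mem_nhds (by linarith))).and
        (c2.continuousAt.eventually (Ioi_mem_nhds (by linarith)))
    filter_upwards [hnear] with w hw
    have h5 : (1:ℝ) ≤ ((n:ℝ)+1) * (1 - ‖w‖ ^ 2) - 1 := by nlinarith [hN n, hw.1]
    have h7 : (1:ℝ) ≤ ((n:ℝ)+1) * ‖w‖ ^ 2 - 1 := by nlinarith [hN n, hw.2]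
    simp only [hk]
    rw [Real.smoothTransition.one_of_one_le h5, Real.smoothTransition.one_of_one_le h7, one_mul]
  · intro n z hz
    have hz1 : ‖z‖ < 1 := mem_ball_zero_iff.1 hz.1
    have hz0 : 0 < ‖z‖ := norm_pos_iff.2 hz.2
    have hbz := hb z hz.1 hz.2
    rw [(hkd n z).fderiv]
    set a := Real.smoothTransition (((n:ℝ)+1) * (1 - ‖z‖ ^ 2) - 1) with ha
    set b := Real.smoothTransition (((n:ℝ)+1) * ‖z‖ ^ 2 - 1) with hb
    set a' := deriv Real.smoothTransition (((n:ℝ)+1) * (1 - ‖z‖ ^ 2) - 1) with ha'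
    set b' := deriv Real.smoothTransition (((n:ℝ)+1) * ‖z‖ ^ 2 - 1) with hb'
    have hin1 : innerSL ℝ z (1:ℂ) = z.re := by simp [innerSL_apply_apply, Complex.inner]
    have hin2 : innerSL ℝ z (I:ℂ) = z.im := by simp [innerSL_apply_apply, Complex.inner]
    have hval : divL ((a • (b' • (((n:ℝ)+1) • ((2:ℕ) • (innerSL ℝ z : ℂ →L[ℝ] ℝ)))) +
        b • (a' • (-(((n:ℝ)+1) • ((2:ℕ) • (innerSL ℝ z : ℂ →L[ℝ] ℝ)))))).smulRight (X z)) =
        (a * b' - b * a') * (2 * ((n:ℝ)+1)) * (X1 z * z.re + X2 z * z.im) := by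
      rw [divL_apply]
      simp only [ContinuousLinearMap.smulRight_apply, add_apply,
        smul_apply, neg_apply, hin1, hin2, hXdef,
        Prod.smul_mk, smul_eq_mul, nsmul_eq_mul]
      push_cast
      ring
    rw [hval, Real.norm_eq_abs, abs_mul, abs_mul, abs_of_pos (by have := hN n; positivity : (0:ℝ) < 2 * ((n:ℝ)+1))]
    have hr0 : 0 ≤ |X1 z * z.re + X2 z * z.im| := abs_nonneg _
    have hg0 : 0 ≤ g z := by
      by_contra hcon
      push Not at hcon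
      have : (1 - ‖z‖) * ‖z‖ ^ 2 * g z < 0 :=
        mul_neg_of_pos_of_neg (mul_pos (by linarith) (by positivity)) hcon
      linarith
    -- the two derivative terms
    have t1 : |b'| * (((n:ℝ)+1) * ‖z‖ ^ 2) ≤ 2 * Cs := by
      by_cases hcase : ((n:ℝ)+1) * ‖z‖ ^ 2 - 1 ∈ Ioo (0:ℝ) 1
      · have h4 : ((n:ℝ)+1) * ‖z‖ ^ 2 ≤ 2 := by linarith [hcase.2]
        calc |b'| * (((n:ℝ)+1) * ‖z‖ ^ 2) ≤ Cs * 2 :=
              mul_le_mul (hCb _) h4 (by have := hN n; positivity) hCs.le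
          _ = 2 * Cs := by ring
      · have : b' = 0 := deriv_smoothTransition_of_not_mem hcase
        rw [this]; simp; positivity
    have t2 : |a'| * (((n:ℝ)+1) * (1 - ‖z‖)) ≤ 2 * Cs := by
      by_cases hcase : ((n:ℝ)+1) * (1 - ‖z‖ ^ 2) - 1 ∈ Ioo (0:ℝ) 1
      · have h4 : ((n:ℝ)+1) * (1 - ‖z‖) ≤ 2 := by
          have h5 : ((n:ℝ)+1) * (1 - ‖z‖ ^ 2) < 2 := by linarith [hcase.2]
          have h6 : 1 - ‖z‖ ≤ 1 - ‖z‖ ^ 2 := by nlinarith
          nlinarith [hN n]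
        calc |a'| * (((n:ℝ)+1) * (1 - ‖z‖)) ≤ Cs * 2 :=
              mul_le_mul (hCb _) h4 (mul_nonneg (hN n).le (by linarith)) hCs.le
          _ = 2 * Cs := by ring
      · have : a' = 0 := deriv_smoothTransition_of_not_mem hcase
        rw [this]; simp; positivity
    have hab : |a * b' - b * a'| ≤ |b'| + |a'| := by
      calc |a * b' - b * a'| ≤ |a * b'| + |b * a'| := abs_sub _ _
        _ = |a| * |b'| + |b| * |a'| := by rw [abs_mul, abs_mul]
        _ ≤ 1 * |b'| + 1 * |a'| := add_le_add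
            (mul_le_mul_of_nonneg_right (abs_smoothTransition_le _) (abs_nonneg _))
            (mul_le_mul_of_nonneg_right (abs_smoothTransition_le _) (abs_nonneg _))
        _ = |b'| + |a'| := by ring
    have hz1' : 0 ≤ 1 - ‖z‖ := by linarith
    calc |a * b' - b * a'| * (2 * ((n:ℝ)+1)) * |X1 z * z.re + X2 z * z.im|
        ≤ (|b'| + |a'|) * (2 * ((n:ℝ)+1)) * ((1 - ‖z‖) * ‖z‖ ^ 2 * g z) := by
          refine mul_le_mul (mul_le_mul_of_nonneg_right hab ?_) hbz hr0 ?_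
          · have := hN n; positivity
          · have := hN n; positivity
      _ = 2 * ((|b'| * (((n:ℝ)+1) * ‖z‖ ^ 2)) * (1 - ‖z‖) +
            (|a'| * (((n:ℝ)+1) * (1 - ‖z‖))) * ‖z‖ ^ 2) * g z := by ring
      _ ≤ 2 * ((2 * Cs) * 1 + (2 * Cs) * 1) * g z := by
          refine mul_le_mul_of_nonneg_right ?_ hg0
          refine mul_le_mul_of_nonneg_left (add_le_add ?_ ?_) (by norm_num)
          · exact mul_le_mul t1 (by linarith) hz1' (by positivity)
          · exact mul_le_mul t2 (by nlinarith) (by positivity) (by positivity)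
      _ = 8 * Cs * g z := by ring
  · refine IntegrableOn.congr_fun (hi.mono_set sdiff_subset) (fun z hz => (hXd z hz).symm)
      hU.measurableSet

end Disc

end Crest.Agent.R101
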