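import Crest.Agent.R101.Defs

/-! Row 101: `μ * |Ω| ≤ 4 π` (tests `Re (φ - c)`, `Im (φ - c)` and bathtub principle). -/

set_option autoImplicit false

open MeasureTheory Metric Set Complex ComplexConjugate

namespace Crest.Agent.R101

namespace TrArea

theorem hasDerivAt_of {φ : ℂ → ℂ} (hφ : Conf φ) {z : ℂ} (hz : z ∈ ball (0 : ℂ) 1) :
    HasDerivAt φ (deriv φ z) z :=
  (hφ.holo.differentiableAt (isOpen_ball.mem_nhds hz)).hasDerivAt

theorem cov {φ : ℂ → ℂ} (hφ : Conf φ) (g : ℂ → ℝ) :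
    ∫ w in φ '' ball 0 1, g w = ∫ z in ball (0 : ℂ) 1, rho φ z * g (φ z) := by
  rw [integral_image_eq_integral_abs_det_fderiv_smul volume measurableSet_ball
    (fun z hz => ((hasDerivAt_of hφ hz).hasFDerivAt.restrictScalars ℝ).hasFDerivWithinAt) hφ.inj]
  apply setIntegral_congr_fun measurableSet_ball
  intro z _
  simp [ContinuousLinearMap.det, LinearMap.det_restrictScalars, Algebra.norm_complex_eq,
    Complex.normSq_eq_norm_sq, rho]

theorem int_disc (r : ℝ) (hr : 0 ≤ r) :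
    ∫ w : ℂ, max (r ^ 2 - ‖w‖ ^ 2) 0 = Real.pi * r ^ 4 / 2 := by
  rw [integral_fun_norm_addHaar volume (fun y : ℝ => max (r ^ 2 - y ^ 2) 0)]
  have h1 : ∫ y in Ioi (0 : ℝ), y ^ (Module.finrank ℝ ℂ - 1) • max (r ^ 2 - y ^ 2) 0 = r ^ 4 / 4 := by
    rw [Complex.finrank_real_complex]
    have h2 : ∫ y in Ioi (0 : ℝ), y ^ (2 - 1) • max (r ^ 2 - y ^ 2) 0 =
        ∫ y in Ioc (0 : ℝ) r, y * (r ^ 2 - y ^ 2) := by
      rw [← integral_indicator measurableSet_Ioi, ← integral_indicator measurableSet_Ioc]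
      congr 1
      ext y
      by_cases hy : 0 < y
      · by_cases hyr : y ≤ r
        · rw [indicator_of_mem (by exact hy), indicator_of_mem (by exact ⟨hy, hyr⟩)]
          rw [max_eq_left (by nlinarith)]
          simp
        · rw [indicator_of_mem (by exact hy), indicator_of_notMem (by intro h; exact hyr h.2)]
          rw [max_eq_right (by push Not at hyr; nlinarith)]
          simp
      · rw [indicator_of_notMem (by exact hy), indicator_of_notMem (by intro h; exact hy h.1)]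
    rw [h2, ← intervalIntegral.integral_of_le hr]
    have h3 : ∫ y in (0 : ℝ)..r, y * (r ^ 2 - y ^ 2) =
        (fun y : ℝ => r ^ 2 * y ^ 2 / 2 - y ^ 4 / 4) r -
        (fun y : ℝ => r ^ 2 * y ^ 2 / 2 - y ^ 4 / 4) 0 := by
      apply intervalIntegral.integral_eq_sub_of_hasDerivAt
        (f := fun y : ℝ => r ^ 2 * y ^ 2 / 2 - y ^ 4 / 4)
      · intro x _
        have h4 := (((hasDerivAt_pow 2 x).const_mul (r ^ 2)).div_const 2).sub
          ((hasDerivAt_pow 4 x).div_const 4)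
        have h5 : r ^ 2 * (((2 : ℕ) : ℝ) * x ^ (2 - 1)) / 2 - ((4 : ℕ) : ℝ) * x ^ (4 - 1) / 4 =
            x * (r ^ 2 - x ^ 2) := by
          norm_num
          ring
        rw [h5] at h4
        exact h4
      · exact (by fun_prop : Continuous fun y : ℝ => y * (r ^ 2 - y ^ 2)).intervalIntegrable _ _
    rw [h3]
    ring
  rw [h1, Complex.finrank_real_complex]
  simp only [measureReal_def, Complex.volume_ball]
  simp
  ring

theorem image_subset {φ : ℂ → ℂ} (hφ : Conf φ) :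
    ∃ C : ℝ, φ '' ball 0 1 ⊆ closedBall 0 C := by
  obtain ⟨C, hC⟩ := hφ.bdd
  refine ⟨C, ?_⟩
  rintro _ ⟨z, hz, rfl⟩
  simpa using hC z hz

theorem measurable_rho {φ : ℂ → ℂ} : Measurable (rho φ) := by
  unfold rho
  exact ((measurable_deriv φ).norm).pow_const 2

theorem contOn {φ : ℂ → ℂ} (hφ : Conf φ) : ContinuousOn φ (ball 0 1) := hφ.holo.continuousOn

theorem int_rho_mul {φ : ℂ → ℂ} (hφ : Conf φ) {f : ℂ → ℝ} (hf : ContinuousOn f (ball 0 1))
    {C : ℝ} (hC : ∀ z ∈ ball (0 : ℂ) 1, |f z| ≤ C) :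
    IntegrableOn (fun z => rho φ z * f z) (ball 0 1) := by
  apply Integrable.mul_bdd (c := C) hφ.rho_int (hf.aestronglyMeasurable measurableSet_ball)
  rw [ae_restrict_iff' measurableSet_ball]
  exact Filter.Eventually.of_forall fun z hz => by simpa using hC z hz

/-- bathtub -/
theorem bathtub {φ : ℂ → ℂ} (hφ : Conf φ) (c : ℂ) {r : ℝ} (hr : 0 ≤ r) :
    r ^ 2 * (∫ z in ball (0 : ℂ) 1, rho φ z) - Real.pi * r ^ 4 / 2 ≤
      ∫ z in ball (0 : ℂ) 1, rho φ z * ‖φ z - c‖ ^ 2 := by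
  obtain ⟨C, hC⟩ := hφ.bdd
  have i1 : IntegrableOn (fun z => rho φ z * ‖φ z - c‖ ^ 2) (ball 0 1) := by
    apply int_rho_mul hφ (((contOn hφ).sub continuousOn_const).norm.pow 2) (C := (C + ‖c‖) ^ 2)
    intro z hz
    have h1 := hC z hz
    have h2 : ‖φ z - c‖ ≤ C + ‖c‖ := (norm_sub_le _ _).trans (by linarith)
    show |‖φ z - c‖ ^ 2| ≤ _
    rw [abs_of_nonneg (sq_nonneg _)]
    exact pow_le_pow_left₀ (norm_nonneg _) h2 2
  have i2 : IntegrableOn (fun z => rho φ z * r ^ 2) (ball 0 1) := hφ.rho_int.mul_const _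
  have e1 : (∫ z in ball (0 : ℂ) 1, rho φ z * ‖φ z - c‖ ^ 2) -
      r ^ 2 * (∫ z in ball (0 : ℂ) 1, rho φ z) =
      ∫ w in φ '' ball 0 1, (‖w - c‖ ^ 2 - r ^ 2) := by
    rw [cov hφ (fun w => ‖w - c‖ ^ 2 - r ^ 2)]
    simp_rw [mul_sub]
    rw [integral_sub i1 i2, integral_mul_const]
    ring
  have e2 : ∫ w : ℂ, max (r ^ 2 - ‖w - c‖ ^ 2) 0 = Real.pi * r ^ 4 / 2 := by
    rw [integral_sub_right_eq_self (fun w : ℂ => max (r ^ 2 - ‖w‖ ^ 2) 0) c, int_disc r hr]
  have i3 : Integrable (fun w : ℂ => max (r ^ 2 - ‖w - c‖ ^ 2) 0) := by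
    apply Continuous.integrable_of_hasCompactSupport (by fun_prop)
    apply HasCompactSupport.of_support_subset_isCompact (isCompact_closedBall c r)
    intro w hw
    simp only [Function.mem_support, ne_eq] at hw
    rw [mem_closedBall, dist_eq_norm]
    by_contra h
    push Not at h
    apply hw
    rw [max_eq_right]
    nlinarith [norm_nonneg (w - c)]
  have i4 : IntegrableOn (fun w => ‖w - c‖ ^ 2 - r ^ 2) (φ '' ball 0 1) := by
    obtain ⟨K, hK⟩ := image_subset hφ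
    apply IntegrableOn.mono_set _ hK
    apply ContinuousOn.integrableOn_compact (isCompact_closedBall 0 K)
    fun_prop
  have h5 : ∫ w in φ '' ball 0 1, -(‖w - c‖ ^ 2 - r ^ 2) ≤
      ∫ w in φ '' ball 0 1, max (r ^ 2 - ‖w - c‖ ^ 2) 0 := by
    apply integral_mono i4.neg i3.integrableOn
    intro w
    show -(‖w - c‖ ^ 2 - r ^ 2) ≤ _
    rw [neg_sub]
    exact le_max_left _ _
  have h6 : ∫ w in φ '' ball 0 1, max (r ^ 2 - ‖w - c‖ ^ 2) 0 ≤
      ∫ w : ℂ, max (r ^ 2 - ‖w - c‖ ^ 2) 0 :=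
    setIntegral_le_integral i3 (Filter.Eventually.of_forall fun w => le_max_right _ _)
  rw [integral_neg] at h5
  linarith

theorem fd_re {φ : ℂ → ℂ} (hφ : Conf φ) (c : ℂ) {z : ℂ} (hz : z ∈ ball (0 : ℂ) 1) :
    g2 (fun z => (φ z - c).re) z = rho φ z ∧ g2 (fun z => (φ z - c).im) z = rho φ z := by
  have h1 : HasFDerivAt (fun z => φ z - c)
      ((ContinuousLinearMap.toSpanSingleton ℂ (deriv φ z)).restrictScalars ℝ) z :=
    (((hasDerivAt_of hφ hz).sub_const c).hasFDerivAt).restrictScalars ℝ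
  have h2 : HasFDerivAt (fun z => (φ z - c).re) (reCLM ∘L
      ((ContinuousLinearMap.toSpanSingleton ℂ (deriv φ z)).restrictScalars ℝ)) z :=
    reCLM.hasFDerivAt.comp z h1
  have h3 : HasFDerivAt (fun z => (φ z - c).im) (imCLM ∘L
      ((ContinuousLinearMap.toSpanSingleton ℂ (deriv φ z)).restrictScalars ℝ)) z :=
    imCLM.hasFDerivAt.comp z h1
  have h4 : ‖deriv φ z‖ ^ 2 = (deriv φ z).re * (deriv φ z).re + (deriv φ z).im * (deriv φ z).im := by
    rw [← Complex.normSq_eq_norm_sq, Complex.normSq_apply]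
  constructor
  · simp only [g2, dx, dy, h2.fderiv, rho]
    simp
    rw [h4]
    ring
  · simp only [g2, dx, dy, h3.fderiv, rho]
    simp
    rw [h4]
    ring

theorem adm_re {φ : ℂ → ℂ} (hφ : Conf φ) (c : ℂ) :
    Adm φ (fun z => (φ z - c).re) ∧ Adm φ (fun z => (φ z - c).im) := by
  obtain ⟨C, hC⟩ := hφ.bdd
  have hc : ContDiffOn ℝ 1 (fun z => φ z - c) (ball 0 1) :=
    ((hφ.holo.contDiffOn isOpen_ball).restrict_scalars ℝ).sub contDiffOn_const
  have hb : ∀ z ∈ ball (0 : ℂ) 1, ‖φ z - c‖ ≤ C + ‖c‖ := fun z hz =>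
    (norm_sub_le _ _).trans (by linarith [hC z hz])
  refine ⟨⟨?_, ?_, ?_⟩, ⟨?_, ?_, ?_⟩⟩
  · exact reCLM.contDiff.comp_contDiffOn hc
  · refine int_rho_mul hφ (f := fun z => (φ z - c).re ^ 2)
      ((continuous_re.comp_continuousOn hc.continuousOn).pow 2) (C := (C + ‖c‖) ^ 2) ?_
    · intro z hz
      rw [abs_of_nonneg (sq_nonneg _), ← sq_abs]
      exact pow_le_pow_left₀ (abs_nonneg _) ((abs_re_le_norm _).trans (hb z hz)) 2
  · apply hφ.rho_int.congr_fun _ measurableSet_ball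
    intro z hz
    exact (fd_re hφ c hz).1.symm
  · exact imCLM.contDiff.comp_contDiffOn hc
  · refine int_rho_mul hφ (f := fun z => (φ z - c).im ^ 2)
      ((continuous_im.comp_continuousOn hc.continuousOn).pow 2) (C := (C + ‖c‖) ^ 2) ?_
    · intro z hz
      rw [abs_of_nonneg (sq_nonneg _), ← sq_abs]
      exact pow_le_pow_left₀ (abs_nonneg _) ((abs_im_le_norm _).trans (hb z hz)) 2
  · apply hφ.rho_int.congr_fun _ measurableSet_ball
    intro z hz
    exact (fd_re hφ c hz).2.symm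

end TrArea

open TrArea

/-- `μ |Ω| ≤ 4 π`. -/
theorem mu_area_le {φ : ℂ → ℂ} {U : ℂ → ℝ} {μ : ℝ} (h : Setting φ U μ) :
    μ * ∫ z in ball (0 : ℂ) 1, rho φ z ≤ 4 * Real.pi := by
  have hφ := h.conf
  obtain ⟨C, hC⟩ := hφ.bdd
  set A : ℝ := ∫ z in ball (0 : ℂ) 1, rho φ z with hA
  have hA0 : 0 ≤ A := integral_nonneg fun z => by unfold rho; positivity
  rcases hA0.eq_or_lt with h0 | hApos
  · rw [← h0]
    simp only [mul_zero]
    positivity
  let c : ℂ := ⟨(∫ z in ball (0 : ℂ) 1, rho φ z * (φ z).re) / A,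
    (∫ z in ball (0 : ℂ) 1, rho φ z * (φ z).im) / A⟩
  have ire : IntegrableOn (fun z => rho φ z * (φ z).re) (ball 0 1) :=
    int_rho_mul hφ (continuous_re.comp_continuousOn (contOn hφ)) (C := C)
      fun z hz => (abs_re_le_norm _).trans (hC z hz)
  have iim : IntegrableOn (fun z => rho φ z * (φ z).im) (ball 0 1) :=
    int_rho_mul hφ (continuous_im.comp_continuousOn (contOn hφ)) (C := C)
      fun z hz => (abs_im_le_norm _).trans (hC z hz)
  have m1 : ∫ z in ball (0 : ℂ) 1, rho φ z * (φ z - c).re = 0 := by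
    have e : ∀ z, rho φ z * (φ z - c).re = rho φ z * (φ z).re - rho φ z * c.re := fun z => by
      rw [sub_re]; ring
    simp_rw [e]
    rw [integral_sub ire (hφ.rho_int.mul_const _), integral_mul_const, ← hA]
    simp only [c]
    field_simp
    ring
  have m2 : ∫ z in ball (0 : ℂ) 1, rho φ z * (φ z - c).im = 0 := by
    have e : ∀ z, rho φ z * (φ z - c).im = rho φ z * (φ z).im - rho φ z * c.im := fun z => by
      rw [sub_im]; ring
    simp_rw [e]
    rw [integral_sub iim (hφ.rho_int.mul_const _), integral_mul_const, ← hA]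
    simp only [c]
    field_simp
    ring
  obtain ⟨a1, a2⟩ := adm_re hφ c
  have r1 := h.ray _ a1 m1
  have r2 := h.ray _ a2 m2
  rw [setIntegral_congr_fun measurableSet_ball fun z hz => (fd_re hφ c hz).1, ← hA] at r1
  rw [setIntegral_congr_fun measurableSet_ball fun z hz => (fd_re hφ c hz).2, ← hA] at r2
  have hT : ∫ z in ball (0 : ℂ) 1, rho φ z * ‖φ z - c‖ ^ 2 =
      (∫ z in ball (0 : ℂ) 1, rho φ z * (φ z - c).re ^ 2) +
      ∫ z in ball (0 : ℂ) 1, rho φ z * (φ z - c).im ^ 2 := by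
    rw [← integral_add a1.l2 a2.l2]
    congr 1
    ext z
    rw [← Complex.normSq_eq_norm_sq, Complex.normSq_apply]
    ring
  have hs : 0 ≤ A / Real.pi := by positivity
  have hb := bathtub hφ c (Real.sqrt_nonneg (A / Real.pi))
  have e4 : Real.sqrt (A / Real.pi) ^ 4 = (A / Real.pi) ^ 2 := by
    rw [show (4 : ℕ) = 2 * 2 from rfl, pow_mul, Real.sq_sqrt hs]
  rw [← hA, Real.sq_sqrt hs, e4, hT] at hb
  have hpi := Real.pi_pos
  have e5 : A / Real.pi * A - Real.pi * (A / Real.pi) ^ 2 / 2 = A ^ 2 / (2 * Real.pi) := by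
    field_simp
    ring
  rw [e5] at hb
  have hμ := h.μpos
  have h7 : μ * (A ^ 2 / (2 * Real.pi)) ≤ 2 * A := by nlinarith
  have h8 : μ * A ^ 2 ≤ 4 * Real.pi * A := by
    have : μ * (A ^ 2 / (2 * Real.pi)) = μ * A ^ 2 / (2 * Real.pi) := by ring
    rw [this, div_le_iff₀ (by positivity)] at h7
    linarith
  nlinarith

end Crest.Agent.R101
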