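import Crest.Agent.R101.Defs
import Crest.Agent.R101.EnergyA

/-! Row 101, second proof of the last step (helper96, note 5509), piece (c):
integration by parts `∫ ∇W·∇V = - ∫ W ΔV` for `V = (1-|z|²)² |φ/z|²`. -/

set_option autoImplicit false

open MeasureTheory Metric Set Complex ComplexConjugate Filter Topology

namespace Crest.Agent.R101

namespace TrIbp

/-- `f` has real derivative `v ↦ a v + b conj v` at `z` (Wirtinger derivatives `a`, `b`). -/
def HasW (f : ℂ → ℂ) (a b z : ℂ) : Prop :=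
  HasFDerivAt f (a • (ContinuousLinearMap.id ℝ ℂ) + b • (conjCLE : ℂ →L[ℝ] ℂ)) z

lemma HasW.id (z : ℂ) : HasW (fun w => w) 1 0 z :=
  (hasFDerivAt_id (𝕜 := ℝ) z).congr_fderiv (by ext v; simp)

lemma HasW.conj' (z : ℂ) : HasW (fun w => conj w) 0 1 z :=
  ((conjCLE : ℂ →L[ℝ] ℂ).hasFDerivAt (x := z)).congr_fderiv (by ext v; simp)

lemma HasW.const (c z : ℂ) : HasW (fun _ => c) 0 0 z :=
  (hasFDerivAt_const (𝕜 := ℝ) c z).congr_fderiv (by ext v; simp)

lemma HasW.holo {f : ℂ → ℂ} {f' z : ℂ} (h : HasDerivAt f f' z) : HasW f f' 0 z :=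
  (h.hasFDerivAt.restrictScalars ℝ).congr_fderiv (by
    ext v; simp [mul_comm])

lemma HasW.conjc {f : ℂ → ℂ} {a b z : ℂ} (h : HasW f a b z) :
    HasW (fun w => conj (f w)) (conj b) (conj a) z :=
  ((conjCLE : ℂ →L[ℝ] ℂ).hasFDerivAt.comp z h).congr_fderiv (by
    ext v; simp; ring)

lemma HasW.mul {f g : ℂ → ℂ} {a b c d z : ℂ} (hf : HasW f a b z) (hg : HasW g c d z) :
    HasW (fun w => f w * g w) (a * g z + f z * c) (b * g z + f z * d) z :=
  (HasFDerivAt.mul hf hg).congr_fderiv (by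
    ext v; simp; ring)

lemma HasW.add {f g : ℂ → ℂ} {a b c d z : ℂ} (hf : HasW f a b z) (hg : HasW g c d z) :
    HasW (fun w => f w + g w) (a + c) (b + d) z :=
  (HasFDerivAt.add hf hg).congr_fderiv (by
    ext v; simp; ring)

lemma HasW.sub {f g : ℂ → ℂ} {a b c d z : ℂ} (hf : HasW f a b z) (hg : HasW g c d z) :
    HasW (fun w => f w - g w) (a - c) (b - d) z :=
  (HasFDerivAt.sub hf hg).congr_fderiv (by
    ext v; simp; ring)

lemma HasW.congr {f : ℂ → ℂ} {a b a' b' z : ℂ} (h : HasW f a b z) (ha : a = a') (hb : b = b') :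
    HasW f a' b' z := by subst ha; subst hb; exact h

lemma HasW.re {f : ℂ → ℂ} {a b z : ℂ} (h : HasW f a b z) (v : ℂ) :
    fderiv ℝ (fun w => (f w).re) z v = (a * v + b * conj v).re := by
  unfold HasW at h
  have h1 := (reCLM).hasFDerivAt.comp z h
  have h2 := h1.fderiv
  have : (fun w => (f w).re) = (reCLM ∘ f) := rfl
  rw [this, h2]
  simp

lemma HasW.im {f : ℂ → ℂ} {a b z : ℂ} (h : HasW f a b z) (v : ℂ) :
    fderiv ℝ (fun w => (f w).im) z v = (a * v + b * conj v).im := by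
  unfold HasW at h
  have h1 := (imCLM).hasFDerivAt.comp z h
  have h2 := h1.fderiv
  have : (fun w => (f w).im) = (imCLM ∘ f) := rfl
  rw [this, h2]
  simp

end TrIbp

open TrIbp

/-- `ψ = φ / z`. -/
noncomputable def psi (φ : ℂ → ℂ) : ℂ → ℂ := dslope φ 0

/-- `V = (1-s)² |φ/z|²`, `s = |z|²`. -/
noncomputable def VV (φ : ℂ → ℂ) (z : ℂ) : ℝ := (1 - ‖z‖ ^ 2) ^ 2 * ‖psi φ z‖ ^ 2

/-- the Laplacian of `VV`. -/
noncomputable def LL (φ : ℂ → ℂ) (z : ℂ) : ℝ :=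
  4 * ((4 * ‖z‖ ^ 2 - 2) * ‖psi φ z‖ ^ 2
    - 4 * (1 - ‖z‖ ^ 2) * (z * deriv (psi φ) z * conj (psi φ z)).re
    + (1 - ‖z‖ ^ 2) ^ 2 * ‖deriv (psi φ) z‖ ^ 2)

namespace TrIbp

variable {φ : ℂ → ℂ}

lemma psi_diff (hφ : Conf φ) : DifferentiableOn ℂ (psi φ) (ball 0 1) :=
  (Complex.differentiableOn_dslope (ball_mem_nhds 0 one_pos)).2 hφ.holo

lemma psi_ne {z : ℂ} (hφ : Conf φ) (hz : z ≠ 0) : psi φ z = φ z / z := by
  unfold psi
  rw [dslope_of_ne _ hz, slope_def_field, hφ.zero]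
  simp

lemma psi_bdd (hφ : Conf φ) : ∃ C : ℝ, 0 < C ∧ ∀ z ∈ ball (0 : ℂ) 1, ‖psi φ z‖ ≤ C := by
  obtain ⟨C, hC⟩ := hφ.bdd
  have hC0 : 0 ≤ C := (norm_nonneg _).trans (hC 0 (mem_ball_self one_pos))
  refine ⟨C + 1, by linarith, fun z hz => ?_⟩
  have hm : MapsTo φ (ball 0 1) (closedBall (φ 0) (C + 1)) := by
    intro w hw
    rw [hφ.zero, mem_closedBall_zero_iff]
    linarith [hC w hw]
  have := Complex.norm_dslope_le_div_of_mapsTo_ball hφ.holo hm hz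
  simpa [psi] using this

lemma dpsi_bdd (hφ : Conf φ) : ∃ C : ℝ, 0 < C ∧ ∀ z ∈ ball (0 : ℂ) 1,
    (1 - ‖z‖ ^ 2) * ‖deriv (psi φ) z‖ ≤ C := by
  obtain ⟨C, hC0, hC⟩ := psi_bdd hφ
  refine ⟨4 * C, by linarith, fun z hz => ?_⟩
  have hz' : ‖z‖ < 1 := by simpa using hz
  set r := (1 - ‖z‖) / 2 with hr
  have hr0 : 0 < r := by rw [hr]; linarith
  have hsub : closedBall z r ⊆ ball 0 1 := by
    intro w hw
    rw [mem_closedBall, dist_eq_norm] at hw
    rw [mem_ball_zero_iff]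
    have := norm_sub_norm_le w z
    have : ‖w‖ ≤ ‖z‖ + r := by linarith
    rw [hr] at this
    linarith
  have hd : DiffContOnCl ℂ (psi φ) (ball z r) := by
    apply DifferentiableOn.diffContOnCl
    rw [closure_ball _ hr0.ne']
    exact (psi_diff hφ).mono hsub
  have h1 := Complex.norm_deriv_le_of_forall_mem_sphere_norm_le hr0 hd
    (fun w hw => hC w (hsub (sphere_subset_closedBall hw)))
  have h2 : 1 - ‖z‖ ^ 2 ≤ 4 * r := by
    rw [hr]; nlinarith [norm_nonneg z]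
  have h3 : 0 ≤ 1 - ‖z‖ ^ 2 := by nlinarith [norm_nonneg z]
  calc (1 - ‖z‖ ^ 2) * ‖deriv (psi φ) z‖ ≤ (4 * r) * (C / r) := by gcongr
    _ = 4 * C := by field_simp

/-- the complex function `∂_z VV`. -/
noncomputable def AA (φ : ℂ → ℂ) (z : ℂ) : ℂ :=
  -2 * (1 - z * conj z) * conj z * (psi φ z * conj (psi φ z))
    + (1 - z * conj z) ^ 2 * (deriv (psi φ) z * conj (psi φ z))

noncomputable def VVc (φ : ℂ → ℂ) (z : ℂ) : ℂ :=
  (1 - z * conj z) * (1 - z * conj z) * (psi φ z * conj (psi φ z))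

lemma VVc_re (z : ℂ) : VV φ z = (VVc φ z).re := by
  unfold VV VVc
  rw [mul_conj, mul_conj, normSq_eq_norm_sq, normSq_eq_norm_sq]
  norm_cast
  ring

lemma hasW_psi (hφ : Conf φ) {z : ℂ} (hz : z ∈ ball (0 : ℂ) 1) :
    HasW (psi φ) (deriv (psi φ) z) 0 z :=
  HasW.holo ((psi_diff hφ).differentiableAt (isOpen_ball.mem_nhds hz)).hasDerivAt

lemma hasW_dpsi (hφ : Conf φ) {z : ℂ} (hz : z ∈ ball (0 : ℂ) 1) :
    HasW (deriv (psi φ)) (deriv (deriv (psi φ)) z) 0 z :=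
  HasW.holo (((psi_diff hφ).deriv isOpen_ball).differentiableAt (isOpen_ball.mem_nhds hz)).hasDerivAt

lemma hasW_one_sub (z : ℂ) : HasW (fun w => 1 - w * conj w) (-conj z) (-z) z :=
  ((HasW.const 1 z).sub ((HasW.id z).mul (HasW.conj' z))).congr (by ring) (by ring)

lemma hasW_VVc (hφ : Conf φ) {z : ℂ} (hz : z ∈ ball (0 : ℂ) 1) :
    HasW (VVc φ) (AA φ z) (conj (AA φ z)) z := by
  have h1 := hasW_psi hφ hz
  have h := ((hasW_one_sub z).mul (hasW_one_sub z)).mul (h1.mul h1.conjc)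
  refine HasW.congr h ?_ ?_
  · unfold AA; simp; ring
  · have h2 : conj (2 : ℂ) = 2 := by
      have := Complex.conj_ofReal 2
      simpa using this
    unfold AA; simp [h2]; ring

lemma dx_VV (hφ : Conf φ) {z : ℂ} (hz : z ∈ ball (0 : ℂ) 1) : dx (VV φ) z = 2 * (AA φ z).re := by
  unfold dx
  have : VV φ = fun w => (VVc φ w).re := by funext w; exact VVc_re w
  rw [this, (hasW_VVc hφ hz).re]
  simp; ring

lemma dy_VV (hφ : Conf φ) {z : ℂ} (hz : z ∈ ball (0 : ℂ) 1) : dy (VV φ) z = -2 * (AA φ z).im := by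
  unfold dy
  have : VV φ = fun w => (VVc φ w).re := by funext w; exact VVc_re w
  rw [this, (hasW_VVc hφ hz).re]
  simp; ring

/-- Wirtinger derivatives of `AA`. -/
lemma hasW_AA (hφ : Conf φ) {z : ℂ} (hz : z ∈ ball (0 : ℂ) 1) :
    ∃ a b : ℂ, HasW (AA φ) a b z ∧ 4 * b.re = LL φ z := by
  have h1 := hasW_psi hφ hz
  have h2 := hasW_dpsi hφ hz
  have h := ((((HasW.const (-2) z).mul (hasW_one_sub z)).mul (HasW.conj' z)).mul (h1.mul h1.conjc)).add
    (((hasW_one_sub z).mul (hasW_one_sub z)).mul (h2.mul h1.conjc))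
  have e : AA φ = fun w => -2 * (1 - w * conj w) * conj w * (psi φ w * conj (psi φ w))
    + (1 - w * conj w) * (1 - w * conj w) * (deriv (psi φ) w * conj (psi φ w)) := by
    funext w; unfold AA; ring
  refine ⟨_, _, by rw [e]; exact h, ?_⟩
  unfold LL
  have e1 : ‖psi φ z‖ ^ 2 = (psi φ z).re ^ 2 + (psi φ z).im ^ 2 := by
    rw [← normSq_eq_norm_sq, normSq_apply]; ring
  have e2 : ‖deriv (psi φ) z‖ ^ 2 = (deriv (psi φ) z).re ^ 2 + (deriv (psi φ) z).im ^ 2 := by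
    rw [← normSq_eq_norm_sq, normSq_apply]; ring
  have e3 : ‖z‖ ^ 2 = z.re ^ 2 + z.im ^ 2 := by
    rw [← normSq_eq_norm_sq, normSq_apply]; ring
  rw [e1, e2, e3]
  simp
  ring


lemma AA_bdd (hφ : Conf φ) : ∃ K : ℝ, 0 < K ∧ ∀ z ∈ ball (0 : ℂ) 1,
    ‖AA φ z‖ ≤ K * (1 - ‖z‖ ^ 2) := by
  obtain ⟨C, hC0, hC⟩ := psi_bdd hφ
  obtain ⟨D, hD0, hD⟩ := dpsi_bdd hφ
  refine ⟨2 * C ^ 2 + D * C, by positivity, fun z hz => ?_⟩
  have hz' : ‖z‖ < 1 := by simpa using hz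
  have h3 : 0 ≤ 1 - ‖z‖ ^ 2 := by nlinarith [norm_nonneg z]
  have e1 : (1 - z * conj z : ℂ) = ((1 - ‖z‖ ^ 2 : ℝ) : ℂ) := by
    rw [mul_conj, normSq_eq_norm_sq]; push_cast; ring
  have e2 : ‖(1 - z * conj z : ℂ)‖ = 1 - ‖z‖ ^ 2 := by
    rw [e1, Complex.norm_real, Real.norm_eq_abs, abs_of_nonneg h3]
  unfold AA
  calc ‖-2 * (1 - z * conj z) * conj z * (psi φ z * conj (psi φ z))
      + (1 - z * conj z) ^ 2 * (deriv (psi φ) z * conj (psi φ z))‖
      ≤ ‖-2 * (1 - z * conj z) * conj z * (psi φ z * conj (psi φ z))‖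
        + ‖(1 - z * conj z) ^ 2 * (deriv (psi φ) z * conj (psi φ z))‖ := norm_add_le _ _
    _ = 2 * (1 - ‖z‖ ^ 2) * ‖z‖ * (‖psi φ z‖ * ‖psi φ z‖)
        + (1 - ‖z‖ ^ 2) * ((1 - ‖z‖ ^ 2) * ‖deriv (psi φ) z‖) * ‖psi φ z‖ := by
        simp only [norm_mul, norm_pow, norm_neg, RCLike.norm_conj, e2, Complex.norm_ofNat]
        ring
    _ ≤ 2 * (1 - ‖z‖ ^ 2) * 1 * (C * C) + (1 - ‖z‖ ^ 2) * D * C := by
        have := hC z hz
        have := hD z hz
        gcongr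
    _ = (2 * C ^ 2 + D * C) * (1 - ‖z‖ ^ 2) := by ring

lemma LL_bdd (hφ : Conf φ) : ∃ K : ℝ, 0 < K ∧ ∀ z ∈ ball (0 : ℂ) 1, |LL φ z| ≤ K := by
  obtain ⟨C, hC0, hC⟩ := psi_bdd hφ
  obtain ⟨D, hD0, hD⟩ := dpsi_bdd hφ
  refine ⟨4 * (2 * C ^ 2 + 4 * (D * C) + D ^ 2), by positivity, fun z hz => ?_⟩
  have hz' : ‖z‖ < 1 := by simpa using hz
  have h3 : 0 ≤ 1 - ‖z‖ ^ 2 := by nlinarith [norm_nonneg z]
  have hc := hC z hz
  have hd := hD z hz
  have a1 : |(4 * ‖z‖ ^ 2 - 2) * ‖psi φ z‖ ^ 2| ≤ 2 * C ^ 2 := by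
    rw [abs_mul, abs_of_nonneg (sq_nonneg ‖psi φ z‖)]
    have : |4 * ‖z‖ ^ 2 - 2| ≤ 2 := by
      rw [abs_le]; constructor <;> nlinarith [norm_nonneg z]
    gcongr
  have a2 : |4 * (1 - ‖z‖ ^ 2) * (z * deriv (psi φ) z * conj (psi φ z)).re| ≤ 4 * (D * C) := by
    have h1 : |(z * deriv (psi φ) z * conj (psi φ z)).re| ≤ 1 * ‖deriv (psi φ) z‖ * C := by
      refine (abs_re_le_norm _).trans ?_
      rw [norm_mul, norm_mul, RCLike.norm_conj]
      gcongr
    rw [abs_mul, abs_of_nonneg (by positivity)]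
    calc 4 * (1 - ‖z‖ ^ 2) * |(z * deriv (psi φ) z * conj (psi φ z)).re|
        ≤ 4 * (1 - ‖z‖ ^ 2) * (1 * ‖deriv (psi φ) z‖ * C) := by gcongr
      _ = 4 * (((1 - ‖z‖ ^ 2) * ‖deriv (psi φ) z‖) * C) := by ring
      _ ≤ 4 * (D * C) := by gcongr
  have a3 : |(1 - ‖z‖ ^ 2) ^ 2 * ‖deriv (psi φ) z‖ ^ 2| ≤ D ^ 2 := by
    rw [← mul_pow, abs_of_nonneg (by positivity)]
    gcongr
  unfold LL
  rw [abs_mul, abs_of_pos (by norm_num : (0 : ℝ) < 4)]
  have := abs_sub ((4 * ‖z‖ ^ 2 - 2) * ‖psi φ z‖ ^ 2)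
    (4 * (1 - ‖z‖ ^ 2) * (z * deriv (psi φ) z * conj (psi φ z)).re)
  have h5 := abs_add_le ((4 * ‖z‖ ^ 2 - 2) * ‖psi φ z‖ ^ 2
    - 4 * (1 - ‖z‖ ^ 2) * (z * deriv (psi φ) z * conj (psi φ z)).re)
    ((1 - ‖z‖ ^ 2) ^ 2 * ‖deriv (psi φ) z‖ ^ 2)
  linarith

lemma psi_cd (hφ : Conf φ) : ContDiffOn ℝ 1 (psi φ) (ball 0 1) :=
  ((psi_diff hφ).contDiffOn isOpen_ball).restrict_scalars ℝ

lemma dpsi_cd (hφ : Conf φ) : ContDiffOn ℝ 1 (deriv (psi φ)) (ball 0 1) :=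
  (((psi_diff hφ).deriv isOpen_ball).contDiffOn isOpen_ball).restrict_scalars ℝ

lemma conj_cd : ContDiff ℝ 1 (fun w : ℂ => conj w) := (conjCLE : ℂ →L[ℝ] ℂ).contDiff

lemma conjc_cd {f : ℂ → ℂ} {s : Set ℂ} (h : ContDiffOn ℝ 1 f s) :
    ContDiffOn ℝ 1 (fun w : ℂ => conj (f w)) s := conj_cd.comp_contDiffOn h

lemma AA_cd (hφ : Conf φ) : ContDiffOn ℝ 1 (AA φ) (ball 0 1) := by
  unfold AA
  have h1 := psi_cd hφ
  have h2 := conjc_cd h1
  have h3 := dpsi_cd hφ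
  have hid : ContDiffOn ℝ 1 (fun w : ℂ => w) (ball 0 1) := contDiffOn_id
  have hc : ContDiffOn ℝ 1 (fun w : ℂ => conj w) (ball 0 1) := conj_cd.contDiffOn
  have hs : ContDiffOn ℝ 1 (fun w : ℂ => 1 - w * conj w) (ball 0 1) :=
    contDiffOn_const.sub (hid.mul hc)
  exact (((contDiffOn_const.mul hs).mul hc).mul (h1.mul h2)).add ((hs.pow 2).mul (h3.mul h2))

lemma VV_cd (hφ : Conf φ) : ContDiffOn ℝ 1 (VV φ) (ball 0 1) := by
  have : VV φ = fun w => (VVc φ w).re := by funext w; exact VVc_re w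
  rw [this]
  unfold VVc
  have h1 := psi_cd hφ
  have h2 := conjc_cd h1
  have hid : ContDiffOn ℝ 1 (fun w : ℂ => w) (ball 0 1) := contDiffOn_id
  have hc : ContDiffOn ℝ 1 (fun w : ℂ => conj w) (ball 0 1) := conj_cd.contDiffOn
  have hs : ContDiffOn ℝ 1 (fun w : ℂ => 1 - w * conj w) (ball 0 1) :=
    contDiffOn_const.sub (hid.mul hc)
  exact reCLM.contDiff.comp_contDiffOn ((hs.mul hs).mul (h1.mul h2))

lemma LL_cont (hφ : Conf φ) : ContinuousOn (LL φ) (ball 0 1) := by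
  unfold LL
  have h1 := (psi_cd hφ).continuousOn
  have h3 := (dpsi_cd hφ).continuousOn
  have hc : ContinuousOn (fun w : ℂ => conj (psi φ w)) (ball 0 1) := (conjc_cd (psi_cd hφ)).continuousOn
  have hre : ContinuousOn (fun w : ℂ => (w * deriv (psi φ) w * conj (psi φ w)).re) (ball 0 1) :=
    continuous_re.comp_continuousOn ((continuousOn_id.mul h3).mul hc)
  have hn : ContinuousOn (fun w : ℂ => ‖w‖ ^ 2) (ball 0 1) := (continuous_norm.pow 2).continuousOn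
  fun_prop

lemma vol_ne_top : volume (ball (0 : ℂ) 1) ≠ ⊤ := measure_ball_lt_top.ne

lemma intOn_of_bdd {f : ℂ → ℝ} (hf : ContinuousOn f (ball 0 1)) {C : ℝ}
    (hC : ∀ z ∈ ball (0 : ℂ) 1, |f z| ≤ C) : IntegrableOn f (ball 0 1) := by
  have : IsFiniteMeasure (volume.restrict (ball (0 : ℂ) 1)) :=
    ⟨by rw [Measure.restrict_apply_univ]; exact measure_ball_lt_top⟩
  refine Integrable.of_bound (hf.aestronglyMeasurable measurableSet_ball) C ?_
  filter_upwards [ae_restrict_mem measurableSet_ball] with z hz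
  exact hC z hz

end TrIbp

theorem vv_adm {φ : ℂ → ℂ} (hφ : Conf φ) : Adm φ (VV φ) := by
  refine ⟨VV_cd hφ, ?_, ?_⟩
  · obtain ⟨C, hC0, hC⟩ := psi_bdd hφ
    have hb : ∀ z ∈ ball (0 : ℂ) 1, |VV φ z ^ 2| ≤ (C ^ 2) ^ 2 := by
      intro z hz
      have hz' : ‖z‖ < 1 := by simpa using hz
      have h3 : 0 ≤ 1 - ‖z‖ ^ 2 := by nlinarith [norm_nonneg z]
      have h4 : 1 - ‖z‖ ^ 2 ≤ 1 := by nlinarith [sq_nonneg ‖z‖]
      have hc := hC z hz
      rw [abs_of_nonneg (sq_nonneg _)]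
      unfold VV
      have : (1 - ‖z‖ ^ 2) ^ 2 * ‖psi φ z‖ ^ 2 ≤ 1 ^ 2 * C ^ 2 := by gcongr
      have h5 : 0 ≤ (1 - ‖z‖ ^ 2) ^ 2 * ‖psi φ z‖ ^ 2 := by positivity
      nlinarith
    refine Integrable.mul_bdd (c := (C ^ 2) ^ 2) hφ.rho_int ?_ ?_
    · exact ((VV_cd hφ).continuousOn.pow 2).aestronglyMeasurable measurableSet_ball
    · filter_upwards [ae_restrict_mem measurableSet_ball] with z hz
      exact hb z hz
  · obtain ⟨K, hK0, hK⟩ := AA_bdd hφ
    apply intOn_of_bdd (EnergyA.g2_continuousOn (VV_cd hφ)) (C := 4 * K ^ 2)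
    intro z hz
    have hz' : ‖z‖ < 1 := by simpa using hz
    have h3 : 0 ≤ 1 - ‖z‖ ^ 2 := by nlinarith [norm_nonneg z]
    have h4 : 1 - ‖z‖ ^ 2 ≤ 1 := by nlinarith [sq_nonneg ‖z‖]
    have hk := hK z hz
    have hk2 : ‖AA φ z‖ ≤ K := hk.trans (by nlinarith)
    have e3 : ‖AA φ z‖ ^ 2 = (AA φ z).re ^ 2 + (AA φ z).im ^ 2 := by
      rw [← normSq_eq_norm_sq, normSq_apply]; ring
    unfold g2
    rw [dx_VV hφ hz, dy_VV hφ hz, abs_of_nonneg (by positivity)]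
    have : ‖AA φ z‖ ^ 2 ≤ K ^ 2 := by gcongr
    nlinarith


namespace TrIbp

variable {φ : ℂ → ℂ}

/-- the integral of a derivative of a `C¹` function vanishing near the unit circle is zero. -/
lemma int_fderiv_zero {G : ℂ → ℝ} (hG : ContDiffOn ℝ 1 G (ball 0 1)) {ε : ℝ} (hε : 0 < ε)
    (h0 : ∀ z ∈ ball (0 : ℂ) 1, 1 - ‖z‖ ^ 2 < ε → G z = 0) (v : ℂ) :
    IntegrableOn (fun z => fderiv ℝ G z v) (ball (0 : ℂ) 1) ∧
    ∫ z in ball (0 : ℂ) 1, fderiv ℝ G z v = 0 := by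
  set F : ℂ → ℝ := (ball (0 : ℂ) 1).indicator G with hF
  have hout : ∀ z : ℂ, 1 - ‖z‖ ^ 2 < ε → F =ᶠ[𝓝 z] fun _ => 0 := by
    intro z hz
    have hop : IsOpen {w : ℂ | 1 - ‖w‖ ^ 2 < ε} :=
      isOpen_lt (by fun_prop) continuous_const
    filter_upwards [hop.mem_nhds hz] with w hw
    by_cases hwb : w ∈ ball (0 : ℂ) 1
    · rw [hF, indicator_of_mem hwb]; exact h0 w hwb hw
    · rw [hF, indicator_of_notMem hwb]
  have hin : ∀ z ∈ ball (0 : ℂ) 1, F =ᶠ[𝓝 z] G := by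
    intro z hz
    filter_upwards [isOpen_ball.mem_nhds hz] with w hw
    rw [hF, indicator_of_mem hw]
  have hcd : ContDiff ℝ 1 F := by
    rw [contDiff_iff_contDiffAt]
    intro z
    by_cases hz : z ∈ ball (0 : ℂ) 1
    · exact (hG.contDiffAt (isOpen_ball.mem_nhds hz)).congr_of_eventuallyEq (hin z hz)
    · have h1 : 1 ≤ ‖z‖ := by simpa using hz
      have h2 : 1 - ‖z‖ ^ 2 < ε := by nlinarith
      exact contDiffAt_const.congr_of_eventuallyEq (hout z h2)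
  have hsupp : HasCompactSupport F := by
    apply HasCompactSupport.intro (isCompact_closedBall (0 : ℂ) 1)
    intro z hz
    rw [hF, indicator_of_notMem]
    intro h; exact hz (ball_subset_closedBall h)
  have hdc : Continuous (fun z => fderiv ℝ F z v) :=
    (hcd.continuous_fderiv one_ne_zero).clm_apply continuous_const
  have hds : HasCompactSupport (fun z => fderiv ℝ F z v) := by
    have := hsupp.fderiv (𝕜 := ℝ)
    exact this.comp_left (g := fun L : ℂ →L[ℝ] ℝ => L v) (by simp)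
  have hdi : Integrable (fun z => fderiv ℝ F z v) := hdc.integrable_of_hasCompactSupport hds
  have hFi : Integrable F := hcd.continuous.integrable_of_hasCompactSupport hsupp
  have key := integral_mul_fderiv_eq_neg_fderiv_mul_of_integrable (𝕜 := ℝ) (μ := volume)
    (f := fun _ : ℂ => (1 : ℝ)) (g := F) (v := v) (by simp) (by simpa using hdi) (by simpa using hFi)
    (fun x _ => differentiableAt_const _) (fun x _ => hcd.differentiable one_ne_zero x)
  simp only [one_mul, fderiv_fun_const, Pi.zero_apply, zero_apply, zero_mul,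
    integral_zero, neg_zero] at key
  have : ∫ z in ball (0 : ℂ) 1, fderiv ℝ G z v = ∫ z, fderiv ℝ F z v := by
    rw [← setIntegral_eq_integral_of_forall_compl_eq_zero (s := ball (0 : ℂ) 1)
      (f := fun z => fderiv ℝ F z v)]
    · apply setIntegral_congr_fun measurableSet_ball
      intro z hz
      simp only
      rw [(hin z hz).fderiv_eq]
    · intro z hz
      have h1 : 1 ≤ ‖z‖ := by simpa using hz
      have h2 : 1 - ‖z‖ ^ 2 < ε := by nlinarith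
      rw [(hout z h2).fderiv_eq]
      simp
  refine ⟨?_, by rw [this, key]⟩
  refine (hdi.integrableOn (s := ball (0 : ℂ) 1)).congr_fun ?_ measurableSet_ball
  intro z hz
  simp only
  rw [(hin z hz).fderiv_eq]

/-- cutoff. -/
noncomputable def chi (ε : ℝ) (z : ℂ) : ℝ := Real.smoothTransition ((1 - ‖z‖ ^ 2) / ε - 1)

lemma chi_nonneg (ε : ℝ) (z : ℂ) : 0 ≤ chi ε z := Real.smoothTransition.nonneg _

lemma chi_le_one (ε : ℝ) (z : ℂ) : chi ε z ≤ 1 := Real.smoothTransition.le_one _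

lemma chi_zero {ε : ℝ} (hε : 0 < ε) {z : ℂ} (h : 1 - ‖z‖ ^ 2 < ε) : chi ε z = 0 := by
  apply Real.smoothTransition.zero_of_nonpos
  have : (1 - ‖z‖ ^ 2) / ε ≤ 1 := by rw [div_le_one hε]; exact h.le
  linarith

lemma chi_one {ε : ℝ} (hε : 0 < ε) {z : ℂ} (h : 2 * ε ≤ 1 - ‖z‖ ^ 2) : chi ε z = 1 := by
  apply Real.smoothTransition.one_of_one_le
  have : 2 ≤ (1 - ‖z‖ ^ 2) / ε := by rw [le_div_iff₀ hε]; exact h
  linarith

lemma nsq_cd : ContDiff ℝ 1 (fun z : ℂ => ‖z‖ ^ 2) := contDiff_norm_sq ℝ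

lemma chi_cd (ε : ℝ) : ContDiff ℝ 1 (chi ε) := by
  unfold chi
  exact Real.smoothTransition.contDiff.comp (((contDiff_const.sub nsq_cd).div_const _).sub contDiff_const)

/-- `θ'`. -/
noncomputable def thp : ℝ → ℝ := deriv Real.smoothTransition

lemma thp_zero_of_lt {x : ℝ} (hx : x < 0) : thp x = 0 := by
  unfold thp
  have : Real.smoothTransition =ᶠ[𝓝 x] fun _ => 0 := by
    filter_upwards [Iio_mem_nhds hx] with y hy
    exact Real.smoothTransition.zero_of_nonpos (le_of_lt hy)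
  rw [this.deriv_eq]; simp

lemma thp_zero_of_gt {x : ℝ} (hx : 1 < x) : thp x = 0 := by
  unfold thp
  have : Real.smoothTransition =ᶠ[𝓝 x] fun _ => 1 := by
    filter_upwards [Ioi_mem_nhds hx] with y hy
    exact Real.smoothTransition.one_of_one_le (le_of_lt hy)
  rw [this.deriv_eq]; simp

lemma thp_bdd : ∃ C : ℝ, 0 < C ∧ ∀ x, |thp x| ≤ C := by
  have hc : Continuous thp := by
    unfold thp
    exact (Real.smoothTransition.contDiff (n := 1)).continuous_deriv le_rfl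
  obtain ⟨C, hC⟩ := (isCompact_Icc (a := (0 : ℝ)) (b := 1)).exists_bound_of_continuousOn
    hc.continuousOn
  refine ⟨max C 1, by positivity, fun x => ?_⟩
  by_cases h1 : x < 0
  · rw [thp_zero_of_lt h1]; simp
  · by_cases h2 : 1 < x
    · rw [thp_zero_of_gt h2]; simp
    · push Not at h1 h2
      exact (hC x ⟨h1, h2⟩).trans (le_max_left _ _)

lemma chi_fderiv (ε : ℝ) (z v : ℂ) :
    fderiv ℝ (chi ε) z v = - thp ((1 - ‖z‖ ^ 2) / ε - 1) * (2 * (z.re * v.re + z.im * v.im)) / ε := by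
  have h1 : HasFDerivAt (fun w : ℂ => ‖w‖ ^ 2) (2 • (innerSL ℝ z)) z := by
    exact (hasStrictFDerivAt_norm_sq z).hasFDerivAt
  have h2 : HasFDerivAt (fun w : ℂ => (1 - ‖w‖ ^ 2) / ε - 1)
      (ε⁻¹ • (-(2 • (innerSL ℝ z)) : ℂ →L[ℝ] ℝ)) z := by
    have := ((h1.const_sub 1).const_mul ε⁻¹).sub_const 1
    refine this.congr_of_eventuallyEq (Eventually.of_forall fun w => ?_)
    simp only
    rw [div_eq_inv_mul]
  have h3 : HasDerivAt Real.smoothTransition (thp ((1 - ‖z‖ ^ 2) / ε - 1)) ((1 - ‖z‖ ^ 2) / ε - 1) :=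
    ((Real.smoothTransition.contDiff (n := 1)).differentiable one_ne_zero _).hasDerivAt
  have h4 := h3.comp_hasFDerivAt z h2
  have : fderiv ℝ (chi ε) z = thp ((1 - ‖z‖ ^ 2) / ε - 1) •
      (ε⁻¹ • (-(2 • (innerSL ℝ z)) : ℂ →L[ℝ] ℝ)) := h4.fderiv
  rw [this]
  simp [Complex.inner]
  ring


lemma ip_int {W V : ℂ → ℝ} (hW : ContDiffOn ℝ 1 W (ball 0 1)) (hV : ContDiffOn ℝ 1 V (ball 0 1))
    (hWe : IntegrableOn (g2 W) (ball 0 1)) (hVe : IntegrableOn (g2 V) (ball 0 1)) :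
    IntegrableOn (ip W V) (ball 0 1) := by
  have hd : ∀ {F : ℂ → ℝ}, ContDiffOn ℝ 1 F (ball 0 1) → ∀ v : ℂ,
      ContinuousOn (fun z => fderiv ℝ F z v) (ball 0 1) := fun hF v =>
    (hF.continuousOn_fderiv_of_isOpen isOpen_ball le_rfl).clm_apply continuousOn_const
  have hc : ContinuousOn (ip W V) (ball 0 1) := by
    unfold ip dx dy
    exact ((hd hW 1).mul (hd hV 1)).add ((hd hW I).mul (hd hV I))
  refine (hWe.add hVe).mono' (hc.aestronglyMeasurable measurableSet_ball) ?_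
  refine Eventually.of_forall fun z => ?_
  simp only [Pi.add_apply, Real.norm_eq_abs]
  unfold ip g2
  rw [abs_le]
  constructor
  · nlinarith [sq_nonneg (dx W z + dx V z), sq_nonneg (dy W z + dy V z), sq_nonneg (dx W z),
      sq_nonneg (dy W z), sq_nonneg (dx V z), sq_nonneg (dy V z)]
  · nlinarith [sq_nonneg (dx W z - dx V z), sq_nonneg (dy W z - dy V z), sq_nonneg (dx W z),
      sq_nonneg (dy W z), sq_nonneg (dx V z), sq_nonneg (dy V z)]

/-- `∇χ_ε · ∇V`. -/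
noncomputable def cc (φ : ℂ → ℂ) (ε : ℝ) (z : ℂ) : ℝ :=
  -(4 * thp ((1 - ‖z‖ ^ 2) / ε - 1) / ε) * (z * AA φ z).re

/-- the identity with cutoff. -/
lemma cut_identity (hφ : Conf φ) {W : ℂ → ℝ} (hW : ContDiffOn ℝ 1 W (ball 0 1)) {ε : ℝ}
    (hε : 0 < ε) :
    IntegrableOn (fun z => chi ε z * ip W (VV φ) z + W z * (cc φ ε z + chi ε z * LL φ z)) (ball 0 1)
    ∧ ∫ z in ball (0 : ℂ) 1, (chi ε z * ip W (VV φ) z + W z * (cc φ ε z + chi ε z * LL φ z)) = 0 := by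
  set G1 : ℂ → ℝ := fun z => W z * chi ε z * (2 * (AA φ z).re) with hG1
  set G2 : ℂ → ℝ := fun z => W z * chi ε z * (-2 * (AA φ z).im) with hG2
  have hre : ContDiffOn ℝ 1 (fun z => (AA φ z).re) (ball 0 1) :=
    reCLM.contDiff.comp_contDiffOn (AA_cd hφ)
  have him : ContDiffOn ℝ 1 (fun z => (AA φ z).im) (ball 0 1) :=
    imCLM.contDiff.comp_contDiffOn (AA_cd hφ)
  have h1 : ContDiffOn ℝ 1 G1 (ball 0 1) :=
    (hW.mul (chi_cd ε).contDiffOn).mul (contDiffOn_const.mul hre)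
  have h2 : ContDiffOn ℝ 1 G2 (ball 0 1) :=
    (hW.mul (chi_cd ε).contDiffOn).mul (contDiffOn_const.mul him)
  obtain ⟨i1, e1⟩ := int_fderiv_zero h1 hε (fun z _ hz => by simp [hG1, chi_zero hε hz]) 1
  obtain ⟨i2, e2⟩ := int_fderiv_zero h2 hε (fun z _ hz => by simp [hG2, chi_zero hε hz]) I
  have key : ∀ z ∈ ball (0 : ℂ) 1, fderiv ℝ G1 z 1 + fderiv ℝ G2 z I =
      chi ε z * ip W (VV φ) z + W z * (cc φ ε z + chi ε z * LL φ z) := by
    intro z hz
    obtain ⟨a, b, hab, hL⟩ := hasW_AA hφ hz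
    have dW : HasFDerivAt W (fderiv ℝ W z) z :=
      ((hW.differentiableOn one_ne_zero).differentiableAt (isOpen_ball.mem_nhds hz)).hasFDerivAt
    have dχ : HasFDerivAt (chi ε) (fderiv ℝ (chi ε) z) z :=
      ((chi_cd ε).differentiable one_ne_zero z).hasFDerivAt
    have dre : HasFDerivAt (fun z => (AA φ z).re) (fderiv ℝ (fun z => (AA φ z).re) z) z :=
      ((hre.differentiableOn one_ne_zero).differentiableAt (isOpen_ball.mem_nhds hz)).hasFDerivAt
    have dim : HasFDerivAt (fun z => (AA φ z).im) (fderiv ℝ (fun z => (AA φ z).im) z) z :=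
      ((him.differentiableOn one_ne_zero).differentiableAt (isOpen_ball.mem_nhds hz)).hasFDerivAt
    have f1 := ((dW.mul dχ).mul (dre.const_mul 2)).fderiv
    have f2 := ((dW.mul dχ).mul (dim.const_mul (-2))).fderiv
    have g1 : fderiv ℝ G1 z = _ := f1
    have g2 : fderiv ℝ G2 z = _ := f2
    rw [g1, g2]
    simp only [add_apply, smul_apply, smul_eq_mul, Pi.mul_apply]
    rw [hab.re, hab.im, chi_fderiv, chi_fderiv, ← hL]
    unfold ip cc
    rw [dx_VV hφ hz, dy_VV hφ hz]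
    unfold dx dy
    simp
    ring
  have i3 : IntegrableOn (fun z => fderiv ℝ G1 z 1 + fderiv ℝ G2 z I) (ball (0 : ℂ) 1) := i1.add i2
  refine ⟨i3.congr_fun key measurableSet_ball, ?_⟩
  rw [← setIntegral_congr_fun measurableSet_ball key, integral_add i1 i2, e1, e2, add_zero]

lemma cc_bdd (hφ : Conf φ) : ∃ C : ℝ, 0 < C ∧ ∀ ε : ℝ, 0 < ε → ∀ z ∈ ball (0 : ℂ) 1,
    |cc φ ε z| ≤ C := by
  obtain ⟨K, hK0, hK⟩ := AA_bdd hφ
  obtain ⟨C, hC0, hC⟩ := thp_bdd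
  refine ⟨8 * C * K, by positivity, fun ε hε z hz => ?_⟩
  have hz' : ‖z‖ < 1 := by simpa using hz
  have h3 : 0 ≤ 1 - ‖z‖ ^ 2 := by nlinarith [norm_nonneg z]
  unfold cc
  by_cases h : 1 < (1 - ‖z‖ ^ 2) / ε - 1
  · rw [thp_zero_of_gt h]
    simp only [mul_zero, zero_div, neg_zero, zero_mul, abs_zero]
    positivity
  · push Not at h
    have h4 : 1 - ‖z‖ ^ 2 ≤ 2 * ε := by
      have : (1 - ‖z‖ ^ 2) / ε ≤ 2 := by linarith
      rwa [div_le_iff₀ hε] at this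
    have h5 : |(z * AA φ z).re| ≤ K * (2 * ε) := by
      refine (abs_re_le_norm _).trans ?_
      rw [norm_mul]
      calc ‖z‖ * ‖AA φ z‖ ≤ 1 * (K * (1 - ‖z‖ ^ 2)) := by
            gcongr
            exact hK z hz
        _ ≤ K * (2 * ε) := by rw [one_mul]; gcongr
    rw [abs_mul, abs_neg, abs_div, abs_mul, abs_of_pos hε, abs_of_pos (by norm_num : (0 : ℝ) < 4)]
    calc 4 * |thp ((1 - ‖z‖ ^ 2) / ε - 1)| / ε * |(z * AA φ z).re|
        ≤ 4 * C / ε * (K * (2 * ε)) := by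
          gcongr
          exact hC _
      _ = 8 * C * K := by field_simp; ring

lemma cc_zero {ε : ℝ} (hε : 0 < ε) {z : ℂ} (h : 2 * ε < 1 - ‖z‖ ^ 2) : cc φ ε z = 0 := by
  unfold cc
  rw [thp_zero_of_gt]
  · simp
  · have : 2 < (1 - ‖z‖ ^ 2) / ε := by rw [lt_div_iff₀ hε]; exact h
    linarith

end TrIbp

open TrIbp in
/-- integration by parts for `V = (1-s)²|φ/z|²`. -/
theorem tr_ibp {φ : ℂ → ℂ} (hφ : Conf φ) {W : ℂ → ℝ} (hW : ContDiffOn ℝ 1 W (ball 0 1))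
    (hen : IntegrableOn (g2 W) (ball 0 1)) :
    IntegrableOn (fun z => W z * LL φ z) (ball 0 1) ∧
    ∫ z in ball (0 : ℂ) 1, ip W (VV φ) z = - ∫ z in ball (0 : ℂ) 1, W z * LL φ z := by
  have : IsFiniteMeasure (volume.restrict (ball (0 : ℂ) 1)) :=
    ⟨by rw [Measure.restrict_apply_univ]; exact measure_ball_lt_top⟩
  obtain ⟨K, hK0, hK⟩ := LL_bdd hφ
  obtain ⟨C, hC0, hC⟩ := cc_bdd hφ
  -- `|W|` is integrable
  have hWi : IntegrableOn (fun z => |W z|) (ball 0 1) := by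
    refine ((integrable_const (1 : ℝ)).add (sq_integrable hW hen)).mono'
      (hW.continuousOn.abs.aestronglyMeasurable measurableSet_ball) ?_
    refine Eventually.of_forall fun z => ?_
    simp only [Pi.add_apply, Real.norm_eq_abs, abs_abs]
    rw [abs_le]
    constructor <;> nlinarith [sq_nonneg (W z + 1), sq_nonneg (W z - 1)]
  have hWL : IntegrableOn (fun z => W z * LL φ z) (ball 0 1) := by
    refine (hWi.const_mul K).mono' ((hW.continuousOn.mul (LL_cont hφ)).aestronglyMeasurable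
      measurableSet_ball) ?_
    filter_upwards [ae_restrict_mem measurableSet_ball] with z hz
    rw [Real.norm_eq_abs, abs_mul, mul_comm]
    gcongr
    exact hK z hz
  have hip : IntegrableOn (ip W (VV φ)) (ball 0 1) :=
    ip_int hW (VV_cd hφ) hen (vv_adm hφ).en
  refine ⟨hWL, ?_⟩
  set e : ℕ → ℝ := fun n => 1 / ((n : ℝ) + 1) with he
  have he0 : ∀ n, 0 < e n := fun n => by rw [he]; positivity
  have helim : Tendsto e atTop (𝓝 0) := tendsto_one_div_add_atTop_nhds_zero_nat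
  have hlim : Tendsto (fun n => ∫ z in ball (0 : ℂ) 1,
      (chi (e n) z * ip W (VV φ) z + W z * (cc φ (e n) z + chi (e n) z * LL φ z))) atTop
      (𝓝 (∫ z in ball (0 : ℂ) 1, (ip W (VV φ) z + W z * LL φ z))) := by
    refine tendsto_integral_of_dominated_convergence
      (fun z => |ip W (VV φ) z| + (C + K) * |W z|) ?_ ?_ ?_ ?_
    · intro n
      exact (cut_identity hφ hW (he0 n)).1.aestronglyMeasurable
    · exact hip.abs.add (hWi.const_mul _)
    · intro n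
      filter_upwards [ae_restrict_mem measurableSet_ball] with z hz
      rw [Real.norm_eq_abs]
      have c0 := chi_nonneg (e n) z
      have c1 := chi_le_one (e n) z
      have a1 : |chi (e n) z * ip W (VV φ) z| ≤ |ip W (VV φ) z| := by
        rw [abs_mul, abs_of_nonneg c0]
        exact mul_le_of_le_one_left (abs_nonneg _) c1
      have a2 : |cc φ (e n) z + chi (e n) z * LL φ z| ≤ C + K := by
        refine (abs_add_le _ _).trans ?_
        gcongr
        · exact hC _ (he0 n) z hz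
        · rw [abs_mul, abs_of_nonneg c0]
          exact (mul_le_of_le_one_left (abs_nonneg _) c1).trans (hK z hz)
      refine (abs_add_le _ _).trans ?_
      gcongr
      rw [abs_mul, mul_comm]
      gcongr
    · filter_upwards [ae_restrict_mem measurableSet_ball] with z hz
      have hz' : ‖z‖ < 1 := by simpa using hz
      have h3 : 0 < 1 - ‖z‖ ^ 2 := by nlinarith [norm_nonneg z]
      have h4 : ∀ᶠ n in atTop, e n < (1 - ‖z‖ ^ 2) / 2 :=
        helim.eventually_lt_const (by linarith)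
      refine tendsto_const_nhds.congr' ?_
      filter_upwards [h4] with n hn
      rw [chi_one (he0 n) (by linarith), cc_zero (he0 n) (by linarith)]
      ring
  have h0 : ∀ n, ∫ z in ball (0 : ℂ) 1,
      (chi (e n) z * ip W (VV φ) z + W z * (cc φ (e n) z + chi (e n) z * LL φ z)) = 0 :=
    fun n => (cut_identity hφ hW (he0 n)).2
  simp only [h0] at hlim
  have h1 := tendsto_nhds_unique hlim tendsto_const_nhds
  rw [integral_add hip hWL] at h1
  linarith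

/-- pointwise form of `V` off the origin. -/
lemma VV_eq {φ : ℂ → ℂ} (hφ : Conf φ) {z : ℂ} (hz : z ≠ 0) :
    VV φ z = (1 - ‖z‖ ^ 2) ^ 2 / ‖z‖ ^ 2 * ‖φ z‖ ^ 2 := by
  unfold VV
  rw [TrIbp.psi_ne hφ hz, norm_div, div_pow]
  ring

end Crest.Agent.R101
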