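import Crest.Agent.R101.Defs

/-! Row 101, route `trace_pos` (helper96): INTERFACE, with `sorry`; never import in a final file. -/

set_option autoImplicit false

open MeasureTheory Metric Set Complex ComplexConjugate
open scoped ENNReal Real

namespace Crest.Agent.R101.TrIface

open Crest.Agent.R101

/-- integrand of `energy_le`. -/
noncomputable def EE (φ : ℂ → ℂ) (W : ℂ → ℝ) (β ζ : ℂ) : ℝ :=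
  RR β ζ ^ 2 * ‖φ ζ‖ ^ 2 * rho φ ζ + 2 * W ζ ^ 2 * ‖MM' β ζ‖ ^ 2 - 2 * RR β ζ * kap φ β ζ * W ζ

/-- `∫ K q ρ`. -/
noncomputable def T1 (φ : ℂ → ℂ) : ℝ :=
  ∫ z in ball (0 : ℂ) 1, (1 - ‖z‖ ^ 2) ^ 2 / ‖z‖ ^ 2 * ‖φ z‖ ^ 2 * rho φ z

/-- (a) helper96, file `TrSer.lean`. -/
theorem series_bounds {φ : ℂ → ℂ} (hφ : Conf φ) :
    IntegrableOn (fun z => (1 - ‖z‖ ^ 2) ^ 2 / ‖z‖ ^ 2 * ‖φ z‖ ^ 2 * rho φ z) (ball 0 1) ∧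
    0 < T1 φ ∧
    IntegrableOn (fun z => ‖φ z‖ ^ 4 * (1 + (‖z‖ ^ 4)⁻¹)) (ball 0 1) ∧
    ∫ z in ball (0 : ℂ) 1, ‖φ z‖ ^ 4 * (1 + (‖z‖ ^ 4)⁻¹) = 4 * T1 φ ∧
    IntegrableOn (fun z => (1 - ‖z‖ ^ 2) ^ 2 / ‖z‖ ^ 2 * ‖φ z‖ ^ 4 * rho φ z) (ball 0 1) ∧
    ∫ z in ball (0 : ℂ) 1, (1 - ‖z‖ ^ 2) ^ 2 / ‖z‖ ^ 2 * ‖φ z‖ ^ 4 * rho φ z ≤
      2 / 3 * ((∫ z in ball (0 : ℂ) 1, rho φ z) / π) * T1 φ ∧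
    IntegrableOn (fun z => (1 - ‖z‖ ^ 2) ^ 4 * ‖φ z‖ ^ 4 * rho φ z ^ 2) (ball 0 1) ∧
    ∫ z in ball (0 : ℂ) 1, (1 - ‖z‖ ^ 2) ^ 4 * ‖φ z‖ ^ 4 * rho φ z ^ 2 ≤
      2 / 5 * ((∫ z in ball (0 : ℂ) 1, rho φ z) / π) ^ 2 * T1 φ := by
  sorry

/-- (d) pointwise identity for the trace, file `TrPt.lean`:
`s = ‖z‖²`, `q = ‖φ‖²`, `r q_r = 2 Re (z φ' conj φ)`. -/
theorem EE_sum (φ : ℂ → ℂ) (W : ℂ → ℝ) {z : ℂ} (hz : z ≠ 0) :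
    EE φ W 1 z + EE φ W I z =
      (1 - ‖z‖ ^ 2) ^ 2 / ‖z‖ ^ 2 * ‖φ z‖ ^ 2 * rho φ z + 4 * (1 + (‖z‖ ^ 4)⁻¹) * W z ^ 2
      - 2 * W z * ((1 - ‖z‖ ^ 2) ^ 2 / ‖z‖ ^ 2 * rho φ z
        - (1 - ‖z‖ ^ 4) / ‖z‖ ^ 4 * (2 * (z * deriv φ z * conj (φ z)).re)) := by
  sorry

/-- (e) main statement, file `TrMain.lean`. -/
theorem trace_pos {φ : ℂ → ℂ} {U W : ℂ → ℝ} {μ : ℝ} (h : Setting φ U μ) (hW : WSet φ W μ 1)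
    (h1 : IntegrableOn (EE φ W 1) (ball 0 1)) (hI : IntegrableOn (EE φ W I) (ball 0 1)) :
    0 < (∫ z in ball (0 : ℂ) 1, EE φ W 1 z) + ∫ z in ball (0 : ℂ) 1, EE φ W I z := by
  sorry

end Crest.Agent.R101.TrIface
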