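import Crest.Agent.R101.Defs

/-! Row 101, route `trace_pos`: power series on the disc and weighted Parseval. -/

set_option autoImplicit false

open MeasureTheory Metric Set Complex ComplexConjugate
open scoped ENNReal Real

namespace Crest.Agent.R101

theorem circle_orth (n m : ℕ) :
    ∫ θ in Ioo (-π) π, exp (n * (θ : ℂ) * I) * conj (exp (m * (θ : ℂ) * I)) =
      if n = m then (2 * π : ℂ) else 0 := by
  have h1 : ∀ θ : ℝ, exp (n * (θ : ℂ) * I) * conj (exp (m * (θ : ℂ) * I)) =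
      exp (((n : ℂ) - m) * I * θ) := by
    intro θ
    rw [← Complex.exp_conj, ← Complex.exp_add]
    congr 1
    simp
    ring
  simp_rw [h1]
  rw [← integral_Ioc_eq_integral_Ioo, ← intervalIntegral.integral_of_le (by linarith [Real.pi_pos])]
  split_ifs with h
  · subst h
    simp
    ring
  · have hc : ((n : ℂ) - m) * I ≠ 0 := by
      refine mul_ne_zero ?_ I_ne_zero
      rw [sub_ne_zero]
      exact_mod_cast h
    rw [integral_exp_mul_complex hc]
    have : exp (((n : ℂ) - m) * I * (π : ℝ)) = exp (((n : ℂ) - m) * I * ((-π : ℝ) : ℂ)) := by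
      rw [Complex.exp_eq_exp_iff_exists_int]
      refine ⟨(n : ℤ) - m, ?_⟩
      push_cast
      ring
    rw [this]
    simp

theorem circle_parseval (u : ℕ → ℂ) (hu : Summable (fun n => ‖u n‖)) :
    ∫ θ in Ioo (-π) π, ‖∑' n, u n * exp (n * (θ : ℂ) * I)‖ ^ 2 = 2 * π * ∑' n, ‖u n‖ ^ 2 := by
  set e : ℕ → ℝ → ℂ := fun n θ => exp (n * (θ : ℂ) * I) with he
  have hen : ∀ n θ, ‖e n θ‖ = 1 := by
    intro n θ
    have : (n * (θ : ℂ) * I) = ((n * θ : ℝ) : ℂ) * I := by push_cast; ring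
    rw [he]
    simp only [this]
    exact Complex.norm_exp_ofReal_mul_I _
  have hs1 : ∀ θ, Summable (fun n => ‖u n * e n θ‖) := by
    intro θ
    simpa [norm_mul, hen] using hu
  have hs2 : ∀ θ, Summable (fun n => ‖conj (u n * e n θ)‖) := by
    intro θ
    simpa only [RCLike.norm_conj] using hs1 θ
  have key : ∀ θ : ℝ, ((‖∑' n, u n * e n θ‖ ^ 2 : ℝ) : ℂ) =
      ∑' p : ℕ × ℕ, (u p.1 * e p.1 θ) * conj (u p.2 * e p.2 θ) := by
    intro θ
    rw [← tsum_mul_tsum_of_summable_norm (hs1 θ) (hs2 θ)]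
    have : ∑' n, conj (u n * e n θ) = conj (∑' n, u n * e n θ) := by
      rw [Complex.conj_tsum]
    rw [this, Complex.mul_conj, Complex.normSq_eq_norm_sq]
  have hcont : ∀ n, Continuous (e n) := by
    intro n
    simp only [he]
    fun_prop
  have hF_int : ∀ p : ℕ × ℕ, Integrable
      (fun θ : ℝ => (u p.1 * e p.1 θ) * conj (u p.2 * e p.2 θ)) (volume.restrict (Ioo (-π) π)) := by
    intro p
    have hc : Continuous (fun θ : ℝ => (u p.1 * e p.1 θ) * conj (u p.2 * e p.2 θ)) := by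
      have := hcont p.1
      have := hcont p.2
      fun_prop
    exact (hc.integrableOn_Icc).mono_set Ioo_subset_Icc_self
  have hnorm : ∀ p : ℕ × ℕ, ∀ θ, ‖(u p.1 * e p.1 θ) * conj (u p.2 * e p.2 θ)‖ =
      ‖u p.1‖ * ‖u p.2‖ := by
    intro p θ
    simp [hen]
  have hF_sum : Summable (fun p : ℕ × ℕ =>
      ∫ θ, ‖(u p.1 * e p.1 θ) * conj (u p.2 * e p.2 θ)‖ ∂(volume.restrict (Ioo (-π) π))) := by
    simp_rw [hnorm]
    simp only [integral_const, smul_eq_mul]
    apply Summable.mul_left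
    exact hu.mul_of_nonneg hu (fun _ => norm_nonneg _) (fun _ => norm_nonneg _)
  have h2 := hasSum_integral_of_summable_integral_norm hF_int hF_sum
  have h3 : ∀ p : ℕ × ℕ, ∫ θ, (u p.1 * e p.1 θ) * conj (u p.2 * e p.2 θ)
      ∂(volume.restrict (Ioo (-π) π)) = if p.1 = p.2 then (2 * π * ‖u p.1‖ ^ 2 : ℂ) else 0 := by
    intro p
    have : ∀ θ : ℝ, (u p.1 * e p.1 θ) * conj (u p.2 * e p.2 θ) =
        (u p.1 * conj (u p.2)) * (e p.1 θ * conj (e p.2 θ)) := by
      intro θ
      rw [map_mul]; ring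
    simp_rw [this]
    rw [integral_const_mul, circle_orth]
    split_ifs with h
    · rw [h, Complex.mul_conj, Complex.normSq_eq_norm_sq]
      push_cast
      ring
    · simp
  simp_rw [h3, ← key] at h2
  have h4 := h2.tsum_eq
  rw [integral_complex_ofReal] at h4
  have h5 : ∑' p : ℕ × ℕ, (if p.1 = p.2 then (2 * π * ‖u p.1‖ ^ 2 : ℂ) else 0) =
      ∑' n : ℕ, (2 * π * ‖u n‖ ^ 2 : ℂ) := by
    have hinj : Function.Injective (fun n : ℕ => (n, n)) := by
      intro a b h
      simpa using h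
    rw [← hinj.tsum_eq]
    · simp
    · intro p hp
      rw [Function.mem_support] at hp
      by_contra hcon
      apply hp
      rw [if_neg]
      intro h
      apply hcon
      exact ⟨p.1, by ext <;> simp [h]⟩
  rw [h5] at h4
  have h6 : ∑' n : ℕ, (2 * π * ‖u n‖ ^ 2 : ℂ) = ((2 * π * ∑' n, ‖u n‖ ^ 2 : ℝ) : ℂ) := by
    rw [tsum_mul_left]
    push_cast
    rfl
  rw [h6] at h4
  exact (Complex.ofReal_injective h4).symm


/-- power series expansion on the open unit disc. -/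
def PS (c : ℕ → ℂ) (F : ℂ → ℂ) : Prop := ∀ z ∈ ball (0 : ℂ) 1, HasSum (fun n => c n * z ^ n) (F z)

theorem PS.summable {c : ℕ → ℂ} {F : ℂ → ℂ} (h : PS c F) {z : ℂ} (hz : z ∈ ball (0 : ℂ) 1) :
    Summable (fun n => ‖c n * z ^ n‖) := (h z hz).summable.norm

theorem PS.tsum_eq {c : ℕ → ℂ} {F : ℂ → ℂ} (h : PS c F) {z : ℂ} (hz : z ∈ ball (0 : ℂ) 1) :
    F z = ∑' n, c n * z ^ n := (h z hz).tsum_eq.symm

theorem PS.circle {c : ℕ → ℂ} {F : ℂ → ℂ} (h : PS c F) (hF : ContinuousOn F (ball 0 1))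
    {r : ℝ} (h0 : 0 < r) (h1 : r < 1) :
    ∫⁻ θ in Ioo (-π) π, ‖F ((r : ℂ) * (Real.cos θ + Real.sin θ * I))‖ₑ ^ 2 =
      ENNReal.ofReal (2 * π) * ∑' n, ‖c n‖ₑ ^ 2 * ENNReal.ofReal ((r ^ 2) ^ n) := by
  have hmem : ∀ θ : ℝ, (r : ℂ) * (Real.cos θ + Real.sin θ * I) ∈ ball (0 : ℂ) 1 := by
    intro θ
    rw [mem_ball_zero_iff, norm_mul, Complex.norm_real, Real.norm_eq_abs, abs_of_pos h0,
      Complex.ofReal_cos, Complex.ofReal_sin, ← Complex.exp_mul_I,
      Complex.norm_exp_ofReal_mul_I, mul_one]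
    exact h1
  have hr : (r : ℂ) ∈ ball (0 : ℂ) 1 := by
    rw [mem_ball_zero_iff, Complex.norm_real, Real.norm_eq_abs, abs_of_pos h0]; exact h1
  have hsum : Summable (fun n => ‖c n * (r : ℂ) ^ n‖) := h.summable hr
  have hpar := circle_parseval (fun n => c n * (r : ℂ) ^ n) hsum
  have heq : ∀ θ : ℝ, F ((r : ℂ) * (Real.cos θ + Real.sin θ * I)) =
      ∑' n, c n * (r : ℂ) ^ n * exp (n * (θ : ℂ) * I) := by
    intro θ
    rw [h.tsum_eq (hmem θ)]
    congr 1
    ext n
    rw [mul_pow, mul_assoc]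
    congr 2
    rw [Complex.ofReal_cos, Complex.ofReal_sin, ← Complex.exp_mul_I, ← Complex.exp_nat_mul]
    congr 1
    ring
  have hcont : Continuous (fun θ : ℝ => F ((r : ℂ) * (Real.cos θ + Real.sin θ * I))) := by
    apply hF.comp_continuous (by fun_prop) hmem
  have hint : Integrable (fun θ : ℝ => ‖F ((r : ℂ) * (Real.cos θ + Real.sin θ * I))‖ ^ 2)
      (volume.restrict (Ioo (-π) π)) := by
    exact ((hcont.norm.pow 2).integrableOn_Icc).mono_set Ioo_subset_Icc_self
  have h2 : ∀ θ : ℝ, ‖F ((r : ℂ) * (Real.cos θ + Real.sin θ * I))‖ₑ ^ 2 =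
      ENNReal.ofReal (‖F ((r : ℂ) * (Real.cos θ + Real.sin θ * I))‖ ^ 2) := by
    intro θ
    rw [ENNReal.ofReal_pow (norm_nonneg _), ofReal_norm]
  simp_rw [h2]
  rw [← ofReal_integral_eq_lintegral_ofReal hint (Filter.Eventually.of_forall fun θ => by positivity)]
  simp_rw [heq]
  rw [hpar, ENNReal.ofReal_mul (by positivity), ENNReal.ofReal_tsum_of_nonneg]
  · congr 2
    ext n
    rw [norm_mul, mul_pow, ENNReal.ofReal_mul (by positivity), ENNReal.ofReal_pow (norm_nonneg _),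
      ofReal_norm]
    congr 2
    rw [norm_pow, Complex.norm_real, Real.norm_eq_abs, abs_of_pos h0]
    ring
  · intro n; positivity
  · have := hsum.mul_of_nonneg hsum (fun _ => norm_nonneg _) (fun _ => norm_nonneg _)
    have h3 := this.comp_injective (i := fun n : ℕ => (n, n)) (by intro a b h; simpa using h)
    refine h3.congr ?_
    intro n
    simp [Function.comp, sq]

theorem PS.parseval {c : ℕ → ℂ} {F : ℂ → ℂ} (h : PS c F) (hF : ContinuousOn F (ball 0 1))
    {g : ℝ → ℝ≥0∞} (hg : Measurable g) :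
    ∫⁻ z in ball (0 : ℂ) 1, g (‖z‖ ^ 2) * ‖F z‖ₑ ^ 2 =
      ENNReal.ofReal π * ∑' n, ‖c n‖ₑ ^ 2 * ∫⁻ s in Ioo (0 : ℝ) 1, g s * ENNReal.ofReal (s ^ n) := by
  classical
  set G : ℂ → ℂ := (ball (0 : ℂ) 1).piecewise F 0 with hG
  have hGm : Measurable G := hF.measurable_piecewise continuousOn_const measurableSet_ball
  have hGF : ∀ z ∈ ball (0 : ℂ) 1, G z = F z := fun z hz => by simp [hG, hz]
  set H : ℂ → ℝ≥0∞ := (ball (0 : ℂ) 1).indicator (fun z => g (‖z‖ ^ 2) * ‖G z‖ₑ ^ 2) with hH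
  have hHm : Measurable H := by
    apply Measurable.indicator _ measurableSet_ball
    exact (hg.comp (measurable_norm.pow_const 2)).mul (hGm.enorm.pow_const 2)
  have e1 : ∫⁻ z in ball (0 : ℂ) 1, g (‖z‖ ^ 2) * ‖F z‖ₑ ^ 2 = ∫⁻ z, H z := by
    rw [hH, lintegral_indicator measurableSet_ball]
    apply setLIntegral_congr_fun measurableSet_ball
    intro z hz
    simp only [hGF z hz]
  rw [e1, ← Complex.lintegral_comp_polarCoord_symm, polarCoord_target,
    Measure.volume_eq_prod, ← Measure.prod_restrict, lintegral_prod]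
  swap
  · apply Measurable.aemeasurable
    have hm1 : Measurable (fun p : ℝ × ℝ => ENNReal.ofReal p.1) :=
      ENNReal.measurable_ofReal.comp measurable_fst
    have hm2 : Measurable (fun p : ℝ × ℝ => H (Complex.polarCoord.symm p)) := by
      apply hHm.comp
      have : (fun p : ℝ × ℝ => Complex.polarCoord.symm p) =
        fun p : ℝ × ℝ => (p.1 : ℂ) * (Real.cos p.2 + Real.sin p.2 * I) := by
        ext p
        exact Complex.polarCoord_symm_apply p
      change Measurable (fun p : ℝ × ℝ => Complex.polarCoord.symm p)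
      rw [this]
      fun_prop
    exact hm1.mul hm2
  have e2 : ∀ r ∈ Ioi (0 : ℝ), ∫⁻ θ in Ioo (-π) π, ENNReal.ofReal (r, θ).1 •
      H (Complex.polarCoord.symm (r, θ)) = (Ioo (0 : ℝ) 1).indicator (fun r =>
        ENNReal.ofReal |2 * r| * (ENNReal.ofReal π *
          (g (r ^ 2) * ∑' n, ‖c n‖ₑ ^ 2 * ENNReal.ofReal ((r ^ 2) ^ n)))) r := by
    intro r hr
    have hr0 : 0 < r := hr
    by_cases h1 : r < 1
    · rw [indicator_of_mem (show r ∈ Ioo (0 : ℝ) 1 from ⟨hr0, h1⟩)]
      have hmem : ∀ θ : ℝ, (r : ℂ) * (Real.cos θ + Real.sin θ * I) ∈ ball (0 : ℂ) 1 ∧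
          ‖(r : ℂ) * (Real.cos θ + Real.sin θ * I)‖ = r := by
        intro θ
        have : ‖(r : ℂ) * (Real.cos θ + Real.sin θ * I)‖ = r := by
          rw [norm_mul, Complex.norm_real, Real.norm_eq_abs, abs_of_pos hr0,
            Complex.ofReal_cos, Complex.ofReal_sin, ← Complex.exp_mul_I,
            Complex.norm_exp_ofReal_mul_I, mul_one]
        exact ⟨by rw [mem_ball_zero_iff, this]; exact h1, this⟩
      have e3 : ∀ θ : ℝ, ENNReal.ofReal (r, θ).1 • H (Complex.polarCoord.symm (r, θ)) =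
          (ENNReal.ofReal r * g (r ^ 2)) *
            ‖F ((r : ℂ) * (Real.cos θ + Real.sin θ * I))‖ₑ ^ 2 := by
        intro θ
        simp only [Complex.polarCoord_symm_apply, smul_eq_mul]
        rw [hH, indicator_of_mem (hmem θ).1, hGF _ (hmem θ).1, (hmem θ).2, mul_assoc]
      simp_rw [e3]
      rw [lintegral_const_mul, h.circle hF hr0 h1]
      · rw [abs_of_pos (by positivity), ENNReal.ofReal_mul (by norm_num : (0 : ℝ) ≤ 2),
          ENNReal.ofReal_mul (by norm_num : (0 : ℝ) ≤ 2)]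
        ring
      · apply Continuous.measurable
        have : Continuous (fun θ : ℝ => F ((r : ℂ) * (Real.cos θ + Real.sin θ * I))) :=
          hF.comp_continuous (by fun_prop) (fun θ => (hmem θ).1)
        exact (ENNReal.continuous_pow 2).comp this.enorm
    · rw [indicator_of_notMem (fun hh => h1 hh.2)]
      have e3 : ∀ θ : ℝ, ENNReal.ofReal (r, θ).1 • H (Complex.polarCoord.symm (r, θ)) = 0 := by
        intro θ
        simp only [Complex.polarCoord_symm_apply, smul_eq_mul]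
        rw [hH, indicator_of_notMem, mul_zero]
        rw [mem_ball_zero_iff, norm_mul, Complex.norm_real, Real.norm_eq_abs, abs_of_pos hr0,
          Complex.ofReal_cos, Complex.ofReal_sin, ← Complex.exp_mul_I,
          Complex.norm_exp_ofReal_mul_I, mul_one]
        exact h1
      simp_rw [e3]
      simp
  rw [setLIntegral_congr_fun measurableSet_Ioi e2, ← lintegral_indicator measurableSet_Ioi]
  have e4 : (Ioi (0 : ℝ)).indicator ((Ioo (0 : ℝ) 1).indicator (fun r =>
        ENNReal.ofReal |2 * r| * (ENNReal.ofReal π *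
          (g (r ^ 2) * ∑' n, ‖c n‖ₑ ^ 2 * ENNReal.ofReal ((r ^ 2) ^ n))))) =
      (Ioo (0 : ℝ) 1).indicator (fun r =>
        ENNReal.ofReal |2 * r| * (ENNReal.ofReal π *
          (g (r ^ 2) * ∑' n, ‖c n‖ₑ ^ 2 * ENNReal.ofReal ((r ^ 2) ^ n)))) := by
    rw [indicator_indicator]
    congr 1
    ext x
    simp only [mem_inter_iff, mem_Ioi, mem_Ioo]
    tauto
  rw [e4, lintegral_indicator measurableSet_Ioo]
  have himg : (fun r : ℝ => r ^ 2) '' Ioo 0 1 = Ioo 0 1 := by
    ext x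
    simp only [mem_image, mem_Ioo]
    constructor
    · rintro ⟨y, ⟨hy0, hy1⟩, rfl⟩
      exact ⟨by positivity, by nlinarith⟩
    · rintro ⟨hx0, hx1⟩
      refine ⟨Real.sqrt x, ⟨Real.sqrt_pos.2 hx0, ?_⟩, Real.sq_sqrt hx0.le⟩
      rw [Real.sqrt_lt' one_pos]
      simpa using hx1
  have hinj : InjOn (fun r : ℝ => r ^ 2) (Ioo 0 1) := by
    intro a ha b hb hab
    simp only at hab
    exact (pow_left_inj₀ ha.1.le hb.1.le two_ne_zero).1 hab
  have e5 := lintegral_image_eq_lintegral_abs_deriv_mul (f := fun r : ℝ => r ^ 2)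
    (f' := fun r => 2 * r) measurableSet_Ioo
    (fun x _ => by simpa using (hasDerivAt_pow 2 x).hasDerivWithinAt) hinj
    (fun s => ENNReal.ofReal π * (g s * ∑' n, ‖c n‖ₑ ^ 2 * ENNReal.ofReal (s ^ n)))
  rw [himg] at e5
  rw [← e5, lintegral_const_mul]
  · congr 1
    simp_rw [← ENNReal.tsum_mul_left]
    rw [lintegral_tsum]
    · congr 1
      ext n
      rw [← lintegral_const_mul]
      · congr 1
        ext s
        ring
      · exact hg.mul (by fun_prop)
    · intro n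
      exact (hg.mul (by fun_prop)).aemeasurable
  · apply hg.mul
    apply Measurable.tsum
    intro n
    fun_prop

end Crest.Agent.R101
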