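import Crest.Agent.R101.TrPS

/-! Row 101, route `trace_pos`: the three power series bounds. -/

set_option autoImplicit false

open MeasureTheory Metric Set Complex ComplexConjugate
open scoped ENNReal Real

namespace Crest.Agent.R101

namespace TrSer

/-- Taylor coefficients at `0`. -/
noncomputable def tc (F : ℂ → ℂ) (n : ℕ) : ℂ := (n.factorial : ℂ)⁻¹ * iteratedDeriv n F 0

theorem ps_tc {F : ℂ → ℂ} (hF : DifferentiableOn ℂ F (ball 0 1)) : PS (tc F) F := by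
  intro z hz
  have := Complex.hasSum_taylorSeries_on_ball hF hz
  have h2 : (fun n => tc F n * z ^ n) =
      fun n : ℕ => ((n.factorial : ℂ))⁻¹ • (z - 0) ^ n • iteratedDeriv n F 0 := by
    ext n
    simp only [tc, sub_zero, smul_eq_mul]
    ring
  rw [h2]
  exact this

theorem tc_deriv (F : ℂ → ℂ) (n : ℕ) : tc (deriv F) n = (n + 1) * tc F (n + 1) := by
  simp only [tc]
  rw [iteratedDeriv_succ', Nat.factorial_succ]
  push_cast
  have h1 : (n.factorial : ℂ) ≠ 0 := by exact_mod_cast n.factorial_ne_zero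
  have h2 : (n : ℂ) + 1 ≠ 0 := by exact_mod_cast n.succ_ne_zero
  field_simp

/-- Cauchy product of sequences. -/
noncomputable def conv (c d : ℕ → ℂ) (n : ℕ) : ℂ :=
  ∑ p ∈ Finset.HasAntidiagonal.antidiagonal n, c p.1 * d p.2

theorem ps_mul {c d : ℕ → ℂ} {F G : ℂ → ℂ} (hc : PS c F) (hd : PS d G) :
    PS (conv c d) (fun z => F z * G z) := by
  intro z hz
  have h1 := hc.summable hz
  have h2 := hd.summable hz
  have h3 := tsum_mul_tsum_eq_tsum_sum_antidiagonal_of_summable_norm h1 h2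
  have h4 := summable_norm_sum_mul_antidiagonal_of_summable_norm h1 h2
  have h5 : ∀ n, ∑ kl ∈ Finset.HasAntidiagonal.antidiagonal n, c kl.1 * z ^ kl.1 * (d kl.2 * z ^ kl.2) =
      conv c d n * z ^ n := by
    intro n
    rw [conv, Finset.sum_mul]
    apply Finset.sum_congr rfl
    intro p hp
    rw [← Finset.HasAntidiagonal.mem_antidiagonal.1 hp, pow_add]
    ring
  simp_rw [h5] at h3 h4
  show HasSum _ (F z * G z)
  rw [hc.tsum_eq hz, hd.tsum_eq hz, h3]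
  exact h4.of_norm.hasSum

/-- Cauchy product in `ℝ≥0∞`. -/
theorem ennreal_conv (x y : ℕ → ℝ≥0∞) :
    ∑' n, ∑ p ∈ Finset.HasAntidiagonal.antidiagonal n, x p.1 * y p.2 = (∑' n, x n) * ∑' n, y n := by
  have h1 : (∑' n, x n) * ∑' n, y n = ∑' p : ℕ × ℕ, x p.1 * y p.2 := by
    rw [ENNReal.tsum_prod (f := fun a b => x a * y b)]
    simp_rw [ENNReal.tsum_mul_left, ENNReal.tsum_mul_right]
  rw [h1, ← Finset.HasAntidiagonal.sigmaAntidiagonalEquivProd.tsum_eq, ENNReal.tsum_sigma']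
  congr 1
  ext n
  rw [tsum_fintype, ← Finset.sum_finset_coe]
  rfl


/-- sums over the antidiagonal. -/
theorem sum_anti_one (n : ℕ) :
    ∑ p ∈ Finset.HasAntidiagonal.antidiagonal n, ((p.1 : ℝ) * (p.2 + 1)) =
      n * (n + 1) * (n + 2) / 6 := by
  rw [Finset.Nat.sum_antidiagonal_eq_sum_range_succ (fun i j => ((i : ℝ) * (j + 1)))]
  induction n with
  | zero => simp
  | succ n ih =>
    rw [Finset.sum_range_succ]
    have h1 : ∀ k ∈ Finset.range (n + 1), ((k : ℝ) * (((n + 1 - k : ℕ) : ℝ) + 1)) =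
        (k : ℝ) * (((n - k : ℕ) : ℝ) + 1) + k := by
      intro k hk
      have hk' : k ≤ n := Nat.lt_succ_iff.1 (Finset.mem_range.1 hk)
      rw [Nat.cast_sub (by omega), Nat.cast_sub hk']
      push_cast
      ring
    rw [Finset.sum_congr rfl h1, Finset.sum_add_distrib, ih]
    have h2 : ∑ k ∈ Finset.range (n + 1), (k : ℝ) = n * (n + 1) / 2 := by
      have := Finset.sum_range_id_mul_two (n + 1)
      have h3 : ((∑ i ∈ Finset.range (n + 1), i : ℕ) : ℝ) * 2 = ((n + 1 : ℕ) : ℝ) * n := by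
        exact_mod_cast this
      push_cast at h3
      linarith
    rw [h2]
    push_cast
    simp
    ring

theorem sum_anti_three (n : ℕ) :
    ∑ p ∈ Finset.HasAntidiagonal.antidiagonal n,
      (((p.1 : ℝ) * (p.1 + 1) * (p.1 + 2) / 6) * (p.2 + 1)) =
      n * (n + 1) * (n + 2) * (n + 3) * (n + 4) / 120 := by
  rw [Finset.Nat.sum_antidiagonal_eq_sum_range_succ
    (fun i j => (((i : ℝ) * (i + 1) * (i + 2) / 6) * (j + 1)))]
  have h3 : ∀ m : ℕ, ∑ k ∈ Finset.range (m + 1), ((k : ℝ) * (k + 1) * (k + 2) / 6) =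
      m * (m + 1) * (m + 2) * (m + 3) / 24 := by
    intro m
    induction m with
    | zero => simp
    | succ m ih =>
      rw [Finset.sum_range_succ, ih]
      push_cast
      ring
  induction n with
  | zero => simp
  | succ n ih =>
    rw [Finset.sum_range_succ]
    have h1 : ∀ k ∈ Finset.range (n + 1),
        (((k : ℝ) * (k + 1) * (k + 2) / 6) * (((n + 1 - k : ℕ) : ℝ) + 1)) =
        ((k : ℝ) * (k + 1) * (k + 2) / 6) * (((n - k : ℕ) : ℝ) + 1) +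
          ((k : ℝ) * (k + 1) * (k + 2) / 6) := by
      intro k hk
      have hk' : k ≤ n := Nat.lt_succ_iff.1 (Finset.mem_range.1 hk)
      rw [Nat.cast_sub (by omega), Nat.cast_sub hk']
      push_cast
      ring
    rw [Finset.sum_congr rfl h1, Finset.sum_add_distrib, ih, h3]
    push_cast
    simp
    ring

/-- Cauchy–Schwarz for Cauchy products. -/
theorem conv_sq_le {c d : ℕ → ℂ} {x y u v : ℕ → ℝ} (hx : ∀ i, 0 ≤ x i) (hy : ∀ i, 0 ≤ y i)
    (hu : ∀ i, 0 ≤ u i) (hv : ∀ i, 0 ≤ v i) (hc : ∀ i, ‖c i‖ ^ 2 ≤ x i * u i)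
    (hd : ∀ i, ‖d i‖ ^ 2 ≤ y i * v i) (n : ℕ) :
    ‖conv c d n‖ ^ 2 ≤ (∑ p ∈ Finset.HasAntidiagonal.antidiagonal n, x p.1 * y p.2) *
      ∑ p ∈ Finset.HasAntidiagonal.antidiagonal n, u p.1 * v p.2 := by
  calc ‖conv c d n‖ ^ 2 ≤ (∑ p ∈ Finset.HasAntidiagonal.antidiagonal n, ‖c p.1‖ * ‖d p.2‖) ^ 2 := by
        gcongr
        rw [conv]
        refine (norm_sum_le _ _).trans (le_of_eq ?_)
        apply Finset.sum_congr rfl
        intro p _
        rw [norm_mul]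
    _ ≤ _ := by
        apply Finset.sum_sq_le_sum_mul_sum_of_sq_le_mul
        · intro i _; exact mul_nonneg (hx _) (hy _)
        · intro i _; exact mul_nonneg (hu _) (hv _)
        · intro i _
          rw [mul_pow]
          calc ‖c i.1‖ ^ 2 * ‖d i.2‖ ^ 2 ≤ (x i.1 * u i.1) * (y i.2 * v i.2) :=
                mul_le_mul (hc _) (hd _) (by positivity) (mul_nonneg (hx _) (hu _))
            _ = _ := by ring

/-- `∫_0^1` of the elementary weights. -/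
theorem lint_of_int {f : ℝ → ℝ} (hf : Continuous f) (h0 : ∀ s ∈ Ioo (0 : ℝ) 1, 0 ≤ f s) {a : ℝ}
    (ha : ∫ s in (0 : ℝ)..1, f s = a) : ∫⁻ s in Ioo (0 : ℝ) 1, ENNReal.ofReal (f s) =
      ENNReal.ofReal a := by
  rw [← ha, intervalIntegral.integral_of_le zero_le_one, integral_Ioc_eq_integral_Ioo,
    ofReal_integral_eq_lintegral_ofReal]
  · exact (hf.integrableOn_Icc).mono_set Ioo_subset_Icc_self
  · exact (ae_restrict_iff' measurableSet_Ioo).2 (Filter.Eventually.of_forall h0)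

theorem int_pow (n : ℕ) : ∫⁻ s in Ioo (0 : ℝ) 1, ENNReal.ofReal (s ^ n) =
    ENNReal.ofReal (1 / (n + 1)) := by
  apply lint_of_int (by fun_prop) (fun s hs => pow_nonneg hs.1.le n)
  rw [integral_pow]
  simp

theorem int_two (n : ℕ) : (∫ s in (0 : ℝ)..1, (1 - s) ^ 2 * s ^ n) =
    (2 / ((n + 1) * (n + 2) * (n + 3)) : ℝ) := by
  have h : ∀ s : ℝ, (1 - s) ^ 2 * s ^ n = s ^ n - 2 * s ^ (n + 1) + s ^ (n + 2) := by
    intro s; ring
  simp_rw [h]
  rw [intervalIntegral.integral_add, intervalIntegral.integral_sub,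
    intervalIntegral.integral_const_mul, integral_pow, integral_pow, integral_pow]
  · simp
    field_simp
    ring
  all_goals
    apply Continuous.intervalIntegrable
    fun_prop

theorem int_four (n : ℕ) : (∫ s in (0 : ℝ)..1, (1 - s) ^ 4 * s ^ n) =
    (24 / ((n + 1) * (n + 2) * (n + 3) * (n + 4) * (n + 5)) : ℝ) := by
  have h : ∀ s : ℝ, (1 - s) ^ 4 * s ^ n = s ^ n - 4 * s ^ (n + 1) + 6 * s ^ (n + 2)
      - 4 * s ^ (n + 3) + s ^ (n + 4) := by
    intro s; ring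
  simp_rw [h]
  rw [intervalIntegral.integral_add, intervalIntegral.integral_sub, intervalIntegral.integral_add,
    intervalIntegral.integral_sub,
    intervalIntegral.integral_const_mul, intervalIntegral.integral_const_mul,
    intervalIntegral.integral_const_mul, integral_pow, integral_pow, integral_pow, integral_pow,
    integral_pow]
  · simp
    field_simp
    ring
  all_goals
    apply Continuous.intervalIntegrable
    fun_prop


theorem int_pow' (n : ℕ) : ∫ s in (0 : ℝ)..1, s ^ n = (1 / (n + 1) : ℝ) := by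
  rw [integral_pow]
  simp

section main

variable (φ : ℂ → ℂ)

/-- coefficients of `φ²`. -/
noncomputable def AA (n : ℕ) : ℂ := tc (fun z => φ z ^ 2) n

/-- coefficients of `φ'`. -/
noncomputable def bb (n : ℕ) : ℂ := tc (deriv φ) n

noncomputable def xx (n : ℕ) : ℝ := ‖AA φ n‖ ^ 2 * (n / ((n : ℝ) ^ 2 - 1))

noncomputable def yy (n : ℕ) : ℝ := ‖bb φ n‖ ^ 2 * (1 / (n + 1))

noncomputable def XX : ℝ≥0∞ := ∑' n, ENNReal.ofReal (xx φ n)

noncomputable def YY : ℝ≥0∞ := ∑' n, ENNReal.ofReal (yy φ n)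

noncomputable def PP (n : ℕ) : ℝ := ∑ p ∈ Finset.HasAntidiagonal.antidiagonal n, xx φ p.1 * yy φ p.2

noncomputable def QQ (n : ℕ) : ℝ := ∑ p ∈ Finset.HasAntidiagonal.antidiagonal n, PP φ p.1 * yy φ p.2

theorem xx_nonneg (n : ℕ) : 0 ≤ xx φ n := by
  unfold xx
  apply mul_nonneg (by positivity)
  rcases Nat.eq_zero_or_pos n with h | h
  · subst h; simp
  · apply div_nonneg (by positivity)
    have : (1 : ℝ) ≤ n := by exact_mod_cast h
    nlinarith

theorem yy_nonneg (n : ℕ) : 0 ≤ yy φ n := by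
  unfold yy
  positivity

theorem PP_nonneg (n : ℕ) : 0 ≤ PP φ n :=
  Finset.sum_nonneg fun _ _ => mul_nonneg (xx_nonneg φ _) (yy_nonneg φ _)

theorem QQ_nonneg (n : ℕ) : 0 ≤ QQ φ n :=
  Finset.sum_nonneg fun _ _ => mul_nonneg (PP_nonneg φ _) (yy_nonneg φ _)

theorem ofReal_anti (f g : ℕ → ℝ) (hf : ∀ n, 0 ≤ f n) (hg : ∀ n, 0 ≤ g n) :
    ∑' n, ENNReal.ofReal (∑ p ∈ Finset.HasAntidiagonal.antidiagonal n, f p.1 * g p.2) =
      (∑' n, ENNReal.ofReal (f n)) * ∑' n, ENNReal.ofReal (g n) := by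
  rw [← ennreal_conv]
  congr 1
  ext n
  rw [ENNReal.ofReal_sum_of_nonneg]
  · apply Finset.sum_congr rfl
    intro p _
    rw [ENNReal.ofReal_mul (hf _)]
  · intro p _
    exact mul_nonneg (hf _) (hg _)

theorem tsum_PP : ∑' n, ENNReal.ofReal (PP φ n) = XX φ * YY φ :=
  ofReal_anti _ _ (xx_nonneg φ) (yy_nonneg φ)

theorem tsum_QQ : ∑' n, ENNReal.ofReal (QQ φ n) = XX φ * YY φ * YY φ := by
  rw [← tsum_PP]
  exact ofReal_anti _ _ (PP_nonneg φ) (yy_nonneg φ)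

variable {φ}

theorem diff_at (hφ : Conf φ) {z : ℂ} (hz : z ∈ ball (0 : ℂ) 1) : DifferentiableAt ℂ φ z :=
  hφ.holo.differentiableAt (isOpen_ball.mem_nhds hz)

theorem diff_deriv (hφ : Conf φ) : DifferentiableOn ℂ (deriv φ) (ball 0 1) :=
  hφ.holo.deriv isOpen_ball

theorem AA_zero (hφ : Conf φ) : AA φ 0 = 0 := by
  simp [AA, tc, hφ.zero]

theorem AA_one (hφ : Conf φ) : AA φ 1 = 0 := by
  have h := diff_at hφ (mem_ball_self one_pos)
  simp only [AA, tc, iteratedDeriv_one]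
  have : deriv (fun z => φ z ^ 2) 0 = 0 := by
    rw [deriv_fun_pow h]
    simp [hφ.zero]
  rw [this]
  simp

theorem AA_le (hφ : Conf φ) (n : ℕ) : ‖AA φ n‖ ^ 2 ≤ xx φ n * n := by
  rcases n with _ | _ | m
  · simp [AA_zero hφ]
  · simp [AA_one hφ, xx]
  · unfold xx
    push_cast
    have hm : (0 : ℝ) ≤ m := m.cast_nonneg
    have h1 : (0 : ℝ) < ((m : ℝ) + 1 + 1) ^ 2 - 1 := by nlinarith
    rw [mul_assoc]
    apply le_mul_of_one_le_right (by positivity)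
    rw [div_mul_eq_mul_div, le_div_iff₀ h1]
    nlinarith

theorem bb_le (n : ℕ) : ‖bb φ n‖ ^ 2 ≤ yy φ n * (n + 1) := by
  unfold yy
  have : (0 : ℝ) < n + 1 := by positivity
  rw [mul_assoc, one_div, inv_mul_cancel₀ this.ne', mul_one]

theorem conv1_le (hφ : Conf φ) (n : ℕ) :
    ‖conv (AA φ) (bb φ) n‖ ^ 2 ≤ PP φ n * ((n : ℝ) * (n + 1) * (n + 2) / 6) := by
  rw [← sum_anti_one n]
  exact conv_sq_le (xx_nonneg φ) (yy_nonneg φ) (fun i => by positivity) (fun i => by positivity)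
    (AA_le hφ) bb_le n

theorem conv2_le (hφ : Conf φ) (n : ℕ) :
    ‖conv (conv (AA φ) (bb φ)) (bb φ) n‖ ^ 2 ≤
      QQ φ n * ((n : ℝ) * (n + 1) * (n + 2) * (n + 3) * (n + 4) / 120) := by
  rw [← sum_anti_three n]
  exact conv_sq_le (PP_nonneg φ) (yy_nonneg φ) (fun i => by positivity) (fun i => by positivity)
    (conv1_le hφ) bb_le n

theorem ps_sq (hφ : Conf φ) : PS (AA φ) (fun z => φ z ^ 2) := ps_tc (hφ.holo.pow 2)

theorem ps_d (hφ : Conf φ) : PS (bb φ) (deriv φ) := ps_tc (diff_deriv hφ)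

theorem ps_1 (hφ : Conf φ) : PS (fun n => 1 / 2 * ((n + 1) * AA φ (n + 1)))
    (fun z => φ z * deriv φ z) := by
  have h1 : PS (tc (deriv fun z => φ z ^ 2)) (deriv fun z => φ z ^ 2) :=
    ps_tc ((hφ.holo.pow 2).deriv isOpen_ball)
  intro z hz
  have h2 := (h1 z hz).mul_left (1 / 2)
  have h3 : deriv (fun z => φ z ^ 2) z = 2 * (φ z * deriv φ z) := by
    rw [deriv_fun_pow (diff_at hφ hz)]
    push_cast
    ring
  rw [h3] at h2
  have h4 : (1 / 2 : ℂ) * (2 * (φ z * deriv φ z)) = φ z * deriv φ z := by ring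
  rw [h4] at h2
  have h5 : (fun n : ℕ => (1 / 2 * ((n + 1) * AA φ (n + 1)) : ℂ) * z ^ n) =
      fun n => 1 / 2 * (tc (deriv fun z => φ z ^ 2) n * z ^ n) := by
    ext n
    rw [tc_deriv, AA]
    ring
  show HasSum (fun n : ℕ => (1 / 2 * ((n + 1) * AA φ (n + 1)) : ℂ) * z ^ n) (φ z * deriv φ z)
  rw [h5]
  exact h2

theorem ps_2 (hφ : Conf φ) : PS (conv (AA φ) (bb φ)) (fun z => φ z ^ 2 * deriv φ z) :=
  ps_mul (ps_sq hφ) (ps_d hφ)

theorem ps_3 (hφ : Conf φ) : PS (conv (conv (AA φ) (bb φ)) (bb φ))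
    (fun z => φ z ^ 2 * deriv φ z * deriv φ z) :=
  ps_mul (ps_2 hφ) (ps_d hφ)

theorem cont_φ (hφ : Conf φ) : ContinuousOn φ (ball 0 1) := hφ.holo.continuousOn

theorem cont_d (hφ : Conf φ) : ContinuousOn (deriv φ) (ball 0 1) := (diff_deriv hφ).continuousOn

theorem enorm_sq_ofReal (z : ℂ) : ‖z‖ₑ ^ 2 = ENNReal.ofReal (‖z‖ ^ 2) := by
  rw [ENNReal.ofReal_pow (norm_nonneg _), ofReal_norm]

theorem lint_rho (hφ : Conf φ) : ∫⁻ z in ball (0 : ℂ) 1, ‖deriv φ z‖ₑ ^ 2 =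
    ENNReal.ofReal π * YY φ := by
  have h := (ps_d hφ).parseval (cont_d hφ) (g := fun _ => 1) measurable_const
  simp only [one_mul] at h
  rw [h]
  congr 1
  unfold YY
  congr 1
  ext n
  rw [int_pow, enorm_sq_ofReal, ← ENNReal.ofReal_mul (by positivity)]
  rfl

theorem lint_w (n : ℕ) : ∫⁻ s in Ioo (0 : ℝ) 1, ENNReal.ofReal ((1 - s) ^ 2 / s) *
    ENNReal.ofReal (s ^ (n + 1)) = ENNReal.ofReal (2 / ((n + 1) * (n + 2) * (n + 3))) := by
  rw [← lint_of_int (f := fun s => (1 - s) ^ 2 * s ^ n) (by fun_prop) _ (int_two n)]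
  · apply setLIntegral_congr_fun measurableSet_Ioo
    intro s hs
    have hs0 : s ≠ 0 := hs.1.ne'
    simp only
    rw [← ENNReal.ofReal_mul (div_nonneg (by positivity) hs.1.le)]
    congr 1
    field_simp
    ring
  · intro s hs
    exact mul_nonneg (by positivity) (pow_nonneg hs.1.le _)

theorem meas_w : Measurable (fun s : ℝ => ENNReal.ofReal ((1 - s) ^ 2 / s)) := by
  fun_prop

theorem lint_1 (hφ : Conf φ) :
    ∫⁻ z in ball (0 : ℂ) 1, ENNReal.ofReal ((1 - ‖z‖ ^ 2) ^ 2 / ‖z‖ ^ 2) *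
      ‖φ z * deriv φ z‖ₑ ^ 2 = ENNReal.ofReal (π / 2) * XX φ := by
  have h := (ps_1 hφ).parseval ((cont_φ hφ).mul (cont_d hφ)) meas_w
  rw [h]
  have h1 : ∀ n : ℕ, ‖(1 / 2 * ((n + 1) * AA φ (n + 1)) : ℂ)‖ₑ ^ 2 *
      ∫⁻ s in Ioo (0 : ℝ) 1, ENNReal.ofReal ((1 - s) ^ 2 / s) * ENNReal.ofReal (s ^ n) =
      ENNReal.ofReal (1 / 2) * ENNReal.ofReal (xx φ (n + 1)) := by
    intro n
    rcases n with _ | m
    · simp [AA_one hφ, xx]
    · rw [lint_w, enorm_sq_ofReal, ← ENNReal.ofReal_mul (by positivity),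
        ← ENNReal.ofReal_mul (by norm_num)]
      congr 1
      have h3 : ‖(1 / 2 * (((m + 1 : ℕ) + 1) * AA φ (m + 1 + 1)) : ℂ)‖ =
          1 / 2 * (((m : ℝ) + 2) * ‖AA φ (m + 1 + 1)‖) := by
        rw [norm_mul, norm_mul]
        congr 1
        · simp
        · congr 1
          have : (((m + 1 : ℕ) : ℂ) + 1) = (((m : ℝ) + 2 : ℝ) : ℂ) := by
            push_cast; ring
          rw [this, Complex.norm_real, Real.norm_eq_abs, abs_of_nonneg (by positivity)]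
      rw [h3]
      unfold xx
      push_cast
      have hm : (0 : ℝ) ≤ m := m.cast_nonneg
      have h4 : ((m : ℝ) + 1 + 1) ^ 2 - 1 = (m + 1) * (m + 3) := by ring
      rw [h4]
      have h5 : (m : ℝ) + 1 ≠ 0 := by positivity
      have h6 : (m : ℝ) + 2 ≠ 0 := by positivity
      have h7 : (m : ℝ) + 3 ≠ 0 := by positivity
      field_simp
      ring
  simp_rw [h1]
  rw [ENNReal.tsum_mul_left]
  have h2 : XX φ = ∑' n, ENNReal.ofReal (xx φ (n + 1)) := by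
    unfold XX
    rw [tsum_eq_zero_add' ENNReal.summable]
    simp [xx]
  rw [← h2, ← mul_assoc, ← ENNReal.ofReal_mul Real.pi_nonneg]
  congr 2
  ring

theorem lint_0 (hφ : Conf φ) :
    ∫⁻ z in ball (0 : ℂ) 1, ENNReal.ofReal (1 + ((‖z‖ ^ 2) ^ 2)⁻¹) *
      ‖φ z ^ 2‖ₑ ^ 2 = ENNReal.ofReal (2 * π) * XX φ := by
  have h := (ps_sq hφ).parseval ((cont_φ hφ).pow 2)
    (g := fun s => ENNReal.ofReal (1 + (s ^ 2)⁻¹)) (by fun_prop)
  rw [h]
  have h1 : ∀ n : ℕ, ‖AA φ n‖ₑ ^ 2 *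
      ∫⁻ s in Ioo (0 : ℝ) 1, ENNReal.ofReal (1 + (s ^ 2)⁻¹) * ENNReal.ofReal (s ^ n) =
      ENNReal.ofReal 2 * ENNReal.ofReal (xx φ n) := by
    intro n
    rcases n with _ | _ | m
    · simp [AA_zero hφ, xx]
    · simp [AA_one hφ, xx]
    · have h2 : ∫⁻ s in Ioo (0 : ℝ) 1, ENNReal.ofReal (1 + (s ^ 2)⁻¹) *
          ENNReal.ofReal (s ^ (m + 1 + 1)) =
          ENNReal.ofReal (1 / ((m + 2 : ℕ) + 1) + 1 / (m + 1)) := by
        rw [← lint_of_int (f := fun s => s ^ (m + 2) + s ^ m) (by fun_prop)]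
        · apply setLIntegral_congr_fun measurableSet_Ioo
          intro s hs
          have hs0 : s ≠ 0 := hs.1.ne'
          have hs1 : 0 < s := hs.1
          simp only
          rw [← ENNReal.ofReal_mul (by positivity)]
          congr 1
          field_simp
          ring
        · intro s hs
          have hs1 : 0 < s := hs.1
          positivity
        · rw [intervalIntegral.integral_add, int_pow', int_pow']
          all_goals
            apply Continuous.intervalIntegrable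
            fun_prop
      rw [h2, enorm_sq_ofReal, ← ENNReal.ofReal_mul (by positivity),
        ← ENNReal.ofReal_mul (by norm_num)]
      congr 1
      unfold xx
      push_cast
      have h4 : ((m : ℝ) + 1 + 1) ^ 2 - 1 = (m + 1) * (m + 3) := by ring
      rw [h4]
      have h5 : (m : ℝ) + 1 ≠ 0 := by positivity
      have h6 : (m : ℝ) + 2 ≠ 0 := by positivity
      have h7 : (m : ℝ) + 3 ≠ 0 := by positivity
      have h8 : (m : ℝ) + 2 + 1 ≠ 0 := by positivity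
      field_simp
      ring
  simp_rw [h1]
  rw [ENNReal.tsum_mul_left, ← mul_assoc, ← ENNReal.ofReal_mul Real.pi_nonneg]
  congr 2
  ring

theorem lint_2 (hφ : Conf φ) :
    ∫⁻ z in ball (0 : ℂ) 1, ENNReal.ofReal ((1 - ‖z‖ ^ 2) ^ 2 / ‖z‖ ^ 2) *
      ‖φ z ^ 2 * deriv φ z‖ₑ ^ 2 ≤ ENNReal.ofReal (π / 3) * (XX φ * YY φ) := by
  have h := (ps_2 hφ).parseval (((cont_φ hφ).pow 2).mul (cont_d hφ)) meas_w
  rw [h, ← tsum_PP, show π / 3 = π * (1 / 3) by ring, ENNReal.ofReal_mul Real.pi_nonneg, mul_assoc,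
    ← ENNReal.tsum_mul_left (a := ENNReal.ofReal (1 / 3))]
  gcongr ENNReal.ofReal π * ?_
  refine ENNReal.tsum_le_tsum fun n => ?_
  rcases n with _ | m
  · simp [conv, AA_zero hφ]
  · rw [lint_w, enorm_sq_ofReal, ← ENNReal.ofReal_mul (by positivity),
        ← ENNReal.ofReal_mul (by norm_num)]
    apply ENNReal.ofReal_le_ofReal
    have h3 := conv1_le hφ (m + 1)
    push_cast at h3
    have hm : (0 : ℝ) ≤ m := m.cast_nonneg
    calc ‖conv (AA φ) (bb φ) (m + 1)‖ ^ 2 * (2 / ((m + 1) * (m + 2) * (m + 3))) ≤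
        (PP φ (m + 1) * (((m : ℝ) + 1) * (m + 1 + 1) * (m + 1 + 2) / 6)) *
          (2 / ((m + 1) * (m + 2) * (m + 3))) := by gcongr
      _ = 1 / 3 * PP φ (m + 1) := by
        have h5 : (m : ℝ) + 1 ≠ 0 := by positivity
        have h6 : (m : ℝ) + 2 ≠ 0 := by positivity
        have h7 : (m : ℝ) + 3 ≠ 0 := by positivity
        field_simp
        ring

theorem lint_3 (hφ : Conf φ) :
    ∫⁻ z in ball (0 : ℂ) 1, ENNReal.ofReal ((1 - ‖z‖ ^ 2) ^ 4) *
      ‖φ z ^ 2 * deriv φ z * deriv φ z‖ₑ ^ 2 ≤ ENNReal.ofReal (π / 5) * (XX φ * YY φ * YY φ) := by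
  have h := (ps_3 hφ).parseval ((((cont_φ hφ).pow 2).mul (cont_d hφ)).mul (cont_d hφ))
    (g := fun s => ENNReal.ofReal ((1 - s) ^ 4)) (by fun_prop)
  rw [h, ← tsum_QQ, show π / 5 = π * (1 / 5) by ring, ENNReal.ofReal_mul Real.pi_nonneg, mul_assoc,
    ← ENNReal.tsum_mul_left (a := ENNReal.ofReal (1 / 5))]
  gcongr ENNReal.ofReal π * ?_
  refine ENNReal.tsum_le_tsum fun n => ?_
  have h2 : ∫⁻ s in Ioo (0 : ℝ) 1, ENNReal.ofReal ((1 - s) ^ 4) * ENNReal.ofReal (s ^ n) =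
      ENNReal.ofReal (24 / ((n + 1) * (n + 2) * (n + 3) * (n + 4) * (n + 5))) := by
    rw [← lint_of_int (f := fun s => (1 - s) ^ 4 * s ^ n) (by fun_prop) _ (int_four n)]
    · apply setLIntegral_congr_fun measurableSet_Ioo
      intro s hs
      simp only
      rw [← ENNReal.ofReal_mul (by positivity)]
    · intro s hs
      exact mul_nonneg (by positivity) (pow_nonneg hs.1.le _)
  rw [h2, enorm_sq_ofReal, ← ENNReal.ofReal_mul (by positivity),
        ← ENNReal.ofReal_mul (by norm_num)]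
  apply ENNReal.ofReal_le_ofReal
  have h3 := conv2_le hφ n
  have hn : (0 : ℝ) ≤ n := n.cast_nonneg
  calc ‖conv (conv (AA φ) (bb φ)) (bb φ) n‖ ^ 2 *
        (24 / ((n + 1) * (n + 2) * (n + 3) * (n + 4) * (n + 5))) ≤
      (QQ φ n * ((n : ℝ) * (n + 1) * (n + 2) * (n + 3) * (n + 4) / 120)) *
        (24 / ((n + 1) * (n + 2) * (n + 3) * (n + 4) * (n + 5))) := by gcongr
    _ = 1 / 5 * QQ φ n * (n / (n + 5)) := by
      have h5 : (n : ℝ) + 1 ≠ 0 := by positivity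
      have h6 : (n : ℝ) + 2 ≠ 0 := by positivity
      have h7 : (n : ℝ) + 3 ≠ 0 := by positivity
      have h8 : (n : ℝ) + 4 ≠ 0 := by positivity
      have h9 : (n : ℝ) + 5 ≠ 0 := by positivity
      field_simp
      ring
    _ ≤ 1 / 5 * QQ φ n := by
      apply mul_le_of_le_one_right (mul_nonneg (by norm_num) (QQ_nonneg φ n))
      rw [div_le_one (by positivity)]
      linarith

theorem YY_fin (hφ : Conf φ) : YY φ ≠ ∞ ∧ (YY φ).toReal = (∫ z in ball (0 : ℂ) 1, rho φ z) / π := by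
  have h1 := ofReal_integral_eq_lintegral_ofReal hφ.rho_int
    (Filter.Eventually.of_forall fun z => by unfold rho; positivity)
  have h2 : ∫⁻ z in ball (0 : ℂ) 1, ENNReal.ofReal (rho φ z) =
      ∫⁻ z in ball (0 : ℂ) 1, ‖deriv φ z‖ₑ ^ 2 := by
    congr 1
    ext z
    rw [enorm_sq_ofReal]
    rfl
  rw [h2, lint_rho hφ] at h1
  have h3 : ENNReal.ofReal π ≠ 0 := by simp [Real.pi_pos]
  constructor
  · intro h
    rw [h, ENNReal.mul_top h3] at h1
    exact ENNReal.ofReal_ne_top h1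
  · have h4 := congrArg ENNReal.toReal h1
    rw [ENNReal.toReal_mul, ENNReal.toReal_ofReal Real.pi_nonneg, ENNReal.toReal_ofReal] at h4
    · rw [h4]; field_simp
    · apply integral_nonneg
      intro z
      unfold rho
      positivity

theorem XX_fin (hφ : Conf φ) : XX φ ≠ ∞ := by
  have h := (ps_sq hφ).parseval ((cont_φ hφ).pow 2) (g := fun _ => 1) measurable_const
  simp only [one_mul] at h
  obtain ⟨C, hC⟩ := hφ.bdd
  have h1 : ∫⁻ z in ball (0 : ℂ) 1, ‖φ z ^ 2‖ₑ ^ 2 ≤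
      ∫⁻ z in ball (0 : ℂ) 1, ENNReal.ofReal (C ^ 4) := by
    apply setLIntegral_mono measurable_const
    intro z hz
    rw [enorm_sq_ofReal]
    apply ENNReal.ofReal_le_ofReal
    rw [norm_pow, ← pow_mul]
    exact pow_le_pow_left₀ (norm_nonneg _) (hC z hz) 4
  have h2 : ∫⁻ z in ball (0 : ℂ) 1, ENNReal.ofReal (C ^ 4) < ∞ := by
    rw [setLIntegral_const]
    exact ENNReal.mul_lt_top ENNReal.ofReal_lt_top measure_ball_lt_top
  rw [h] at h1
  have h3 := lt_of_le_of_lt h1 h2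
  have h4 : ENNReal.ofReal π ≠ 0 := by simp [Real.pi_pos]
  have h5 : ∑' n, ‖AA φ n‖ₑ ^ 2 * ∫⁻ s in Ioo (0 : ℝ) 1, ENNReal.ofReal (s ^ n) ≠ ∞ := by
    intro hh
    rw [hh, ENNReal.mul_top h4] at h3
    exact lt_irrefl _ h3
  have h6 : XX φ ≤ ENNReal.ofReal 2 *
      ∑' n, ‖AA φ n‖ₑ ^ 2 * ∫⁻ s in Ioo (0 : ℝ) 1, ENNReal.ofReal (s ^ n) := by
    unfold XX
    rw [← ENNReal.tsum_mul_left]
    refine ENNReal.tsum_le_tsum fun n => ?_
    rw [int_pow, enorm_sq_ofReal, ← ENNReal.ofReal_mul (by positivity),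
      ← ENNReal.ofReal_mul (by norm_num)]
    apply ENNReal.ofReal_le_ofReal
    unfold xx
    rcases n with _ | _ | m
    · simp [AA_zero hφ]
    · simp [AA_one hφ]
    · push_cast
      have hm : (0 : ℝ) ≤ m := m.cast_nonneg
      have h7 : ((m : ℝ) + 1 + 1) / (((m : ℝ) + 1 + 1) ^ 2 - 1) ≤ 2 * (1 / ((m : ℝ) + 1 + 1 + 1)) := by
        have e1 : ((m : ℝ) + 1 + 1) ^ 2 - 1 = (m + 1) * (m + 3) := by ring
        rw [e1, ← mul_div_assoc, mul_one, div_le_div_iff₀ (by positivity) (by positivity)]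
        nlinarith
      calc ‖AA φ (m + 1 + 1)‖ ^ 2 * (((m : ℝ) + 1 + 1) / (((m : ℝ) + 1 + 1) ^ 2 - 1)) ≤
          ‖AA φ (m + 1 + 1)‖ ^ 2 * (2 * (1 / ((m : ℝ) + 1 + 1 + 1))) := by gcongr
        _ = _ := by ring
  intro hh
  rw [hh, top_le_iff] at h6
  exact ENNReal.mul_ne_top ENNReal.ofReal_ne_top h5 h6

theorem XX_pos (hφ : Conf φ) : XX φ ≠ 0 := by
  intro h
  unfold XX at h
  rw [ENNReal.tsum_eq_zero] at h
  have h1 : ∀ n, AA φ n = 0 := by
    intro n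
    have h2 := h n
    rw [ENNReal.ofReal_eq_zero] at h2
    have h3 : xx φ n = 0 := le_antisymm h2 (xx_nonneg φ n)
    have h4 := AA_le hφ n
    rw [h3, zero_mul] at h4
    have h5 : ‖AA φ n‖ = 0 := by
      have := sq_nonneg ‖AA φ n‖
      have h6 : ‖AA φ n‖ ^ 2 = 0 := le_antisymm h4 this
      exact pow_eq_zero_iff (two_ne_zero) |>.1 h6
    exact norm_eq_zero.1 h5
  have hmem : (1 / 2 : ℂ) ∈ ball (0 : ℂ) 1 := by
    rw [mem_ball_zero_iff]
    norm_num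
  have h2 := (ps_sq hφ).tsum_eq hmem
  simp only [h1, zero_mul, tsum_zero] at h2
  have h3 : φ (1 / 2) = 0 := pow_eq_zero_iff two_ne_zero |>.1 h2
  have h4 := hφ.inj hmem (mem_ball_self one_pos) (by rw [h3, hφ.zero])
  norm_num at h4

theorem real_of_lint {f : ℂ → ℝ} (hm : AEStronglyMeasurable f (volume.restrict (ball 0 1)))
    (h0 : ∀ z ∈ ball (0 : ℂ) 1, 0 ≤ f z)
    (hL : ∫⁻ z in ball (0 : ℂ) 1, ENNReal.ofReal (f z) ≠ ∞) :
    IntegrableOn f (ball 0 1) ∧ ∫ z in ball (0 : ℂ) 1, f z =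
      (∫⁻ z in ball (0 : ℂ) 1, ENNReal.ofReal (f z)).toReal := by
  have h1 : 0 ≤ᵐ[volume.restrict (ball (0 : ℂ) 1)] f :=
    (ae_restrict_iff' measurableSet_ball).2 (Filter.Eventually.of_forall h0)
  refine ⟨⟨hm, ?_⟩, integral_eq_lintegral_of_nonneg_ae h1 hm⟩
  rw [hasFiniteIntegral_iff_ofReal h1]
  exact hL.lt_top

end main

end TrSer

open TrSer

/-- `∫ K q ρ`. -/
noncomputable def T1 (φ : ℂ → ℂ) : ℝ :=
  ∫ z in ball (0 : ℂ) 1, (1 - ‖z‖ ^ 2) ^ 2 / ‖z‖ ^ 2 * ‖φ z‖ ^ 2 * rho φ z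

theorem series_bounds {φ : ℂ → ℂ} (hφ : Conf φ) :
    IntegrableOn (fun z => (1 - ‖z‖ ^ 2) ^ 2 / ‖z‖ ^ 2 * ‖φ z‖ ^ 2 * rho φ z) (ball 0 1) ∧
    0 < T1 φ ∧
    IntegrableOn (fun z => ‖φ z‖ ^ 4 * (1 + (‖z‖ ^ 4)⁻¹)) (ball 0 1) ∧
    ∫ z in ball (0 : ℂ) 1, ‖φ z‖ ^ 4 * (1 + (‖z‖ ^ 4)⁻¹) = 4 * T1 φ ∧
    IntegrableOn (fun z => (1 - ‖z‖ ^ 2) ^ 2 / ‖z‖ ^ 2 * ‖φ z‖ ^ 4 * rho φ z) (ball 0 1) ∧
    ∫ z in ball (0 : ℂ) 1, (1 - ‖z‖ ^ 2) ^ 2 / ‖z‖ ^ 2 * ‖φ z‖ ^ 4 * rho φ z ≤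
      2 / 3 * ((∫ z in ball (0 : ℂ) 1, rho φ z) / π) * T1 φ ∧
    IntegrableOn (fun z => (1 - ‖z‖ ^ 2) ^ 4 * ‖φ z‖ ^ 4 * rho φ z ^ 2) (ball 0 1) ∧
    ∫ z in ball (0 : ℂ) 1, (1 - ‖z‖ ^ 2) ^ 4 * ‖φ z‖ ^ 4 * rho φ z ^ 2 ≤
      2 / 5 * ((∫ z in ball (0 : ℂ) 1, rho φ z) / π) ^ 2 * T1 φ := by
  have hX := XX_fin hφ
  obtain ⟨hY, hYr⟩ := YY_fin hφ
  have hXp : 0 < (XX φ).toReal := ENNReal.toReal_pos (XX_pos hφ) hX
  have mφ : AEMeasurable φ (volume.restrict (ball 0 1)) :=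
    (cont_φ hφ).aemeasurable measurableSet_ball
  have md : AEMeasurable (deriv φ) (volume.restrict (ball 0 1)) :=
    (cont_d hφ).aemeasurable measurableSet_ball
  have mρ : AEMeasurable (rho φ) (volume.restrict (ball 0 1)) := by
    unfold rho
    exact md.norm.pow_const 2
  -- f1
  have m1 : AEStronglyMeasurable (fun z => (1 - ‖z‖ ^ 2) ^ 2 / ‖z‖ ^ 2 * ‖φ z‖ ^ 2 * rho φ z)
      (volume.restrict (ball 0 1)) := by
    apply AEMeasurable.aestronglyMeasurable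
    exact ((by fun_prop : AEMeasurable (fun z : ℂ => (1 - ‖z‖ ^ 2) ^ 2 / ‖z‖ ^ 2)
      (volume.restrict (ball 0 1))).mul (mφ.norm.pow_const 2)).mul mρ
  have l1 : ∫⁻ z in ball (0 : ℂ) 1,
      ENNReal.ofReal ((1 - ‖z‖ ^ 2) ^ 2 / ‖z‖ ^ 2 * ‖φ z‖ ^ 2 * rho φ z) =
      ENNReal.ofReal (π / 2) * XX φ := by
    rw [← lint_1 hφ]
    congr 1
    ext z
    rw [enorm_sq_ofReal, ← ENNReal.ofReal_mul (by positivity), norm_mul, mul_pow, rho, mul_assoc]
  obtain ⟨i1, e1⟩ := real_of_lint m1 (fun z _ => by unfold rho; positivity)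
    (by rw [l1]; exact ENNReal.mul_ne_top ENNReal.ofReal_ne_top hX)
  rw [l1, ENNReal.toReal_mul, ENNReal.toReal_ofReal (by positivity)] at e1
  have eT : T1 φ = π / 2 * (XX φ).toReal := e1
  -- f0
  have m0 : AEStronglyMeasurable (fun z => ‖φ z‖ ^ 4 * (1 + (‖z‖ ^ 4)⁻¹))
      (volume.restrict (ball 0 1)) := by
    apply AEMeasurable.aestronglyMeasurable
    exact (mφ.norm.pow_const 4).mul (by fun_prop)
  have l0 : ∫⁻ z in ball (0 : ℂ) 1, ENNReal.ofReal (‖φ z‖ ^ 4 * (1 + (‖z‖ ^ 4)⁻¹)) =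
      ENNReal.ofReal (2 * π) * XX φ := by
    rw [← lint_0 hφ]
    congr 1
    ext z
    rw [enorm_sq_ofReal, ← ENNReal.ofReal_mul (by positivity), norm_pow, ← pow_mul, ← pow_mul,
      mul_comm]
  obtain ⟨i0, e0⟩ := real_of_lint m0 (fun z _ => by positivity)
    (by rw [l0]; exact ENNReal.mul_ne_top ENNReal.ofReal_ne_top hX)
  rw [l0, ENNReal.toReal_mul, ENNReal.toReal_ofReal (by positivity)] at e0
  -- f2
  have m2 : AEStronglyMeasurable (fun z => (1 - ‖z‖ ^ 2) ^ 2 / ‖z‖ ^ 2 * ‖φ z‖ ^ 4 * rho φ z)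
      (volume.restrict (ball 0 1)) := by
    apply AEMeasurable.aestronglyMeasurable
    exact ((by fun_prop : AEMeasurable (fun z : ℂ => (1 - ‖z‖ ^ 2) ^ 2 / ‖z‖ ^ 2)
      (volume.restrict (ball 0 1))).mul (mφ.norm.pow_const 4)).mul mρ
  have l2 : ∫⁻ z in ball (0 : ℂ) 1,
      ENNReal.ofReal ((1 - ‖z‖ ^ 2) ^ 2 / ‖z‖ ^ 2 * ‖φ z‖ ^ 4 * rho φ z) ≤
      ENNReal.ofReal (π / 3) * (XX φ * YY φ) := by
    refine le_trans (le_of_eq ?_) (lint_2 hφ)
    congr 1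
    ext z
    rw [enorm_sq_ofReal, ← ENNReal.ofReal_mul (by positivity), norm_mul, mul_pow, rho, mul_assoc,
      norm_pow, ← pow_mul]
  have f2 : ENNReal.ofReal (π / 3) * (XX φ * YY φ) ≠ ∞ :=
    ENNReal.mul_ne_top ENNReal.ofReal_ne_top (ENNReal.mul_ne_top hX hY)
  obtain ⟨i2, e2⟩ := real_of_lint m2 (fun z _ => by unfold rho; positivity)
    (ne_top_of_le_ne_top f2 l2)
  have b2 := ENNReal.toReal_mono f2 l2
  rw [← e2, ENNReal.toReal_mul, ENNReal.toReal_mul, ENNReal.toReal_ofReal (by positivity)] at b2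
  -- f3
  have m3 : AEStronglyMeasurable (fun z => (1 - ‖z‖ ^ 2) ^ 4 * ‖φ z‖ ^ 4 * rho φ z ^ 2)
      (volume.restrict (ball 0 1)) := by
    apply AEMeasurable.aestronglyMeasurable
    exact ((by fun_prop : AEMeasurable (fun z : ℂ => (1 - ‖z‖ ^ 2) ^ 4)
      (volume.restrict (ball 0 1))).mul (mφ.norm.pow_const 4)).mul (mρ.pow_const 2)
  have l3 : ∫⁻ z in ball (0 : ℂ) 1,
      ENNReal.ofReal ((1 - ‖z‖ ^ 2) ^ 4 * ‖φ z‖ ^ 4 * rho φ z ^ 2) ≤
      ENNReal.ofReal (π / 5) * (XX φ * YY φ * YY φ) := by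
    refine le_trans (le_of_eq ?_) (lint_3 hφ)
    congr 1
    ext z
    rw [enorm_sq_ofReal, ← ENNReal.ofReal_mul (by positivity), norm_mul, norm_mul, mul_pow,
      mul_pow, rho, norm_pow]
    congr 1
    ring
  have f3 : ENNReal.ofReal (π / 5) * (XX φ * YY φ * YY φ) ≠ ∞ :=
    ENNReal.mul_ne_top ENNReal.ofReal_ne_top (ENNReal.mul_ne_top (ENNReal.mul_ne_top hX hY) hY)
  obtain ⟨i3, e3⟩ := real_of_lint m3 (fun z _ => by positivity)
    (ne_top_of_le_ne_top f3 l3)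
  have b3 := ENNReal.toReal_mono f3 l3
  rw [← e3, ENNReal.toReal_mul, ENNReal.toReal_mul, ENNReal.toReal_mul,
    ENNReal.toReal_ofReal (by positivity)] at b3
  have hπ := Real.pi_pos
  refine ⟨i1, by rw [eT]; positivity, i0, by rw [e0, eT]; ring, i2, ?_, i3, ?_⟩
  · rw [← hYr, eT]
    refine b2.trans (le_of_eq ?_)
    ring
  · rw [← hYr, eT]
    refine b3.trans (le_of_eq ?_)
    ring

end Crest.Agent.R101
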